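import Crest.Agent.X212.Cut21.Leaf
import Crest.Agent.X212.Alg36.Cut2a

-- ▼ part X212/Cut21/Psh
section

/-!
# X212 / Cut21 (helper21): the push off the frontier layer, normal form near `R₊`
-/

set_option autoImplicit false
set_option linter.unusedSectionVars false

open Finset Classical

noncomputable section

namespace Crest.Agent.X212.Cut21

open Crest.Agent.X212.Hp13 Crest.Agent.X212.Alg36
open Crest.Agent.X212.Ind26 (tri tri_val top_tri bot_tri)

variable {P : Type} [PartialOrder P] [Fintype P] {A : Set P} {z : P → P → ℤ}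

/-- the level `k` over `a` lies under all of `O₊` -/
def Hi (A : Set P) (z : P → P → ℤ) (a : P) (k : ℤ) : Prop :=
  a ∈ Fr A ∧ ∀ o, o ∉ A → a ≤ o → k < z a o

theorem Hi.anti {a : P} {k k' : ℤ} (h : Hi A z a k) (e : k' ≤ k) : Hi A z a k' :=
  ⟨h.1, fun o h1 h2 => e.trans_lt (h.2 o h1 h2)⟩

theorem Hi.up (hz : Coc A z) {a b : P} {k : ℤ} (h : Hi A z a (k + z a b)) (e : a ≤ b)
    (hb : b ∈ Fr A) : Hi A z b k := ⟨hb, fun o h1 h2 => by
  have := h.2 o h1 (e.trans h2)
  have := (tri1 h.1.1 e h2).add hz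
  omega⟩

theorem lt_card {p : ℕ → Prop} [DecidablePred p] (hp : ∀ i j, i ≤ j → p j → p i) (N j : ℕ) :
    j < ((range N).filter p).card ↔ j < N ∧ p j := by
  constructor
  · intro h
    by_contra k
    have : (range N).filter p ⊆ range j := fun i hi => mem_range.2 <| not_le.1 fun l =>
      k ⟨l.trans_lt (mem_range.1 (mem_filter.1 hi).1), hp _ _ l (mem_filter.1 hi).2⟩
    have := card_le_card this
    rw [card_range] at this; omega
  · intro h
    have : range (j + 1) ⊆ (range N).filter p := fun i hi => by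
      have := mem_range.1 hi
      exact mem_filter.2 ⟨mem_range.2 (by omega), hp _ _ (by omega) h.2⟩
    have := card_le_card this
    rw [card_range] at this; omega

theorem pg_nn (c : Ch P) : 0 ≤ pg A z c := by unfold pg; split_ifs <;> positivity

theorem pg_off {c : Ch P} (h : c.top ∉ A) : pg A z c = 0 := if_neg h

theorem le_sum (z : P → P → ℤ) (x y : P) : z x y ≤ (∑ x, ∑ y, (z x y).toNat : ℕ) := by
  have h1 : (z x y).toNat ≤ ∑ y, (z x y).toNat :=
    single_le_sum (f := fun y => (z x y).toNat) (fun _ _ => Nat.zero_le _) (mem_univ y)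
  have h2 : ∑ y, (z x y).toNat ≤ ∑ x, ∑ y, (z x y).toNat :=
    single_le_sum (f := fun x => ∑ y, (z x y).toNat) (fun _ _ => Nat.zero_le _) (mem_univ x)
  have := Int.self_le_toNat (z x y)
  omega

theorem lt_pg (hm : Mono A z) {c : Ch P} {j : ℤ} (hj : 0 ≤ j) :
    j < pg A z c ↔ c.top ∈ A ∧ ∃ a ∈ c.1, Hi A z a (j + z a c.top) := by
  by_cases h : c.top ∈ A
  swap
  · rw [pg_off h]; exact ⟨fun k => by omega, fun k => absurd k.1 h⟩
  lift j to ℕ using hj
  rw [pg, if_pos h, Nat.cast_lt, lt_card]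
  · constructor
    · rintro ⟨-, a, h1, h2, h3⟩
      exact ⟨h, a, h1, h2, fun o k1 k2 => by have := h3 o k1 k2; omega⟩
    · rintro ⟨-, a, h1, h2, h3⟩
      refine ⟨?_, a, h1, h2, fun o k1 k2 => by have := h3 o k1 k2; omega⟩
      obtain ⟨ha, o, k1, k2⟩ := h2
      have := h3 o k1 k2
      have := hm _ _ (Dp.of_left ha (Ch.le_top h1))
      have := le_sum z a o
      omega
  · rintro i j l ⟨a, h1, h2, h3⟩
    exact ⟨a, h1, h2, fun o k1 k2 => by have := h3 o k1 k2; omega⟩

theorem psh_val (c d : Ch P) : psh A z c d = z c.top d.top + (pg A z d - pg A z c) := rfl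

theorem coc_psh (hz : Coc A z) : Coc (Ch.top ⁻¹' A) (psh A z) :=
  (hz.pb Ch.top_mono).add (coc_cb _)

theorem eqv_psh : Eqv (Ch.top ⁻¹' A) (pb Ch.top z) (psh A z) := eqv_add_cb fun _ => pg_off

theorem pg_le (hz : Coc A z) (hm : Mono A z) {c d : Ch P} (h : c ≤ d) (hp : Dp A c.top d.top) :
    pg A z c ≤ z c.top d.top + pg A z d := by
  have h0 := hm _ _ hp
  have h1 := pg_nn (A := A) (z := z) d
  by_contra k
  obtain ⟨hc, a, ha, hi⟩ := (lt_pg hm (c := c) (j := pg A z c - 1) (by omega)).1 (by omega)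
  have e := (tri1 hi.1.1 (Ch.le_top ha) hp.1).add hz
  by_cases hd : d.top ∈ A
  · have := (lt_pg hm (c := d) (j := pg A z c - 1 - z c.top d.top) (by omega)).2
      ⟨hd, a, h ha, hi.anti (by omega)⟩
    omega
  · have := hi.2 _ hd ((Ch.le_top ha).trans hp.1)
    omega

theorem mono_psh (hz : Coc A z) (hm : Mono A z) : Mono (Ch.top ⁻¹' A) (psh A z) :=
  fun c d hp => by
    have := pg_le hz hm hp.1 (hp.map Ch.top_mono)
    rw [psh_val]; omega

theorem vert_psh (hz : Coc A z) (hm : Mono A z) : VertP (Ch.top ⁻¹' A) (psh A z) := by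
  intro c hc
  rw [fr_sd] at hc
  obtain ⟨o, ⟨h1, h2⟩, h3⟩ := Set.exists_min_image {o | o ∉ A ∧ c.top ≤ o} (z c.top)
    (Set.toFinite _) hc.2
  refine ⟨tp c o h2, by simpa using h1, le_tp _ _ _, ?_⟩
  have e := pg_off (A := A) (z := z) (c := tp c o h2) (by simpa using h1)
  have l := pg_le hz hm (le_tp c o h2) (by simpa using Dp.of_left hc.1 h2)
  have l0 := pg_nn (A := A) (z := z) c
  rw [psh_val]
  rw [e, top_tp] at *
  by_contra k
  have := (lt_pg hm (c := c) (j := z c.top o - 1) (by omega)).2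
    ⟨hc.1, _, c.top_mem, hc, fun p k1 k2 => by
      have := h3 p ⟨k1, k2⟩; have := self0 hz hc.1; omega⟩
  omega

/-- the interior points over `a` under the level `k` -/
def Iv (A : Set P) (z : P → P → ℤ) (a : P) (k : ℤ) : Set P :=
  {b | b ∈ A ∧ a ≤ b ∧ b ∉ Fr A ∧ z a b < k + 1}

theorem TK.iv (h : TK A z) {a : P} (ha : a ∈ Fr A) {k : ℤ} (hk : 0 ≤ k) : Ctr (Iv A z a k) :=
  h a ha (k + 1) (by omega)

theorem sum_pg (hz : Coc A z) (hm : Mono A z) (ht : TK A z) : ∑ c, eps c * pg A z c = 0 := by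
  obtain ⟨N, hN⟩ : ∃ N : ℕ, ∀ a (c : Ch P), z a c.top + pg A z c ≤ N :=
    let ⟨N, hN⟩ := (Set.finite_range fun p : P × Ch P => z p.1 p.2.top + pg A z p.2).bddAbove
    ⟨N.toNat, fun a c => (hN ⟨(a, c), rfl⟩).trans (Int.self_le_toNat N)⟩
  let H : ℕ → P → Ch P → ℤ := fun i a c =>
    if Hi A z a i ∧ ∀ x ∈ c.1, a < x → x ∈ Iv A z a i then 1 else 0
  have k : ∀ c : Ch P, eps c * pg A z c =
      -∑ a, ∑ i ∈ range N, if a ∈ c.1 then c.sg * H i a c else 0 := by
    intro c
    have tA : ∀ i a, a ∈ c.1 → (Hi A z a i ∧ ∀ x ∈ c.1, a < x → x ∈ Iv A z a i) → c.top ∈ A :=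
      fun i a ha h => (Ch.le_top ha).eq_or_lt.elim (fun e => e ▸ h.1.1.1)
        fun l => (h.2 _ c.top_mem l).1
    by_cases h1 : c.top ∈ A ∧ ∃ a ∈ c.1, a ∈ Fr A
    · obtain ⟨h1, a0, h2, h3⟩ := h1
      let d := c.sub (c.1.filter (· ∈ Fr A)) ⟨a0, mem_filter.2 ⟨h2, h3⟩⟩ (filter_subset _ _)
      obtain ⟨ha, hf⟩ := mem_filter.1 d.top_mem
      have hl : ∀ x ∈ c.1, x ∈ Fr A → x ≤ d.top := fun x k1 k2 =>
        Ch.le_top (c := d) (mem_filter.2 ⟨k1, k2⟩)
      generalize d.top = a at ha hf hl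
      rw [sum_eq_single a _ (fun h => absurd (mem_univ _) h), eps_ch, neg_mul, neg_inj]
      · have z0 := hm _ _ (Dp.of_left hf.1 (Ch.le_top ha))
        have z1 := pg_nn (A := A) (z := z) c
        have := hN a c
        have e : pg A z c = ∑ i ∈ range N, ((if (i : ℤ) < z a c.top + pg A z c then 1 else 0) -
            (if (i : ℤ) < z a c.top then 1 else 0)) := by
          rw [sum_sub_distrib, sum_range_lt (by omega) this, sum_range_lt z0 (by omega)]; ring
        rw [congrArg (c.sg * ·) e, mul_sum]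
        refine sum_congr rfl fun i _ => ?_
        rw [if_pos ha]
        congr 1
        by_cases l : (i : ℤ) < z a c.top
        · rw [if_pos l, if_pos (by omega), sub_self]
          refine (if_neg fun h => ?_).symm
          rcases (Ch.le_top ha).eq_or_lt with e | e
          · rw [← e, self0 hz hf.1] at l; omega
          · have := (h.2 _ c.top_mem e).2.2.2; omega
        rw [if_neg l, sub_zero]
        have q := lt_pg hm (c := c) (j := i - z a c.top) (by omega)
        refine if_congr ⟨fun h => ?_, fun h => ?_⟩ rfl rfl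
        · obtain ⟨-, b, hb, hi⟩ := q.1 (by omega)
          have := (tri1 hi.1.1 (hl b hb hi.1) (Ch.le_top ha)).add hz
          refine ⟨Hi.up hz (hi.anti (by omega)) (hl b hb hi.1) hf, fun x hx lt => ?_⟩
          have hx' : x ∈ A := by_contra fun n => n (by
            by_contra n'
            exact absurd (hi.2 x n (hl b hb hi.1 |>.trans lt.le)) (by
              have := (tri1 hi.1.1 ((hl b hb hi.1).trans lt.le) (Ch.le_top hx)).add hz
              have := hm _ _ (Dp.of_right h1 (Ch.le_top hx))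
              omega))
          have := (tri1 hf.1 lt.le (Ch.le_top hx)).add hz
          have := hm _ _ (Dp.of_right h1 (Ch.le_top hx))
          exact ⟨hx', lt.le, fun f => (hl x hx f).not_gt lt, by omega⟩
        · have := q.2 ⟨h1, a, ha, h.1.anti (by omega)⟩
          omega
      · refine fun b _ hb => sum_eq_zero fun i _ => ?_
        split_ifs with k
        · rw [show H i b c = 0 from if_neg fun h =>
            (h.2 a ha (lt_of_le_of_ne (hl b k h.1.1) hb)).2.2.1 hf, mul_zero]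
        · rfl
    · have : pg A z c = 0 := le_antisymm (not_lt.1 fun h =>
        let ⟨k1, a, k2, k3⟩ := (lt_pg hm le_rfl).1 h; h1 ⟨k1, a, k2, k3.1⟩) (pg_nn c)
      rw [this, mul_zero, eq_comm, neg_eq_zero]
      refine sum_eq_zero fun a _ => sum_eq_zero fun i _ => ?_
      split_ifs with k
      · rw [show H i a c = 0 from if_neg fun h => h1 ⟨tA i a k h, a, k, h.1.1⟩, mul_zero]
      · rfl
  rw [sum_congr rfl fun c _ => k c, sum_neg_distrib, neg_eq_zero, sum_comm]
  refine sum_eq_zero fun a _ => ?_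
  rw [sum_comm]
  refine sum_eq_zero fun i _ => ?_
  rw [← sum_filter, sum_through a (fun _ => 1) (H i a) (H i a)]
  · by_cases hi : Hi A z a i
    swap
    · rw [sum_eq_zero (s := univ.filter fun c : Ch P => c.bot = a) fun c _ => by
        rw [show H i a c = 0 from if_neg fun h => hi h.1, mul_zero], mul_zero, neg_zero]
    have e : ∑ c ∈ univ.filter (fun c : Ch P => c.bot = a), c.sg * H i a c =
        ∑ c ∈ univ.filter (fun c : Ch P => c.bot = a ∧ ∀ x ∈ c.1, a < x → x ∈ Iv A z a i),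
          c.sg := by
      simp only [sum_filter, H]
      refine sum_congr rfl fun c _ => ?_
      by_cases k1 : c.bot = a <;> by_cases k2 : ∀ x ∈ c.1, a < x → x ∈ Iv A z a i <;>
        simp [k1, k2, hi]
    rw [e, eu_split (X := insert a (Iv A z a i)) (Y := Iv A z a i) (Set.subset_insert _ _),
      (ht.iv hi.1 (by omega)).eu, eu_cone (Set.mem_insert _ _), sub_self, mul_zero, neg_zero]
    · rintro x (rfl | h)
      exacts [Cm.rfl, Or.inl h.2.1]
    · intro c
      refine ⟨fun h => ⟨fun x hx => ?_, fun k => (k _ c.bot_mem).2.2.1 (h.1 ▸ hi.1)⟩, fun h => ?_⟩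
      · exact (h.1 ▸ Ch.bot_le hx : a ≤ x).eq_or_lt.elim (fun e => Or.inl e.symm)
          fun l => Or.inr (h.2 x hx l)
      · refine ⟨?_, fun x hx l => (h.1 x hx).resolve_left l.ne'⟩
        have : a ∈ c.1 := by_contra fun n => h.2 fun x hx =>
          (h.1 x hx).resolve_left fun e => n (e ▸ hx)
        exact Ch.bot_eq this fun x hx => (h.1 x hx).elim (fun e => e.ge) fun k => k.2.1
  · intro c c₁ c₂ e1 e2 e
    rw [one_mul]
    refine if_congr (and_congr_right fun _ => ⟨fun h x hx => h x (e ▸ mem_union_right _ hx),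
      fun h x hx l => h x ((mem_union.1 (e ▸ hx)).resolve_left fun k => ?_) l⟩) rfl rfl
    exact (e1 ▸ Ch.le_top k : x ≤ a).not_gt l

theorem chi_psh (hM : Mf 3 (Ch.top ⁻¹' A : Set (Ch P))) (hz : Coc A z) (hm : Mono A z)
    (ht : TK A z) : chi (Ch.top ⁻¹' A) (psh A z) = chi A z := by
  rw [psh, chi_add, chi_top, chi_cb hM (g := pg A z) fun _ => pg_off, sum_pg hz hm ht, mul_zero, add_zero]

end Crest.Agent.X212.Cut21
end
end

-- ▼ part X212/Cut21/Psh2

/-!
# X212 / Cut21 (helper21): the push keeps `NC`; `TK` after thickening; `NfStmt`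
-/

set_option autoImplicit false
set_option linter.unusedSectionVars false

open Finset Classical

noncomputable section

namespace Crest.Agent.X212.Cut21

open Crest.Agent.X212.Hp13 Crest.Agent.X212.Alg36
open Crest.Agent.X212.Ind26 (tri tri_val top_tri bot_tri)

variable {P : Type} [PartialOrder P] [Fintype P] {A : Set P} {z : P → P → ℤ}

theorem Tb.R' {P : Type} [PartialOrder P] {A : Set P} {z : P → P → ℤ} {x y w : P} {k : ℤ}
    (h1 : x ≤ y) (h2 : y ≤ w) (h0 : 0 ≤ k) (h3 : k < z x y) : Tb A z x y k ↔ Tb A z x w k := by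
  by_cases hx : x ∈ A
  · exact Tb.R (tri1 hx h1 h2) h0 h3
  by_cases hy : y ∈ A
  · exact Tb.R (tri2 hy h1 h2) h0 h3
  by_cases hw : w ∈ A
  · exact Tb.R (tri3 hw h1 h2) h0 h3
  exact ⟨fun _ => Tb.base hx hw, fun _ => Tb.base hx hy⟩

theorem Tb.L' {P : Type} [PartialOrder P] {A : Set P} {z : P → P → ℤ} {x y w : P} {k k' : ℤ}
    (h1 : x ≤ y) (h2 : y ≤ w) (h0 : 0 ≤ k) (h3 : k < z y w) (e : k' = k + z x y) :
    Tb A z y w k ↔ Tb A z x w k' := by
  by_cases hx : x ∈ A
  · exact Tb.L (tri1 hx h1 h2) h0 h3 e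
  by_cases hy : y ∈ A
  · exact Tb.L (tri2 hy h1 h2) h0 h3 e
  by_cases hw : w ∈ A
  · exact Tb.L (tri3 hw h1 h2) h0 h3 e
  exact ⟨fun _ => Tb.base hx hw, fun _ => Tb.base hy hw⟩

/-- `Tb` for the push, the level is read over `top c` -/
def TP (A : Set P) (z : P → P → ℤ) (c d : Ch P) (j : ℤ) : Prop :=
  Tb (Ch.top ⁻¹' A) (psh A z) c d (j - pg A z c)

theorem TP.R {c d e : Ch P} {j : ℤ} (h1 : c ≤ d) (h2 : d ≤ e) (h0 : pg A z c ≤ j)
    (h3 : j < z c.top d.top + pg A z d) : TP A z c d j ↔ TP A z c e j :=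
  Tb.R' h1 h2 (by omega) (by rw [psh_val]; omega)

theorem TP.L {c d e : Ch P} {j j' : ℤ} (h1 : c ≤ d) (h2 : d ≤ e) (h0 : pg A z d ≤ j)
    (h3 : j < z d.top e.top + pg A z e) (k : j' = j + z c.top d.top) :
    TP A z d e j ↔ TP A z c e j' :=
  Tb.L' h1 h2 (by omega) (by rw [psh_val]; omega) (by rw [psh_val]; omega)

/-- the pushed sheet over a frontier point -/
def HP (A : Set P) (z : P → P → ℤ) (a : P) (k : ℤ) : Prop :=
  ∀ b, ∀ h : b ∈ Iv A z a k, TP A z (Ch.pt b) (Ch.pr a b h.2.1) (k - z a b)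

section
variable (hz : Coc A z) (hm : Mono A z)
include hz hm

theorem pg_le_of {c : Ch P} {j : ℤ} (hj : 0 ≤ j)
    (h : ∀ a ∈ c.1, ¬ Hi A z a (j + z a c.top)) : pg A z c ≤ j :=
  not_lt.1 fun k => let ⟨_, a, h1, h2⟩ := (lt_pg hm hj).1 k; h a h1 h2

theorem pg_pt {x : P} {j : ℤ} (hj : 0 ≤ j) (h : ¬ Hi A z x j) : pg A z (Ch.pt x) ≤ j :=
  pg_le_of hz hm hj fun a ha k => by
    obtain rfl := mem_singleton.1 ha
    rw [Ch.top_pt, self0 hz k.1.1, add_zero] at k
    exact h k

theorem lt_hi {c : Ch P} {a x : P} {j : ℤ} (ha : a ∈ c.1)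
    (h : Hi A z a (j - z x c.top + z a c.top)) : j < z x c.top + pg A z c := by
  have h1 := pg_nn (A := A) (z := z) c
  by_contra k
  by_cases hc : c.top ∈ A
  · have := (lt_pg hm (c := c) (j := j - z x c.top) (by omega)).2 ⟨hc, a, ha, h⟩
    omega
  · have := h.2 _ hc (Ch.le_top ha)
    omega

theorem hp_iff (ht : TK A z) {a b : P} {k : ℤ} (h : Hi A z a k) (hk : 0 ≤ k)
    (hb : b ∈ Iv A z a k) :
    HP A z a k ↔ TP A z (Ch.pt b) (Ch.pr a b hb.2.1) (k - z a b) := by
  refine ⟨fun r => r b hb, fun r b' hb' => ?_⟩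
  refine ((ht.iv h.1 hk).conn b hb b' hb').ind
    (p := fun b => ∀ h : b ∈ Iv A z a k, TP A z (Ch.pt b) (Ch.pr a b h.2.1) (k - z a b))
    (fun _ => r) (fun x hx y hy l => ?_) hb'
  have e := (tri1 h.1.1 hx.2.1 l).add hz
  have e0 := self0 hz hx.1
  have e1 := self0 hz hy.1
  have l1 := hx.2.2.2
  have l2 := hy.2.2.2
  have z1 := hm _ _ (Dp.of_left hx.1 l)
  have k1 : TP A z (Ch.pt x) (Ch.pr a x hx.2.1) (k - z a x) ↔
      TP A z (Ch.pt x) (tri a x y hx.2.1 l) (k - z a x) :=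
    TP.R (by simp [Ch.pt_le]) (pr_le (by simp) (by simp))
      (pg_pt hz hm (by omega) fun h => hx.2.2.1 h.1)
      (lt_hi hz hm (a := a) (by simp) (h.anti (by simp; omega)))
  have q : k - z a y < z y y + pg A z (tri a x y hx.2.1 l) := by
    simpa using lt_hi hz hm (c := tri a x y hx.2.1 l) (a := a) (x := y) (j := k - z a y) (by simp)
      (h.anti (by simp; omega))
  have p : pg A z (Ch.pr x y l) ≤ k - z a y := pg_le_of hz hm (by omega) fun t ht h =>
    (mem_pr.1 ht).elim (fun e => hx.2.2.1 (e ▸ h.1)) fun e => hy.2.2.1 (e ▸ h.1)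
  have k2 : TP A z (Ch.pr x y l) (tri a x y hx.2.1 l) (k - z a y) ↔
      TP A z (Ch.pt x) (tri a x y hx.2.1 l) (k - z a x) :=
    TP.L (by simp [Ch.pt_le]) (pr_le (by simp) (by simp)) p (by simpa using q) (by simp; omega)
  have k3 : TP A z (Ch.pr x y l) (tri a x y hx.2.1 l) (k - z a y) ↔
      TP A z (Ch.pt y) (tri a x y hx.2.1 l) (k - z a y) :=
    TP.L (by simp [Ch.pt_le]) (pr_le (by simp) (by simp)) p (by simpa using q) (by simp; omega)
  have k4 : TP A z (Ch.pt y) (Ch.pr a y hy.2.1) (k - z a y) ↔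
      TP A z (Ch.pt y) (tri a x y hx.2.1 l) (k - z a y) :=
    TP.R (by simp [Ch.pt_le]) (pr_le (by simp) (by simp))
      (pg_pt hz hm (by omega) fun h => hy.2.2.1 h.1)
      (lt_hi hz hm (a := a) (by simp) (h.anti (by simp; omega)))
  exact ⟨fun r _ => k4.2 (k3.1 (k2.2 (k1.1 (r hx)))), fun r _ => k1.2 (k2.1 (k3.2 (k4.1 (r hy))))⟩

/-- a point `b` over `a`, a bottom `x` -/
theorem tp_bot {x a b : P} {k : ℤ} (l : x ≤ a) (h : Hi A z a k) (hb : b ∈ Iv A z a k) :
    TP A z (Ch.pt b) (Ch.pr a b hb.2.1) (k - z a b) ↔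
      TP A z (Ch.pt b) (tri x a b l hb.2.1) (k - z a b) := by
  have e0 := self0 hz hb.1
  have l1 := hb.2.2.2
  exact TP.R (by simp [Ch.pt_le]) (pr_le (by simp) (by simp))
    (pg_pt hz hm (by omega) fun h => hb.2.2.1 h.1)
    (lt_hi hz hm (a := a) (by simp) (h.anti (by simp; omega)))

theorem hp_hi (ht : TK A z) {x a : P} {k : ℤ} (l : x ≤ a) (h : Hi A z a k) (hk : 0 ≤ k)
    (h' : Hi A z x (k + z x a)) : HP A z a k ↔ HP A z x (k + z x a) := by
  obtain ⟨b, hb⟩ := (ht.iv h.1 hk).ne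
  have e := (tri1 h'.1.1 l hb.2.1).add hz
  have z1 := hm _ _ (Dp.of_left h'.1.1 l)
  have l1 := hb.2.2.2
  have e0 := self0 hz hb.1
  have hb' : b ∈ Iv A z x (k + z x a) := ⟨hb.1, l.trans hb.2.1, hb.2.2.1, by omega⟩
  rw [hp_iff hz hm ht h hk hb, hp_iff hz hm ht h' (by omega) hb', tp_bot hz hm l h hb,
    show k + z x a - z x b = k - z a b by omega]
  exact (TP.R (by simp [Ch.pt_le]) (pr_le (by simp) (by simp))
    (pg_pt hz hm (by omega) fun h => hb.2.2.1 h.1)
    (lt_hi hz hm (a := x) (by simp) (h'.anti (by simp; omega)))).symm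

theorem hp_lo (ht : TK A z) {x a : P} {k : ℤ} (l : x ≤ a) (h : Hi A z a k) (hk : 0 ≤ k)
    (h' : ¬ Hi A z x (k + z x a)) :
    HP A z a k ↔ TP A z (Ch.pt x) (Ch.pr x a l) (k + z x a) := by
  obtain ⟨b, hb⟩ := (ht.iv h.1 hk).ne
  have e := (tri2 h.1.1 l hb.2.1).add hz
  have z1 := hm _ _ (Dp.of_right h.1.1 l)
  have l1 := hb.2.2.2
  have e0 := self0 hz hb.1
  have e1 := self0 hz h.1.1
  have lb := l.trans hb.2.1
  have q : k - z a b < z b b + pg A z (tri x a b l hb.2.1) := by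
    simpa using lt_hi hz hm (c := tri x a b l hb.2.1) (a := a) (x := b) (j := k - z a b) (by simp)
      (h.anti (by simp; omega))
  have p : pg A z (Ch.pr x b lb) ≤ k - z a b := pg_le_of hz hm (by omega) fun t ht h =>
    (mem_pr.1 ht).elim (fun e => h' (e ▸ h.anti (by simp [e]; omega)))
      fun e => hb.2.2.1 (e ▸ h.1)
  rw [hp_iff hz hm ht h hk hb, tp_bot hz hm l h hb,
    ← TP.L (d := Ch.pr x b lb) (j := k - z a b) (by simp [Ch.pt_le]) (pr_le (by simp) (by simp)) p
      (by simpa using q) (by simp; omega),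
    TP.L (c := Ch.pt x) (j' := k + z x a) (by simp [Ch.pt_le]) (pr_le (by simp) (by simp)) p
      (by simpa using q) (by simp; omega)]
  exact (TP.R (by simp [Ch.pt_le]) (pr_le (by simp) (by simp)) (pg_pt hz hm (by omega) h')
    (lt_hi hz hm (a := a) (by simp) (h.anti (by simp; omega)))).symm

theorem nc_psh (hA : A.OrdConnected) (ht : TK A z) (hn : NC A z) :
    NC (Ch.top ⁻¹' A) (psh A z) := by
  have nn := pg_nn (A := A) (z := z)
  have key : ∀ x y k, Dp A x y → 0 ≤ k → k < z x y → (Hi A z x k → HP A z x k) ∧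
      (¬ Hi A z x k → ∀ l : x ≤ y, TP A z (Ch.pt x) (Ch.pr x y l) k) := by
    intro x y k hp h0 h1
    refine hn.ind hz hm (G := fun x y k => (Hi A z x k → HP A z x k) ∧
      (¬ Hi A z x k → ∀ l : x ≤ y, TP A z (Ch.pt x) (Ch.pr x y l) k)) ?_ ?_ ?_ hp h0 h1
    · exact fun x y k _ hx hy _ _ => ⟨fun h => absurd h.1.1 hx,
        fun _ _ => Tb.base (by simpa using hx) (by simpa using hy)⟩
    · intro x y w k t h0 h1
      refine and_congr_right fun _ => forall_congr' fun h => ?_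
      have e := t.add hz
      have := hm _ _ t.d23
      rw [forall_prop_of_true t.1, forall_prop_of_true (t.1.trans t.2.1),
        TP.R (e := tri x y w t.1 t.2.1) (by simp [Ch.pt_le]) (pr_le (by simp) (by simp))
          (pg_pt hz hm h0 h) (by have := nn (Ch.pr x y t.1); simp; omega)]
      exact (TP.R (by simp [Ch.pt_le]) (pr_le (by simp) (by simp)) (pg_pt hz hm h0 h)
        (by have := nn (Ch.pr x w (t.1.trans t.2.1)); simp; omega)).symm
    · intro x y w k t h0 h1
      have e := t.add hz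
      have z1 := hm _ _ t.d12
      have z2 := hm _ _ t.d23
      have yy : z y y = 0 := by
        have := (show Tri A y y w from ⟨le_rfl, t.2.1, let ⟨a, h, _, c2, c3⟩ := t.2.2
          ⟨a, h, c2, c2, c3⟩⟩).add hz
        omega
      have lw := t.1.trans t.2.1
      have R1 : ¬ Hi A z x (k + z x y) → (TP A z (Ch.pt x) (Ch.pr x w lw) (k + z x y) ↔
          TP A z (Ch.pt x) (tri x y w t.1 t.2.1) (k + z x y)) := fun h =>
        TP.R (by simp [Ch.pt_le]) (pr_le (by simp) (by simp)) (pg_pt hz hm (by omega) h)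
          (by have := nn (Ch.pr x w lw); simp; omega)
      have R2 : ¬ Hi A z y k → (TP A z (Ch.pt y) (Ch.pr y w t.2.1) k ↔
          TP A z (Ch.pt y) (tri x y w t.1 t.2.1) k) := fun h =>
        TP.R (by simp [Ch.pt_le]) (pr_le (by simp) (by simp)) (pg_pt hz hm h0 h)
          (by have := nn (Ch.pr y w t.2.1); simp; omega)
      by_cases a1 : Hi A z y k <;> by_cases a2 : Hi A z x (k + z x y) <;>
        simp only [a1, a2, not_true, not_false_iff, true_imp_iff, false_imp_iff, and_true, true_and,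
          forall_prop_of_true lw, forall_prop_of_true t.2.1]
      · exact hp_hi hz hm ht t.1 a1 h0 a2
      · rw [hp_lo hz hm ht t.1 a1 h0 a2, R1 a2]
        exact TP.R (by simp [Ch.pt_le]) (pr_le (by simp) (by simp)) (pg_pt hz hm (by omega) a2)
          (lt_hi hz hm (a := y) (by simp) (a1.anti (by simp; omega)))
      · have hy : y ∈ A := by_contra fun n => by have := a2.2 y n t.1; omega
        have hb : y ∈ Iv A z x (k + z x y) :=
          ⟨hy, t.1, fun f => a1 (Hi.up hz a2 t.1 f), by omega⟩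
        rw [hp_iff hz hm ht a2 (by omega) hb, R2 a1, add_sub_cancel_right]
        exact (TP.R (by simp [Ch.pt_le]) (pr_le (by simp) (by simp)) (pg_pt hz hm h0 a1)
          (lt_hi hz hm (a := x) (by simp) (a2.anti (by simp; omega)))).symm
      · have p : pg A z (Ch.pr x y t.1) ≤ k := pg_le_of hz hm h0 fun s hs h =>
          (mem_pr.1 hs).elim (fun e => a2 (e ▸ h.anti (by simp [e])))
            fun e => a1 (e ▸ h.anti (by simp [e, yy]))
        have q : k < z y w + pg A z (tri x y w t.1 t.2.1) := by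
          have := nn (tri x y w t.1 t.2.1); omega
        rw [R1 a2, R2 a1, ← TP.L (d := Ch.pr x y t.1) (j := k) (by simp [Ch.pt_le])
          (pr_le (by simp) (by simp)) p (by simpa using q) (by simp; omega)]
        exact TP.L (by simp [Ch.pt_le]) (pr_le (by simp) (by simp)) p (by simpa using q) (by simp)
  intro c d k hp h0 h1
  have dp : Dp A c.top d.top := hp.map Ch.top_mono
  have xx : z c.top c.top = 0 := let ⟨_, a, h, c1, _⟩ := dp; hz.self h c1
  rw [psh_val] at h1
  have n1 := nn c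
  have n2 := nn d
  suffices TP A z c d (k + pg A z c) by simpa [TP] using this
  have px : Ch.pt c.top ≤ c := Ch.pt_le.2 c.top_mem
  rw [TP.L (j' := k + pg A z c) px hp.1 (by omega) (by omega) (by simp; omega)]
  have nh : ¬ Hi A z c.top (k + pg A z c) := fun h => by
    have := (lt_pg hm (c := c) (j := k + pg A z c) (by omega)).2
      ⟨h.1.1, _, c.top_mem, h.anti (by omega)⟩
    omega
  generalize hj : k + pg A z c = j at nh
  have xm : c.top ∈ d.1 := hp.1 c.top_mem
  generalize c.top = x at *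
  have pp := pg_pt hz hm (by omega) nh
  by_cases l : j < z x d.top
  · refine (TP.R (by simp [Ch.pt_le]) (pr_le xm d.top_mem) pp ?_).1
      ((key x d.top j dp (by omega) l).2 nh dp.1)
    have := nn (Ch.pr x d.top dp.1); simp; omega
  obtain ⟨hd, a, ha, hi⟩ := (lt_pg hm (c := d) (j := j - z x d.top) (by omega)).1 (by omega)
  have z1 := hm _ _ (Dp.of_right hd (Ch.le_top ha))
  have H : HP A z a (j - z x d.top + z a d.top) :=
    let ⟨o, k1, k2⟩ := hi.1.2
    (key a o _ (Dp.of_left hi.1.1 k2) (by omega) (hi.2 o k1 k2)).1 hi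
  have aa := self0 hz hi.1.1
  rcases d.total xm ha with m | m
  · have e := (tri3 hd m (Ch.le_top ha)).add hz
    have e' : j - z x d.top + z a d.top + z x a = j := by omega
    rw [hp_lo hz hm ht m hi (by omega) (by rwa [e']), e'] at H
    exact (TP.R (by simp [Ch.pt_le]) (pr_le xm ha) pp
      (lt_hi hz hm (a := a) (by simp) (hi.anti (by simp; omega)))).1 H
  · have e := (tri3 hd m dp.1).add hz
    have hx : x ∈ A := hA.out hi.1.1 hd ⟨m, dp.1⟩
    have hb : x ∈ Iv A z a (j - z x d.top + z a d.top) :=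
      ⟨hx, m, fun f => nh (Hi.up hz (hi.anti (by omega)) m f), by omega⟩
    have := H x hb
    rw [show j - z x d.top + z a d.top - z a x = j by omega] at this
    exact (TP.R (by simp [Ch.pt_le]) (pr_le ha xm) pp
      (lt_hi hz hm (a := a) (by simp) (hi.anti (by simp; omega)))).1 this

end

theorem inn_up {b y : P} (hb : b ∈ A ∧ b ∉ Fr A) (h : b ≤ y) : y ∈ A ∧ y ∉ Fr A :=
  ⟨by_contra fun n => hb.2 ⟨hb.1, y, n, h⟩, fun f => hb.2 (fr_dn f hb.1 h)⟩

theorem tk_thk (hz : Coc A z) (hm : Mono A z) (ht : Thick A) : TK (A2 A) (thk A z) := by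
  intro X hX n hn
  rw [fr_sd, fr_sd] at hX ⊢
  have hX : X.top.top ∈ Fr A := hX
  let u : P → ℤ := fun x => pot z X.top.top x + 0
  have ch : ∀ e, X.top ≤ e → Chart z e u := fun e h =>
    chart_pot hz hX.1 (fun x hx => e.cm (h X.top.top_mem) hx) 0
  let S : Set (Ch P) := {d | d.top ∈ {b | b ∈ A ∧ b ∉ Fr A}}
  let Z : Set (Ch P) := {d | mu (dT A z) u d ≤ vv (dT A z) z u X + n - 1}
  have nS : ∀ d, d ≤ X.top → d ∉ S := fun d h k => (inn_up k (Ch.top_mono h)).2 hX
  have k := (meet X Z S fun x hx => ⟨by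
    have := (ch _ le_rfl).le_vv (δ := dT A z) le_rfl hx
    simp only [Z, Set.mem_ofPred_eq]; omega, nS x (Ch.le_top hx)⟩).2 (by
    convert (ws_up X.top {b | b ∈ A ∧ b ∉ Fr A}).ctr_iff.2 (by
      convert ht.inn _ hX using 2
      ext b; simp only [Set.mem_ofPred_eq]; tauto) using 2
    ext d
    refine ⟨fun h => ⟨(h.2.2 _ X.top_mem).resolve_left fun l => nS d l h.1, h.1⟩,
      fun h => ⟨h.2, ?_, fun x hx => Or.inr ((Ch.le_top hx).trans h.1)⟩⟩
    have e1 := mu_dT (ch d h.1) le_rfl h.2.1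
    have e2 := mu_dT (ch d h.1) h.1 hX.1
    have e3 := (ch _ le_rfl).le_vv (δ := dT A z) le_rfl X.top_mem
    have e4 := (ch d h.1).le hm (Mt.dom ⟨_, d.top_mem, h.2.1⟩) d.bot_mem (h.1 X.top.bot_mem)
      (Ch.bot_anti h.1)
    simp only [Z, Set.mem_ofPred_eq]; omega)
  convert k using 2
  ext C
  have v : X ≤ C → (thk A z X C < n ↔ ∀ d ∈ C.1, d ∈ Z) := fun h => by
    have c := ch _ (Ch.top_mono h)
    rw [thk, c.rf le_rfl h]
    exact Iff.trans (by omega) (c.vv_le (t := vv (dT A z) z u X + n - 1) le_rfl)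
  exact ⟨fun h => ⟨h.2.1, (v h.2.1).1 h.2.2.2, _, C.top_mem, h.1, h.2.2.1⟩,
    fun ⟨h1, h2, d, h3, h4⟩ => have := inn_up h4 (Ch.top_mono (Ch.le_top h3))
      ⟨this.1, h1, this.2, (v h1).2 h2⟩⟩

theorem desc2 (s : St) : Desc s s.sd.sd (Ch.top ∘ Ch.top) := (Desc.sd s).step

theorem nfStmt : Sup43.NfStmt := fun s z hs ht hz => by
  have r := inR_dT hz.mono
  have h2 : Sf s.sd.sd.A (thk s.A z) := r.sf hs.conv hz
  have d2 := desc2 s
  have tk : TK s.sd.sd.A (thk s.A z) := tk_thk hz.coc hz.mono ht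
  refine ⟨s.sd.sd.sd, _, psh s.sd.sd.A (thk s.A z), d2.step, sf_iff.2 ⟨mono_psh h2.coc h2.mono,
    coc_psh h2.coc, nc_psh h2.coc h2.mono (d2.conv hs.conv) tk h2.nc⟩,
    ((Desc.sd s.sd.sd).eqv (r.eqv hz.coc hz.mono)).trans eqv_psh,
    (chi_psh (Mf.desc hs.mf d2.step) h2.coc h2.mono tk).trans
      (r.chi (Mf.desc hs.mf d2) hz.coc hz.mono), vert_psh h2.coc h2.mono⟩

end Crest.Agent.X212.Cut21
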