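import Crest.Agent.X212.Hlf24.Half_Mg
import Crest.Agent.X212.Hlf24.Bdy
import Crest.Agent.X212.Mcg32.Prep

/-!
# X212 / Cut21 (helper21): CUT unconditional; STEP with an extra boundary invariant; `NT0`, `LC`
-/

set_option autoImplicit false
set_option linter.unusedSectionVars false

open Finset Classical

noncomputable section

namespace Crest.Agent.X212.Cut21

open Crest.Agent.X212.Hp13 Crest.Agent.X212.Alg36
open Crest.Agent.X212.Ind26 (Coh dp_om dp_op)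
open Crest.Agent.X212.Kh11 (WS)

theorem cutStmt : CutStmt := cutStmt_of Hlf24.bdyStmt Hlf24.half2Stmt Hlf24.thkStmt

theorem halfStmt : Sup43.HalfStmt := halfStmt_of Hlf24.half2Stmt

theorem stepStmt (hB : Sup43.BoundStmt) : StepStmt :=
  stepStmt_of Hlf24.bdyStmt Hlf24.half2Stmt Hlf24.thkStmt Mcg32.prep hB

section
variable {P : Type} [PartialOrder P] [Fintype P] {A : Set P} {z w : P → P → ℤ}

/-- the boundary is not tangent to a suture along `R₋` -/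
def NT0 (A : Set P) (z : P → P → ℤ) : Prop :=
  ∀ x ∈ Om A, ∀ b ∈ Fr A, x ≤ b → ∀ y ∈ Om A, x ≤ y → 0 < z x y →
    ∃ y' ∈ Om A, ∃ b' ∈ Fr A, x ≤ y' ∧ y' ≤ b' ∧ 0 < z x y'

/-- the level sets over a point are contractible -/
def LC (A : Set P) (z : P → P → ℤ) : Prop :=
  ∀ x n, (x ∉ A ∨ 0 < n) → (∃ a ∈ A, x ≤ a ∧ z x a = n) → Ctr {a | a ∈ A ∧ x ≤ a ∧ z x a = n}

/-- near `R₋` the points off `A` under a point form a cone at the level of the point -/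
def VM (A : Set P) (z : P → P → ℤ) : Prop :=
  ∀ a ∈ A, ∀ o, o ∉ A → o ≤ a → ∃ m, m ∉ A ∧ m ≤ a ∧ z m a = 0 ∧ ∀ o, o ∉ A → o ≤ a → o ≤ m

theorem NT0.congr (h : NT0 A z) (e : ∀ x y, y ∈ Om A → x ≤ y → w x y = z x y) : NT0 A w :=
  fun x hx b hb l y hy l' k =>
    let ⟨y', h1, b', h2, h3, h4, h5⟩ := h x hx b hb l y hy l' (e x y hy l' ▸ k)
    ⟨y', h1, b', h2, h3, h4, e x y' h1 h3 ▸ h5⟩

theorem NT0.sd (h : NT0 A z) : NT0 (Ch.top ⁻¹' A) (pb Ch.top z) := by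
  intro X hX B hB l Y hY l' k
  rw [fr_sd] at hB ⊢
  obtain ⟨y', h1, b', h2, h3, h4, h5⟩ := h _ (Hlf24.om_sd.1 hX) _ hB (Ch.top_mono l) _
    (Hlf24.om_sd.1 hY) (Ch.top_mono l') k
  exact ⟨tp X y' h3, Hlf24.om_sd.2 (by simpa using h1), tp (tp X y' h3) b' (by simpa using h4),
    by simpa using h2, le_tp _ _ _, le_tp _ _ _, by simpa [pb] using h5⟩

theorem add_Rm_om (hA : A.OrdConnected) (z : P → P → ℤ) (k : ℤ) (x y : P) (hy : y ∈ Om A)
    (l : x ≤ y) : (z + k • Rm A) x y = z x y := by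
  obtain ⟨n, a, ha, e⟩ := hy
  simp [Rm_um, um_le hA ha e n, um_le hA ha (l.trans e) (not_dn hA ha e n l)]

theorem add_Rm_op (z : P → P → ℤ) (k : ℤ) (x y : P) (hx : x ∈ Op A) (l : x ≤ y) :
    (z + k • Rm A) x y = z x y := by
  obtain ⟨n, a, ha, e⟩ := hx
  simp [Rm_um, um_ge ha e, um_ge ha (e.trans l)]

theorem eqv_om (hA : A.OrdConnected) (h : Eqv A z w) (x y : P) (hy : y ∈ Om A) (l : x ≤ y) :
    w x y = z x y := (h.off (dp_om hy l) (om_dn hA hy l).1 hy.1).symm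

end

theorem IsCut.lc {s c : St} {z : s.P → s.P → ℤ} {pr : c.P → s.P} {lev : c.P → ℤ}
    (h : IsCut s.A z c.A pr lev) (hA : s.A.OrdConnected) (hz : Coc s.A z) (hm : Mono s.A z)
    (hN : Nice c.A) : LC s.A z := by
  rintro x n hn ⟨a, ha, l, e⟩
  have hc := h.cov.conv hA hz hm
  have dn : ∀ b ∈ c.A, ∀ q, q ≤ b → z (pr q) (pr b) = -lev q := fun b hb q k => by
    rw [← h.lv q b (Dp.of_right hb k), (h.mem b hb).2, zero_sub]
  have dp : ∀ b ∈ c.A, ∀ q, Cm b q → Dp c.A q q := fun b hb q k => ⟨le_rfl, b, hb, k, k⟩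
  obtain ⟨b₀, h0, rfl⟩ := h.surj a ha
  obtain ⟨q, cq, rfl⟩ := h.lift b₀ h0 x (Or.inr l)
  have hL : q ≤ b₀ := h.refl b₀ h0 q b₀ cq Cm.rfl l
  have hq : q ∉ c.A := fun k => by
    have := dn _ h0 _ hL
    have := h.mem q k
    exact hn.elim (fun n => n this.1) fun n => by omega
  subst e
  refine (WS.of_iso (f := pr) (fun b hb => ?_) (fun a ha => ?_) fun b hb b' hb' => ?_).ctr_iff.1
    (Nice.ctr_ge hc hN ⟨hq, b₀, h0, hL⟩)
  · exact ⟨(h.mem b hb.1).1, h.mono hb.2, by rw [dn b hb.1 _ hb.2, dn _ h0 _ hL]⟩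
  · obtain ⟨b, hb, rfl⟩ := h.surj a ha.1
    obtain ⟨r, cr, er⟩ := h.lift b hb _ (Or.inr ha.2.1)
    have hr : r ≤ b := h.refl b hb r b cr Cm.rfl (er ▸ ha.2.1)
    obtain rfl : r = q := h.inj r _ (dp b hb r cr) (dp _ h0 _ (Or.inr hL)) er
      (neg_injective (by rw [← dn b hb r hr, er, ha.2.2, dn _ h0 _ hL]))
    exact ⟨b, ⟨hb, hr⟩, rfl⟩
  · refine ⟨fun k => (h.cov.le_iff hb.1 hb'.1).2 ⟨k, ?_⟩, fun k => h.mono k⟩
    have := (tri2 (h.mem b hb.1).1 (h.mono hb.2) k).add hz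
    rw [dn b hb.1 _ hb.2, dn b' hb'.1 _ hb'.2] at this
    omega

/-- CUT with the vertical position near `R₋` -/
theorem cutV {s : St} {z : s.P → s.P → ℤ} (hs : Good s) (ht : Thick s.A) (he : Esc s.A s.A)
    (h0 : ee s.A = 0) (hz : Sf s.A z) (b : Bdy s.A z) (hx : Max s (z + Rm s.A)) :
    ∃ (t : St) (f : t.P → s.P) (z' : t.P → t.P → ℤ) (c : St) (pr : c.P → t.P) (lev : c.P → ℤ),
      Desc s t f ∧ Eqv t.A (pb f z) z' ∧ chi t.A z' = chi s.A z ∧ NF t.P t.A z' ∧ VM t.A z' ∧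
      IsCut t.A z' c.A pr lev ∧ Stt c := by
  have hb := Hlf24.bdyStmt
  obtain ⟨t1, f1, w1, d1, s1, e1, c1, v1⟩ := nfStmt s z hs ht hz
  have g1 := Good.desc hs d1
  have b1 := hb.bdy hs hz.coc d1 e1 b
  obtain ⟨t2, f2, w2, d2, m2, e2, c2, j2, n2, p2⟩ := Hlf24.half2Stmt t1 w1 g1 s1.coc s1.mono b1.jo
  have d := d1.trans d2
  have s2 : Sf t2.A w2 := sf_iff.2 ⟨m2, e2.coc (d2.coc s1.coc), n2 s1.nc⟩
  have e : Eqv t2.A (pb (f1 ∘ f2) z) w2 := (d2.eqv e1).trans e2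
  obtain ⟨nf, c, pr, lev, hc, st⟩ := cut_thk hb Hlf24.thkStmt (Good.desc hs d) (thick_desc ht d)
    (Esc.desc' he d) (by rw [d.ee_A, h0]) s2 (hb.bdy hs hz.coc d e b) j2
    (p2 (condPStmt _ _ g1 (thick_desc ht d1) s1.coc s1.mono v1 b1.cp))
    (max_add_Rm hs.conv d e (by omega) hx)
  have r := inR_dT m2
  exact ⟨_, _, _, c, pr, lev, d.trans (desc2 t2), ((desc2 t2).eqv e).trans (r.eqv s2.coc m2),
    (r.chi (Mf.desc hs.mf (d.trans (desc2 t2))) s2.coc m2).trans (c2.trans c1), nf,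
    fun _ ha _ ho l => lowM_dT.max r (d.conv hs.conv) s2.coc m2 ha ho l, hc, st⟩

/-- a property of the boundary data -/
structure BI (B : (s : St) → (s.P → s.P → ℤ) → Prop) : Prop where
  desc : ∀ (s t : St) (f : t.P → s.P) (z : s.P → s.P → ℤ) (w : t.P → t.P → ℤ), Good s →
    Coc s.A z → Desc s t f → Eqv t.A (pb f z) w → B s z → B t w
  rm : ∀ (s : St) (z : s.P → s.P → ℤ) (k : ℤ), Good s → B s z → B s (z + k • Rm s.A)

theorem BI.and {B B' : (s : St) → (s.P → s.P → ℤ) → Prop} (h : BI B) (h' : BI B') :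
    BI fun s z => B s z ∧ B' s z :=
  ⟨fun s t f z w a b c d e => ⟨h.desc s t f z w a b c d e.1, h'.desc s t f z w a b c d e.2⟩,
    fun s z k a e => ⟨h.rm s z k a e.1, h'.rm s z k a e.2⟩⟩

theorem bi_nt0 : BI fun s z => NT0 s.A z where
  desc s t f z w hs _ d e h := by
    refine NT0.congr ?_ (eqv_om (d.conv hs.conv) e)
    clear e w
    induction d with
    | refl => exact h
    | step _ ih => exact ih.sd
  rm s z k hs h := h.congr (add_Rm_om hs.conv z k)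

/-- PREP with an extra property -/
def PrepB (B : (s : St) → (s.P → s.P → ℤ) → Prop) : Prop :=
  ∀ (s : St) (z : s.P → s.P → ℤ), Stt s → Coc s.A z →
    ∃ (t : St) (f : t.P → s.P) (g : t.P → ℤ) (w : t.P → t.P → ℤ), Desc s t f ∧
      EqD t.A w (pb f z + cb g) ∧ Mono t.A w ∧ Bdy t.A w ∧ B t w

/-- STEP with an extra property -/
def StepB (B : (s : St) → (s.P → s.P → ℤ) → Prop) : Prop :=
  ∀ (s : St) (z : s.P → s.P → ℤ), Stt s → Coc s.A z →
    ∃ (t : St) (f : t.P → s.P) (z' : t.P → t.P → ℤ) (g : t.P → ℤ) (c : St) (pr : c.P → t.P)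
      (lev : c.P → ℤ), Desc s t f ∧ EqD t.A z' (pb f z + cb g) ∧ Max t z' ∧ NF t.P t.A z' ∧
        Bdy t.A z' ∧ VM t.A z' ∧ B t z' ∧ IsCut t.A z' c.A pr lev ∧ Stt c

theorem stepB {B : (s : St) → (s.P → s.P → ℤ) → Prop} (hI : BI B) (hp : PrepB B)
    (hB : Sup43.BoundStmt) : StepB B := by
  intro s z hs hz
  have hb := Hlf24.bdyStmt
  obtain ⟨t0, f0, g0, w0, d0, e0, m0, b0, i0⟩ := hp s z hs hz
  have c0 : Coc t0.A w0 := ((d0.coc hz).add (coc_cb _)).congr e0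
  have s0 := stt_desc hs d0
  obtain ⟨t1, f1, w1, d1, m1, e1, -, j1, -⟩ := Hlf24.half2Stmt t0 w0 s0.toGood c0 m0 b0.jo
  have c1 := e1.coc (d1.coc c0)
  have s1 := stt_desc s0 d1
  have b1 := hb.bdy s0.toGood c0 d1 e1 b0
  have i1 := hI.desc _ _ _ _ _ s0.toGood c0 d1 e1 i0
  obtain ⟨k, t2, f2, T, d2, sf, e2, x1, x2⟩ := exists_rigid hB s1 c1 m1 j1
  have s2 := stt_desc s1 d2
  have b2 := hb.bdy s1.toGood (c1.add (coc_Rm.zsmul _)) d2 e2 (b1.add_Rm s1.conv k)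
  have i2 := hI.desc _ _ _ _ _ s1.toGood (c1.add (coc_Rm.zsmul _)) d2 e2 (hI.rm _ _ k s1.toGood i1)
  obtain ⟨t, f, z', c, pr, lev, d, e, ch, nf, vm, hc, st⟩ := cutV s2.toGood
    s2.thick s2.esc s2.bal sf b2 x2
  obtain ⟨g, eg⟩ : Coh t.A (pb (((f0 ∘ f1) ∘ f2) ∘ f) z) z' :=
    coh_trans (coh_desc d (coh_trans (coh_desc d2 (coh_trans (coh_trans (coh_desc d1 ⟨g0, e0⟩)
      (coh_of_eqv e1)) (coh_Rm w1 k))) (coh_of_eqv e2))) (coh_of_eqv e)
  exact ⟨t, _, z', g, c, pr, lev, ((d0.trans d1).trans d2).trans d, eg,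
    (x1.desc d).of_eqv e (by rw [d.chi, ch]), nf, hb.bdy s2.toGood sf.coc d e b2, vm,
    hI.desc _ _ _ _ _ s2.toGood sf.coc d e i2, hc, st⟩

/-- the position of the decomposing surface -/
structure PosB (B : (s : St) → (s.P → s.P → ℤ) → Prop) (s : St) (z : s.P → s.P → ℤ) : Prop where
  nf : NF s.P s.A z
  bdy : Bdy s.A z
  lc : LC s.A z
  vm : VM s.A z
  ext : B s z

/-- the parameters of the hierarchy with an extra boundary property -/
def parB (B : (s : St) → (s.P → s.P → ℤ) → Prop) (HB : St → ℕ → Prop) : Ind26.Par :=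
  ⟨Stt, PosB B, HB⟩

theorem jStmtB (B : (s : St) → (s.P → s.P → ℤ) → Prop) (HB : St → ℕ → Prop) :
    Ind26.JStmt (parB B HB) := fun _ h => ⟨⟨h.toTaut, h.esc⟩, stt_sd h⟩

theorem ind_stepB {B : (s : St) → (s.P → s.P → ℤ) → Prop} (h : StepB B) (HB : St → ℕ → Prop) :
    Ind26.StepStmt (parB B HB) := fun s hs ζ hζ =>
  let ⟨t, f, z, g, c, pr, _, d, e, m, nf, b, v, i, hc, st⟩ := h s ζ hs hζ
  ⟨c, t, f, z, pr, d, ⟨g, e⟩, m, nf.adm,
    ⟨nf, b, hc.lc (d.conv hs.conv) nf.sf.coc nf.sf.mono st.nice, v, i⟩, hc.cov, st⟩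

/-- the parameters asked for by P2 -/
def par' (HB : St → ℕ → Prop) : Ind26.Par := parB (fun s z => NT0 s.A z) HB

theorem ind_step' (hp : PrepB fun s z => NT0 s.A z) (hB : Sup43.BoundStmt) (HB : St → ℕ → Prop) :
    Ind26.StepStmt (par' HB) := ind_stepB (stepB bi_nt0 hp hB) HB

end Crest.Agent.X212.Cut21
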