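import Crest.Agent.X212.Cut21.Tb
import Crest.Agent.X212.Alg36.Sd3
import Crest.Agent.X212.Ind26.Main

-- ▼ part X212/Cut21/Ref1
section

/-!
# X212 / Cut21 (helper21): refinement in the range of the carrier, values and Euler characteristic
-/

set_option autoImplicit false
set_option linter.unusedSectionVars false

open Finset Classical

noncomputable section

namespace Crest.Agent.X212.Cut21

open Crest.Agent.X212.Hp13 Crest.Agent.X212.Alg36
open Crest.Agent.X212.Kh11 (WS sctr_min sctr_max sctr_cone Ch.dn)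

variable {P : Type} [PartialOrder P] [Fintype P] {A : Set P} {z : P → P → ℤ} {δ : Ch P → ℤ}

/-- put a new top on a chain -/
def tp (c : Ch P) (x : P) (h : c.top ≤ x) : Ch P :=
  c.ins x fun _ hy => Or.inr ((Ch.le_top hy).trans h)
/-- put a new bottom under a chain -/
def bt (c : Ch P) (x : P) (h : x ≤ c.bot) : Ch P :=
  c.ins x fun _ hy => Or.inl (h.trans (Ch.bot_le hy))

@[simp] theorem top_tp (c : Ch P) (x : P) (h : c.top ≤ x) : (tp c x h).top = x := top_ins' _ h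
theorem le_tp (c : Ch P) (x : P) (h : c.top ≤ x) : c ≤ tp c x h := c.le_ins _ _
@[simp] theorem mem_tp {c : Ch P} {x y : P} {h : c.top ≤ x} : y ∈ (tp c x h).1 ↔ y = x ∨ y ∈ c.1 :=
  mem_insert
theorem tp_mono {c d : Ch P} {x : P} {h : c.top ≤ x} {h' : d.top ≤ x} (k : c ≤ d) :
    tp c x h ≤ tp d x h' := insert_subset_insert _ k
theorem tp_le {c d : Ch P} {x : P} {h : c.top ≤ x} (k : c ≤ d) (hx : x ∈ d.1) : tp c x h ≤ d :=
  insert_subset hx k
theorem pt_le_tp (c : Ch P) (x : P) (h : c.top ≤ x) : Ch.pt x ≤ tp c x h := Ch.pt_le.2 (by simp)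
@[simp] theorem top_bt (c : Ch P) (x : P) (h : x ≤ c.bot) : (bt c x h).top = c.top :=
  top_ins _ (h.trans c.bot_le_top)
theorem le_bt (c : Ch P) (x : P) (h : x ≤ c.bot) : c ≤ bt c x h := c.le_ins _ _
@[simp] theorem mem_bt {c : Ch P} {x y : P} {h : x ≤ c.bot} : y ∈ (bt c x h).1 ↔ y = x ∨ y ∈ c.1 :=
  mem_insert
@[simp] theorem bot_bt (c : Ch P) (x : P) (h : x ≤ c.bot) : (bt c x h).bot = x :=
  Ch.bot_eq (by simp) fun _ hy => (mem_bt.1 hy).elim (fun e => e.ge) fun hy => h.trans (Ch.bot_le hy)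
@[simp] theorem bot_tp (c : Ch P) (x : P) (h : c.top ≤ x) : (tp c x h).bot = c.bot :=
  Ch.bot_eq (le_tp c x h c.bot_mem) fun _ hy =>
    (mem_tp.1 hy).elim (fun e => e ▸ c.bot_le_top.trans h) fun hy => Ch.bot_le hy
@[simp] theorem mem_pr {x y w : P} {h : x ≤ y} : w ∈ (Ch.pr x y h).1 ↔ w = x ∨ w = y := by simp
theorem pr_le {x y : P} {h : x ≤ y} {c : Ch P} (hx : x ∈ c.1) (hy : y ∈ c.1) : Ch.pr x y h ≤ c :=
  fun _ hw => (mem_pr.1 hw).elim (fun e => e ▸ hx) fun e => e ▸ hy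
theorem le_top' {C : Ch (Ch P)} {d e : Ch P} (hd : d ∈ C.1) (h : C.top ≤ e) : d ≤ e :=
  (Ch.le_top hd).trans h

/-- `u` is a potential of `z` on the chain `e` -/
def Chart (z : P → P → ℤ) (e : Ch P) (u : P → ℤ) : Prop :=
  ∀ x ∈ e.1, ∀ y ∈ e.1, x ≤ y → z x y = u y - u x

theorem Chart.mono {e e' : Ch P} {u : P → ℤ} (h : Chart z e u) (k : e' ≤ e) : Chart z e' u :=
  fun x hx y hy => h x (k hx) y (k hy)

theorem chart_pot (hz : Coc A z) {e : Ch P} {a : P} (ha : a ∈ A) (h : ∀ x ∈ e.1, Cm a x) (n : ℤ) :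
    Chart z e fun x => pot z a x + n := fun x hx y hy hxy => by
  rw [pot_sub hz ha (h x hx) (h y hy) hxy]; ring

theorem exists_chart (hz : Coc A z) {e : Ch P} (he : Dom A e) : ∃ u, Chart z e u :=
  let ⟨_, ha, h⟩ := he; ⟨_, chart_pot hz ha h 0⟩

theorem Chart.le (hm : Mono A z) {e : Ch P} (he : Dom A e) {u : P → ℤ} (h : Chart z e u) {x y : P}
    (hx : x ∈ e.1) (hy : y ∈ e.1) (hxy : x ≤ y) : u x ≤ u y := by
  have := hm _ _ (he.dp hx hy hxy); rw [h x hx y hy hxy] at this; omega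

/-- the value at a vertex -/
def mu (δ : Ch P → ℤ) (u : P → ℤ) (d : Ch P) : ℤ := u d.top - δ d
/-- the refined value -/
def vv (δ : Ch P → ℤ) (z : P → P → ℤ) (u : P → ℤ) (C : Ch (Ch P)) : ℤ := u C.top.top - dep δ z C

theorem dep_le {C : Ch (Ch P)} {d : Ch P} (hd : d ∈ C.1) : dep δ z C ≤ δ d + z d.top C.top.top :=
  inf'_le _ hd
theorem dep_ex (δ : Ch P → ℤ) (z : P → P → ℤ) (C : Ch (Ch P)) :
    ∃ d ∈ C.1, dep δ z C = δ d + z d.top C.top.top := exists_mem_eq_inf' _ _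

section chart

variable {e : Ch P} {u : P → ℤ} {C D : Ch (Ch P)} {d : Ch P} {t : ℤ}

theorem Chart.tt (h : Chart z e u) (hC : C.top ≤ e) (hd : d ∈ C.1) :
    z d.top C.top.top = u C.top.top - u d.top :=
  h _ (le_top' hd hC d.top_mem) _ (hC C.top.top_mem) (Ch.top_mono (Ch.le_top hd))

theorem Chart.le_vv (h : Chart z e u) (hC : C.top ≤ e) (hd : d ∈ C.1) : mu δ u d ≤ vv δ z u C := by
  have := dep_le (δ := δ) (z := z) hd
  rw [h.tt hC hd] at this
  unfold mu vv; omega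

theorem Chart.ex_vv (h : Chart z e u) (δ : Ch P → ℤ) (hC : C.top ≤ e) :
    ∃ d ∈ C.1, vv δ z u C = mu δ u d := by
  obtain ⟨d, hd, k⟩ := dep_ex δ z C
  refine ⟨d, hd, ?_⟩
  rw [h.tt hC hd] at k
  unfold mu vv; omega

theorem Chart.vv_le (h : Chart z e u) (hC : C.top ≤ e) :
    vv δ z u C ≤ t ↔ ∀ d ∈ C.1, mu δ u d ≤ t :=
  ⟨fun k _ hd => (h.le_vv hC hd).trans k, fun k => let ⟨d, hd, e⟩ := h.ex_vv δ hC; e ▸ k d hd⟩

theorem Chart.vv_mono (h : Chart z e u) (hD : D.top ≤ e) (k : C ≤ D) : vv δ z u C ≤ vv δ z u D :=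
  (h.vv_le ((Ch.top_mono k).trans hD)).2 fun _ hd => h.le_vv hD (k hd)

theorem Chart.vv_pt (h : Chart z e u) (hd : d ≤ e) : vv δ z u (Ch.pt d) = mu δ u d := by
  obtain ⟨d', h1, h2⟩ := h.ex_vv δ (C := Ch.pt d) (by simpa using hd)
  rw [h2, mem_singleton.1 h1]

theorem Chart.rf (h : Chart z e u) (hD : D.top ≤ e) (k : C ≤ D) :
    rf δ z C D = vv δ z u D - vv δ z u C := by
  have := h _ (hD (Ch.top_mono k C.top.top_mem)) _ (hD D.top.top_mem) (Ch.top_mono (Ch.top_mono k))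
  simp only [Cut21.rf, pb, cb, vv, Pi.sub_apply, Function.comp, this]; ring

theorem InR.mu_le (h : InR A z δ) (he : Dom A e) (hd : d ≤ e) : mu δ u d ≤ u d.top := by
  have := h.nn d (he.mono hd); unfold mu; omega

theorem InR.le_mu (h : InR A z δ) (he : Dom A e) (hu : Chart z e u) (hd : d ≤ e) :
    u d.bot ≤ mu δ u d := by
  have := h.le d (he.mono hd)
  rw [hu _ (hd d.bot_mem) _ (hd d.top_mem) d.bot_le_top] at this
  unfold mu; omega

theorem InR.mu_off (h : InR A z δ) (hd : d.top ∉ A) : mu δ u d = u d.top := by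
  rw [mu, h.off d hd, sub_zero]

theorem InR.mu_pt (h : InR A z δ) (he : Dom A e) (hu : Chart z e u) {x : P} (hx : x ∈ e.1) :
    mu δ u (Ch.pt x) = u x := by
  have h1 := h.mu_le (u := u) he (Ch.pt_le.2 hx)
  have h2 := h.le_mu he hu (Ch.pt_le.2 hx)
  simp only [Ch.top_pt, Ch.bot_pt] at h1 h2; omega

theorem InR.vv_le (h : InR A z δ) (hm : Mono A z) (he : Dom A e) (hu : Chart z e u)
    (hC : C.top ≤ e) : vv δ z u C ≤ u C.top.top :=
  (hu.vv_le hC).2 fun d hd => (h.mu_le he (le_top' hd hC)).trans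
    (hu.le hm he (le_top' hd hC d.top_mem) (hC C.top.top_mem) (Ch.top_mono (Ch.le_top hd)))

theorem InR.vv_off (h : InR A z δ) (hm : Mono A z) (he : Dom A e) (hu : Chart z e u)
    (hC : C.top ≤ e) (k : C.top.top ∉ A) : vv δ z u C = u C.top.top :=
  le_antisymm (h.vv_le hm he hu hC) (h.mu_off (u := u) k ▸ hu.le_vv hC C.top_mem)

end chart

/-- the second subdivision of the region -/
abbrev A2 (A : Set P) : Set (Ch (Ch P)) := Ch.top ⁻¹' (Ch.top ⁻¹' A)

theorem dp_dom2 {C D : Ch (Ch P)} (h : Dp (A2 A) C D) : Dom A D.top := by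
  obtain ⟨-, E, hE, -, h2⟩ := h
  exact ⟨E.top.top, hE, fun x hx => h2.elim (fun h => D.top.cm (Ch.top_mono h E.top.top_mem) hx)
    fun h => E.top.cm E.top.top_mem (Ch.top_mono h hx)⟩

theorem mono_rf (hz : Coc A z) (δ : Ch P → ℤ) : Mono (A2 A) (rf δ z) := fun C D hp => by
  obtain ⟨u, hu⟩ := exists_chart hz (dp_dom2 hp)
  have := hu.vv_mono (δ := δ) le_rfl hp.1
  rw [hu.rf le_rfl hp.1]; omega

theorem InR.dep_nn (h : InR A z δ) (hz : Coc A z) (hm : Mono A z) {C : Ch (Ch P)}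
    (hC : Dom A C.top) : 0 ≤ dep δ z C := by
  obtain ⟨u, hu⟩ := exists_chart hz hC
  have := h.vv_le hm hC hu le_rfl
  unfold vv at this; omega

/-- the correction, supported on the region -/
def gd (A : Set P) (δ : Ch P → ℤ) (z : P → P → ℤ) (C : Ch (Ch P)) : ℤ :=
  if C.top.top ∈ A then -dep δ z C else 0

theorem InR.eqD (h : InR A z δ) (hz : Coc A z) (hm : Mono A z) :
    EqD (A2 A) (rf δ z) (pb (Ch.top ∘ Ch.top) z + cb (gd A δ z)) := by
  have k : ∀ C : Ch (Ch P), Dom A C.top → gd A δ z C = -dep δ z C := fun C hC => by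
    unfold gd
    split_ifs with h1
    · rfl
    obtain ⟨u, hu⟩ := exists_chart hz hC
    have := h.vv_off hm hC hu le_rfl h1
    unfold vv at this; omega
  intro C D hp
  have := dp_dom2 hp
  simp only [rf, cb, Pi.sub_apply, Pi.add_apply, k D this, k C (this.mono (Ch.top_mono hp.1))]
  ring

theorem InR.eqv (h : InR A z δ) (hz : Coc A z) (hm : Mono A z) :
    Eqv (A2 A) (pb (Ch.top ∘ Ch.top) z) (rf δ z) :=
  ⟨gd A δ z, fun _ hC => if_neg hC, h.eqD hz hm⟩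

theorem coc_rf (hz : Coc A z) (δ : Ch P → ℤ) : Coc (A2 A) (rf δ z) :=
  (hz.pb (Ch.top_mono.comp Ch.top_mono)).sub (coc_cb _)

/-! ### the low faces of a simplex -/

theorem bot_ers {c : Ch P} {t : P} (h : c.bot ≠ t) (k : ∃ y ∈ c.1, y ≠ t) : (ers c t k).bot = c.bot :=
  Ch.bot_eq (mem_erase.2 ⟨h, c.bot_mem⟩) fun _ hx => Ch.bot_le (mem_of_mem_erase hx)

theorem ws_drop {X : Set (Ch P)} {t : P}
    (h : ∀ y ∈ X, t ∈ y.1 → Ctr {d | (d ∈ X ∧ t ∉ d.1) ∧ d ≤ y}) :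
    WS {d | d ∈ X ∧ t ∉ d.1} X id :=
  WS.of_le (fun _ h => h.1) (fun _ _ _ _ h => h) fun y hy => by
    by_cases ht : t ∈ y.1
    · exact h y hy ht
    · exact sctr_max (m := y) ⟨⟨hy, ht⟩, le_rfl⟩ fun _ h => h.2

theorem ctr_low {lo : P → Prop} {Lo : Ch P → Prop} (σ : Ch P) (h1 : ∀ d ≤ σ, Lo d → lo d.bot)
    (h2 : ∀ d ≤ σ, lo d.top → Lo d) (h0 : lo σ.bot) : Ctr {d | d ≤ σ ∧ Lo d} := by
  induction hn : σ.1.card using Nat.strong_induction_on generalizing σ with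
  | _ n ih =>
  by_cases hσ : Lo σ
  · exact sctr_max (m := σ) ⟨le_rfl, hσ⟩ fun _ h => h.1
  have ht : ¬ lo σ.top := fun h => hσ (h2 σ le_rfl h)
  have key : ∀ y ≤ σ, σ.top ∈ y.1 → lo y.bot → Ctr {d | (d ≤ y ∧ Lo d) ∧ σ.top ∉ d.1} := by
    intro y hy hty hb
    have hne : y.bot ≠ σ.top := fun e => ht (e ▸ hb)
    have k : ∃ x ∈ y.1, x ≠ σ.top := ⟨_, y.bot_mem, hne⟩
    have l : ers y σ.top k ≤ y := erase_subset _ _
    have := ih _ (by
      rw [← hn, ers_val, card_erase_of_mem hty]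
      have := card_le_card (show y.1 ⊆ σ.1 from hy); have := y.card_pos; omega)
      (ers y σ.top k) (fun d hd => h1 d ((hd.trans l).trans hy))
      (fun d hd => h2 d ((hd.trans l).trans hy)) (by rwa [bot_ers hne]) rfl
    convert this using 2
    ext d
    exact ⟨fun h => ⟨le_ers h.1.1 h.2, h.1.2⟩,
      fun h => ⟨⟨h.1.trans l, h.2⟩, fun h' => (mem_erase.1 (h.1 h')).1 rfl⟩⟩
  refine (ws_drop (X := {d | d ≤ σ ∧ Lo d}) (t := σ.top) fun y hy hty => ?_).ctr_iff.1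
    (key σ le_rfl σ.top_mem h0)
  convert key y hy.1 hty (h1 y hy.1 hy.2) using 2
  ext d
  exact ⟨fun h => ⟨⟨h.2, h.1.1.2⟩, h.1.2⟩, fun h => ⟨⟨⟨h.1.1.trans hy.1, h.1.2⟩, h.2⟩, h.1.1⟩⟩

theorem eu_split {X Y : Set P} (hY : Y ⊆ X) {p : Ch P → Prop} [DecidablePred p]
    (h : ∀ C, p C ↔ (∀ d ∈ C.1, d ∈ X) ∧ ¬ ∀ d ∈ C.1, d ∈ Y) :
    ∑ C ∈ univ.filter p, C.sg = eu Y - eu X := by
  simp only [eu, sum_filter]
  rw [neg_sub_neg, ← sum_sub_distrib]
  refine sum_congr rfl fun C _ => ?_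
  by_cases h1 : ∀ d ∈ C.1, d ∈ Y
  · rw [if_neg fun k => ((h C).1 k).2 h1, if_pos h1, if_pos fun d hd => hY (h1 d hd), sub_self]
  by_cases h2 : ∀ d ∈ C.1, d ∈ X
  · rw [if_pos ((h C).2 ⟨h2, h1⟩), if_pos h2, if_neg h1, sub_zero]
  · rw [if_neg fun k => h2 ((h C).1 k).1, if_neg h2, if_neg h1, sub_zero]

theorem sum_low {lo : P → Prop} {Lo : Ch P → Prop} {a : P} (ha : ¬ lo a)
    (h1 : ∀ d : Ch P, d.top ≤ a → Lo d → lo d.bot) (h2 : ∀ d : Ch P, d.top ≤ a → lo d.top → Lo d) :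
    ∑ C ∈ univ.filter (fun C : Ch (Ch P) => C.top.top = a ∧ ∀ d ∈ C.1, Lo d), C.sg = 0 := by
  have w := ws_drop (X := {d : Ch P | d.top ≤ a ∧ Lo d}) (t := a) fun y hy hty => by
    have hne : y.bot ≠ a := fun e => ha (e ▸ h1 y hy.1 hy.2)
    have k : ∃ x ∈ y.1, x ≠ a := ⟨_, y.bot_mem, hne⟩
    have l : ers y a k ≤ y := erase_subset _ _
    have l2 : ∀ d ≤ ers y a k, d.top ≤ a := fun d hd => (Ch.top_mono (hd.trans l)).trans hy.1
    convert ctr_low (lo := lo) (Lo := Lo) (ers y a k) (fun d hd => h1 d (l2 d hd))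
      (fun d hd => h2 d (l2 d hd)) (by rw [bot_ers hne]; exact h1 y hy.1 hy.2) using 2
    ext d
    exact ⟨fun h => ⟨le_ers h.2 h.1.2, h.1.1.2⟩,
      fun h => ⟨⟨⟨l2 d h.1, h.2⟩, fun h' => (mem_erase.1 (h.1 h')).1 rfl⟩, h.1.trans l⟩⟩
  rw [eu_split (X := {d : Ch P | d.top ≤ a ∧ Lo d})
    (Y := {d | d ∈ {d : Ch P | d.top ≤ a ∧ Lo d} ∧ a ∉ d.1}) (fun _ h => h.1), w.eu_eq, sub_self]
  intro C
  refine ⟨fun h => ⟨fun d hd => ⟨h.1 ▸ Ch.top_mono (Ch.le_top hd), h.2 d hd⟩,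
    fun k => (k _ C.top_mem).2 (h.1 ▸ C.top.top_mem)⟩, fun h => ⟨?_, fun d hd => (h.1 d hd).2⟩⟩
  by_contra k
  exact h.2 fun d hd => ⟨h.1 d hd, fun h' => k (le_antisymm (h.1 _ C.top_mem).1
    (Ch.le_top (Ch.le_top hd h')))⟩

theorem sum_range_lt {n : ℤ} {N : ℕ} (h0 : 0 ≤ n) (h1 : n ≤ N) :
    ∑ i ∈ range N, (if (i : ℤ) < n then (1 : ℤ) else 0) = n := by
  induction N with
  | zero => simp; omega
  | succ N ih =>
    rw [sum_range_succ]
    by_cases h : n ≤ N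
    · rw [ih h, if_neg (by omega), add_zero]
    · rw [if_pos (by omega), sum_congr rfl fun i hi => if_pos (by have := mem_range.1 hi; omega)]
      simp; omega

theorem InR.sum_gd (h : InR A z δ) (hz : Coc A z) (hm : Mono A z) :
    ∑ C, eps C * gd A δ z C = 0 := by
  obtain ⟨N, hN⟩ : ∃ N : ℕ, ∀ C, dep δ z C ≤ N :=
    let ⟨N, hN⟩ := (Set.finite_range (dep δ z)).bddAbove
    ⟨N.toNat, fun C => (hN ⟨C, rfl⟩).trans (Int.self_le_toNat N)⟩
  let F : ℕ → P → Ch (Ch P) → ℤ := fun i a C =>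
    if C.top.top = a ∧ ∀ d ∈ C.1, (i : ℤ) < δ d + z d.top a then C.sg else 0
  have k : ∀ C : Ch (Ch P), eps C * gd A δ z C =
      ∑ i ∈ range N, ∑ a ∈ univ.filter (· ∈ A), F i a C := by
    intro C
    by_cases h1 : C.top.top ∈ A
    · rw [gd, if_pos h1, eps_ch, neg_mul_neg,
        ← sum_range_lt (h.dep_nn hz hm (Mt.dom ⟨_, C.top.top_mem, h1⟩)) (hN C), mul_sum]
      refine sum_congr rfl fun i _ => ?_
      rw [sum_eq_single C.top.top (fun a _ ha => if_neg fun h => ha h.1.symm)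
        (fun h => absurd (mem_filter.2 ⟨mem_univ _, h1⟩) h)]
      by_cases h2 : (i : ℤ) < dep δ z C
      · rw [if_pos h2, mul_one]
        exact (if_pos ⟨rfl, fun d hd => h2.trans_le (dep_le hd)⟩).symm
      · rw [if_neg h2, mul_zero]
        obtain ⟨d, hd, e⟩ := dep_ex δ z C
        exact (if_neg fun h3 => h2 (e ▸ h3.2 d hd)).symm
    · rw [gd, if_neg h1, mul_zero]
      refine (sum_eq_zero fun i _ => sum_eq_zero fun a ha => if_neg fun h => h1 ?_).symm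
      rw [h.1]; exact (mem_filter.1 ha).2
  rw [sum_congr rfl fun C _ => k C, sum_comm]
  refine sum_eq_zero fun i _ => ?_
  rw [sum_comm]
  refine sum_eq_zero fun a ha => ?_
  have ha : a ∈ A := (mem_filter.1 ha).2
  have dm : ∀ d : Ch P, d.top ≤ a → Dom A d := fun d hd =>
    ⟨a, ha, fun x hx => Or.inr ((Ch.le_top hx).trans hd)⟩
  have := sum_low (a := a) (lo := fun x => (i : ℤ) < z x a)
    (Lo := fun d => (i : ℤ) < δ d + z d.top a) (by rw [self0 hz ha]; omega) (fun d hd k => by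
      have := h.le d (dm d hd)
      rw [(tri3 ha d.bot_le_top hd).add hz]; omega) fun d hd k => by
      have := h.nn d (dm d hd); omega
  rw [sum_filter] at this
  convert this using 2
  simp only [F]
  congr

theorem InR.chi (h : InR A z δ) (hM : Mf 3 (A2 A)) (hz : Coc A z) (hm : Mono A z) :
    chi (A2 A) (rf δ z) = chi A z := by
  rw [chi_congr (h.eqD hz hm), chi_add, chi_cb hM (g := gd A δ z) fun _ hC => if_neg hC,
    h.sum_gd hz hm, mul_zero, add_zero]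
  exact (chi_top (A := Ch.top ⁻¹' A) (pb Ch.top z)).trans (chi_top z)

end Crest.Agent.X212.Cut21
end
end

-- ▼ part X212/Cut21/Ref2
section

/-!
# X212 / Cut21 (helper21): refinement in the range keeps `NC` and `CondP`; `refStmt`
-/

set_option autoImplicit false
set_option linter.unusedSectionVars false

open Finset Classical

noncomputable section

namespace Crest.Agent.X212.Cut21

open Crest.Agent.X212.Hp13 Crest.Agent.X212.Alg36
open Crest.Agent.X212.Kh11 (Ch.dn)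
open Crest.Agent.X212.Ind26 (tri tri_val top_tri bot_tri)

variable {P : Type} [PartialOrder P] [Fintype P] {A : Set P} {z : P → P → ℤ} {δ : Ch P → ℤ}

/-- standing data: a carrier with a chart -/
structure Cx (A : Set P) (z : P → P → ℤ) (δ : Ch P → ℤ) (e : Ch P) (u : P → ℤ) : Prop where
  conv : A.OrdConnected
  mono : Mono A z
  inr : InR A z δ
  dom : Dom A e
  ch : Chart z e u

/-- the part of a chain meeting `A` that lies under its last point of `A` -/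
theorem exists_c0 {e : Ch P} (he : Mt A e) :
    ∃ c : Ch P, c ≤ e ∧ c.top ∈ A ∧ (∀ x ∈ e.1, x ≤ c.top → x ∈ c.1) ∧
      ∀ x ∈ e.1, x ∈ A → x ≤ c.top := by
  obtain ⟨a, ha, ha'⟩ := he
  let f := e.sub (e.1.filter (· ∈ A)) ⟨a, mem_filter.2 ⟨ha, ha'⟩⟩ (filter_subset _ _)
  obtain ⟨h1, h2⟩ := mem_filter.1 f.top_mem
  refine ⟨Ch.dn e f.top (Ch.bot_le h1), dn_le, by rwa [top_dn h1], fun x hx h => ?_, fun x hx h => ?_⟩
  · rw [top_dn h1] at h; exact mem_dn.2 ⟨hx, h⟩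
  · rw [top_dn h1]; exact Ch.le_top (c := f) (mem_filter.2 ⟨hx, h⟩)

namespace Cx

variable {e : Ch P} {u : P → ℤ} (h : Cx A z δ e u) {t : ℤ} {C D E : Ch (Ch P)}
include h

theorem sub {e' : Ch P} (k : e' ≤ e) : Cx A z δ e' u :=
  ⟨h.conv, h.mono, h.inr, h.dom.mono k, h.ch.mono k⟩

/-- the sheet of level `t` through the edge reaches the boundary -/
def TT (A : Set P) (z : P → P → ℤ) (δ : Ch P → ℤ) (u : P → ℤ) (t : ℤ) (C D : Ch (Ch P)) : Prop :=
  Tb (A2 A) (rf δ z) C D (t - vv δ z u C)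

theorem mR (k : Tri (A2 A) C D E) (hD : D.top ≤ e) (h1 : vv δ z u C ≤ t) (h2 : t < vv δ z u D) :
    TT A z δ u t C D ↔ TT A z δ u t C E :=
  Tb.R k (by omega) (by rw [h.ch.rf hD k.1]; omega)

theorem mL (k : Tri (A2 A) C D E) (hE : E.top ≤ e) (h1 : vv δ z u D ≤ t) (h2 : t < vv δ z u E) :
    TT A z δ u t D E ↔ TT A z δ u t C E :=
  Tb.L k (by omega) (by rw [h.ch.rf hE k.2.1]; omega)
    (by rw [h.ch.rf ((Ch.top_mono k.2.1).trans hE) k.1]; ring)

theorem lo_tp {d : Ch P} (k : C.top ≤ d) (hd : d ≤ e) (h1 : vv δ z u C ≤ t) (h2 : mu δ u d ≤ t) :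
    vv δ z u (tp C d k) ≤ t :=
  (h.ch.vv_le (by simpa using hd)).2 fun c hc => (mem_tp.1 hc).elim (fun e => e ▸ h2)
    fun hc => (h.ch.le_vv (k.trans hd) hc).trans h1

theorem hi_of {d : Ch P} (hd : d ∈ C.1) (hC : C.top ≤ e) (h2 : t < mu δ u d) : t < vv δ z u C :=
  h2.trans_le (h.ch.le_vv hC hd)

theorem hi_up (k : C ≤ D) (hD : D.top ≤ e) (h2 : t < vv δ z u C) : t < vv δ z u D :=
  h2.trans_le (h.ch.vv_mono hD k)

theorem lo_dn (k : C ≤ D) (hD : D.top ≤ e) (h2 : vv δ z u D ≤ t) : vv δ z u C ≤ t :=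
  (h.ch.vv_mono hD k).trans h2

theorem mu_pt {x : P} (hx : x ∈ e.1) : mu δ u (Ch.pt x) = u x := h.inr.mu_pt h.dom h.ch hx
theorem mu_le {d : Ch P} (hd : d ≤ e) : mu δ u d ≤ u d.top := h.inr.mu_le h.dom hd
theorem le_mu {d : Ch P} (hd : d ≤ e) : u d.bot ≤ mu δ u d := h.inr.le_mu h.dom h.ch hd
theorem ule {x y : P} (hx : x ∈ e.1) (hy : y ∈ e.1) (k : x ≤ y) : u x ≤ u y :=
  h.ch.le h.mono h.dom hx hy k
theorem vv_off (hC : C.top ≤ e) (k : C ∉ A2 A) : vv δ z u C = u C.top.top :=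
  h.inr.vv_off h.mono h.dom h.ch hC k

/-- a mixed edge of the refinement inside the carrier -/
def Mx (A : Set P) (z : P → P → ℤ) (δ : Ch P → ℤ) (e : Ch P) (u : P → ℤ) (t : ℤ)
    (C D : Ch (Ch P)) : Prop :=
  C ≤ D ∧ D.top ≤ e ∧ vv δ z u C ≤ t ∧ t < vv δ z u D ∧ (C ∈ A2 A ∨ D ∈ A2 A)

/-- FIBRE: the sheet is connected inside a carrier -/
theorem fibre (he : Mt A e) (t : ℤ) :
    ∃ X : Prop, ∀ C D, Mx A z δ e u t C D → (TT A z δ u t C D ↔ X) := by
  obtain ⟨c, c1, c2, c3, c4⟩ := exists_c0 he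
  have inA : ∀ {C : Ch (Ch P)}, C.top = c → C ∈ A2 A := fun {C} k => by
    show C.top.top ∈ A; rwa [k]
  have kp : ∀ {C : Ch (Ch P)}, C.top ≤ e → C ∈ A2 A → C.top ≤ c := fun {C} k1 k2 x hx =>
    c3 x (k1 hx) ((Ch.le_top hx).trans (c4 _ (k1 C.top.top_mem) k2))
  have kp' : ∀ {C D}, Mx A z δ e u t C D → C.top ≤ c := fun {C D} ⟨k1, k2, _, _, k5⟩ =>
    k5.elim (kp ((Ch.top_mono k1).trans k2)) fun k => (Ch.top_mono k1).trans (kp k2 k)
  have eh : ∀ {d : Ch P}, d ≤ e → ¬ d ≤ c → u d.top ≤ mu δ u e := by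
    intro d k1 k2
    have k3 : ¬ d.top ≤ c.top := fun k => k2 fun x hx => c3 x (k1 hx) ((Ch.le_top hx).trans k)
    rw [h.inr.mu_off fun k => k3 ((Ch.top_mono k1).trans (c4 _ e.top_mem k))]
    exact h.ule (k1 d.top_mem) e.top_mem (Ch.top_mono k1)
  -- reduction of an edge whose upper end is outside
  have out : ∀ {C D} (m : Mx A z δ e u t C D), ¬ D.top ≤ c → C ∈ A2 A ∧ t < mu δ u e ∧
      (TT A z δ u t C D ↔ TT A z δ u t C (tp (tp C c (kp' m)) e (by simpa using c1))) := by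
    intro C D m k
    obtain ⟨k1, k2, k3, k4, k5⟩ := id m
    have hC : C ∈ A2 A := k5.resolve_right fun k' => k (kp k2 k')
    have hD : D ∉ A2 A := fun k' => k (kp k2 k')
    have he : t < mu δ u e := by rw [h.vv_off k2 hD] at k4; exact k4.trans_le (eh k2 k)
    have k6 := (Ch.top_mono k1).trans k2
    have k7 : t < vv δ z u (tp C e k6) := h.hi_of (d := e) (by simp) (by simp) he
    refine ⟨hC, he, ?_⟩
    rw [h.mR (tri1 hC k1 (le_tp D e k2)) k2 k3 k4,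
      ← h.mR (tri1 hC (le_tp C e k6) (tp_mono k1)) (by simp) k3 k7,
      h.mR (tri1 hC (le_tp C e k6) (tp_mono (le_tp C c _))) (by simp) k3 k7]
  by_cases hc : mu δ u c ≤ t
  · have p0 : vv δ z u (Ch.pt c) ≤ t := by rwa [h.ch.vv_pt c1]
    have pA : Ch.pt c ∈ A2 A := inA (by simp)
    -- edges from `{c}`
    let f : Ch (Ch P) → Prop := fun D => TT A z δ u t (Ch.pt c) D
    have f1 : ∀ D D' : Ch (Ch P), c ∈ D.1 → D ≤ D' → D.top ≤ e → t < vv δ z u D → (f D ↔ f D') :=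
      fun D D' k1 k2 k3 k4 => h.mR (tri1 pA (Ch.pt_le.2 k1) k2) k3 p0 k4
    have f2 : ∃ X : Prop, ∀ D : Ch (Ch P), c ∈ D.1 → D.top ≤ e → t < vv δ z u D → (f D ↔ X) := by
      by_cases he : t < mu δ u e
      · refine ⟨f (Ch.pr c e c1), fun D k1 k2 k3 => ?_⟩
        rw [f1 D _ k1 (le_tp D e k2) k2 k3,
          f1 (Ch.pr c e c1) (tp D e k2) (by simp) (pr_le (by simp [k1]) (by simp)) (by simp)
            (h.hi_of (d := e) (by simp) (by simp) he)]
      have g1 : ∀ (d d' : Ch P) (k : d ≤ d') (k' : d' ≤ c), t < mu δ u d → t < mu δ u d' →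
          (f (Ch.pr d c (k.trans k')) ↔ f (Ch.pr d' c k')) := fun d d' k k' k1 k2 => by
        rw [f1 _ (tri d d' c k k') (by simp) (pr_le (by simp) (by simp)) (by simpa using c1)
            (h.hi_of (d := d) (by simp) (by simpa using c1) k1),
          f1 (Ch.pr d' c k') (tri d d' c k k') (by simp) (pr_le (by simp) (by simp))
            (by simpa using c1) (h.hi_of (d := d') (by simp) (by simpa using c1) k2)]
      refine ⟨f (Ch.pr (Ch.pt c.top) c (Ch.pt_le.2 c.top_mem)), fun D k1 k2 k3 => ?_⟩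
      obtain ⟨d, d1, d2⟩ := h.ch.ex_vv δ k2
      rw [d2] at k3
      have d3 := le_top' d1 k2
      have d4 : d ≤ c := by
        by_contra k; exact he ((k3.trans_le (h.mu_le d3)).trans_le (eh d3 k))
      have d5 : t < u d.top := k3.trans_le (h.mu_le d3)
      have d6 : d.top ≤ c.top := Ch.top_mono d4
      have d7 : Ch.pr d.top c.top d6 ≤ c := pr_le (d4 d.top_mem) c.top_mem
      have d8 : t < mu δ u (Ch.pr d.top c.top d6) :=
        d5.trans_le (by simpa using h.le_mu (d7.trans c1))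
      have d9 : t < mu δ u (Ch.pt d.top) := by rwa [h.mu_pt (d3 d.top_mem)]
      rw [← f1 (Ch.pr d c d4) D (by simp) (pr_le d1 k1) (by simpa using c1)
          (h.hi_of (d := d) (by simp) (by simpa using c1) k3),
        ← g1 _ d (Ch.pt_le.2 d.top_mem) d4 d9 k3, g1 _ _ (Ch.pt_le.2 (by simp)) d7 d9 d8,
        ← g1 (Ch.pt c.top) _ (Ch.pt_le.2 (by simp)) d7 (by
          rw [h.mu_pt (c1 c.top_mem)]
          exact d5.trans_le (h.ule (d3 d.top_mem) (c1 c.top_mem) d6)) d8]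
    obtain ⟨X, hX⟩ := f2
    refine ⟨X, fun C D m => ?_⟩
    have k6 := kp' m
    have l1 : vv δ z u (tp C c k6) ≤ t := h.lo_tp k6 c1 m.2.2.1 hc
    have l2 : tp C c k6 ∈ A2 A := inA (by simp)
    have fin : ∀ E : Ch (Ch P), tp C c k6 ≤ E → E.top ≤ e → t < vv δ z u E →
        (TT A z δ u t C E ↔ X) := fun E a1 a2 a3 => by
      rw [← h.mL (tri2 l2 (le_tp C c k6) a1) a2 l1 a3, h.mL (tri2 l2 (pt_le_tp C c k6) a1) a2 l1 a3]
      exact hX E (a1 (by simp)) a2 a3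
    by_cases k : D.top ≤ c
    · rw [h.mR (tri3 (inA (top_tp D c k)) m.1 (le_tp D c k)) m.2.1 m.2.2.1 m.2.2.2.1]
      exact fin _ (tp_mono m.1) (by simpa using c1)
        (h.hi_up (le_tp D c k) (by simpa using c1) m.2.2.2.1)
    · obtain ⟨-, a2, a3⟩ := out m k
      rw [a3]
      exact fin _ (le_tp _ _ _) (by simp) (h.hi_of (d := e) (by simp) (by simp) a2)
  · rw [not_le] at hc
    let g : Ch P → Prop := fun d => ∀ k : d ≤ c, TT A z δ u t (Ch.pt d) (Ch.pr d c k)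
    have hi : ∀ {E : Ch (Ch P)}, c ∈ E.1 → E.top ≤ e → t < vv δ z u E := fun k1 k2 =>
      h.hi_of k1 k2 hc
    have g1 : ∀ (C : Ch (Ch P)) (k : C.top ≤ c), vv δ z u C ≤ t → ∀ d ∈ C.1,
        (TT A z δ u t C (tp C c k) ↔ g d) := fun C k k1 d hd => by
      have l2 : tp C c k ∈ A2 A := inA (by simp)
      have k2 := le_top' hd k
      rw [h.mL (tri3 l2 (Ch.pt_le.2 hd) (le_tp C c k)) (by simpa using c1) k1
          (hi (by simp) (by simpa using c1)),
        ← h.mR (D := Ch.pr d c k2) (tri3 l2 (Ch.pt_le.2 (by simp)) (pr_le (by simp [hd]) (by simp)))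
          (by simpa using c1) (h.lo_dn (Ch.pt_le.2 hd) (k.trans c1) k1)
          (hi (by simp) (by simpa using c1))]
      exact ⟨fun a _ => a, fun a => a k2⟩
    have g2 : ∀ (d d' : Ch P), d ≤ d' → d' ≤ c → mu δ u d ≤ t → mu δ u d' ≤ t → (g d ↔ g d') :=
      fun d d' k k' k1 k2 => by
        have l : vv δ z u (Ch.pr d d' k) ≤ t := (h.ch.vv_le (by simpa using k'.trans c1)).2
          fun x hx => (mem_pr.1 hx).elim (fun e => e ▸ k1) fun e => e ▸ k2
        rw [← g1 (Ch.pr d d' k) (by simpa using k') l d (by simp),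
          g1 (Ch.pr d d' k) (by simpa using k') l d' (by simp)]
    refine ⟨g (Ch.pt c.bot), fun C D m => ?_⟩
    have k6 := kp' m
    have a1 : TT A z δ u t C D ↔ TT A z δ u t C (tp C c k6) := by
      by_cases k : D.top ≤ c
      · rw [h.mR (tri3 (inA (top_tp D c k)) m.1 (le_tp D c k)) m.2.1 m.2.2.1 m.2.2.2.1,
          h.mR (E := tp D c k) (tri3 (inA (top_tp D c k)) (le_tp C c k6) (tp_mono m.1))
            (by simpa using c1) m.2.2.1 (hi (by simp) (by simpa using c1))]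
      · obtain ⟨a1, -, a3⟩ := out m k
        rw [a3, h.mR (tri1 a1 (le_tp C c k6) (le_tp _ _ _)) (by simpa using c1) m.2.2.1
          (hi (by simp) (by simpa using c1))]
    have d4 : mu δ u C.top ≤ t := (h.ch.le_vv (k6.trans c1) C.top_mem).trans m.2.2.1
    have d5 : u C.top.bot ≤ t := (h.le_mu (k6.trans c1)).trans d4
    have d6 : c.bot ≤ C.top.bot := Ch.bot_anti k6
    have d7 : Ch.pr c.bot C.top.bot d6 ≤ c := pr_le c.bot_mem (k6 C.top.bot_mem)
    have d8 : mu δ u (Ch.pr c.bot C.top.bot d6) ≤ t :=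
      (h.mu_le (d7.trans c1)).trans (by simpa using d5)
    have d9 : mu δ u (Ch.pt C.top.bot) ≤ t := by rwa [h.mu_pt (c1 (k6 C.top.bot_mem))]
    rw [a1, g1 C k6 m.2.2.1 _ C.top_mem, ← g2 _ _ (Ch.pt_le.2 C.top.bot_mem) k6 d9 d4,
      g2 _ _ (Ch.pt_le.2 (by simp)) d7 d9 d8, ← g2 (Ch.pt c.bot) _ (Ch.pt_le.2 (by simp)) d7 (by
        rw [h.mu_pt (c1 c.bot_mem)]
        exact (h.ule (c1 c.bot_mem) (c1 (k6 C.top.bot_mem)) d6).trans d5) d8]

/-- a boundary edge of the carrier gives a boundary edge of the refinement -/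
theorem base (he : Mt A e) {x y : P} (hx : x ∈ e.1) (hy : y ∈ e.1) (hxy : x ≤ y) (hx' : x ∉ A)
    (hy' : y ∉ A) (h1 : u x ≤ t) (h2 : t < u y) :
    ∃ C D, Mx A z δ e u t C D ∧ TT A z δ u t C D := by
  obtain ⟨c, c1, c2, c3, c4⟩ := exists_c0 he
  have inA : ∀ {C : Ch (Ch P)}, C.top = c → C ∈ A2 A := fun {C} k => by
    show C.top.top ∈ A; rwa [k]
  have p1 : vv δ z u (Ch.pt (Ch.pt x)) ≤ t := by rwa [h.ch.vv_pt (Ch.pt_le.2 hx), h.mu_pt hx]
  have p2 : Ch.pt (Ch.pt x) ∉ A2 A := by simpa using hx'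
  have q1 : c.top ≤ y → e.top ∉ A ∧ t < mu δ u e := fun k => by
    have := not_up h.conv c2 k hy' (Ch.le_top hy)
    exact ⟨this, by rw [h.inr.mu_off this]; exact h2.trans_le (h.ule hy e.top_mem (Ch.le_top hy))⟩
  rcases e.total hy (c1 c.top_mem) with k | k
  · have l1 : Ch.pr x y hxy ≤ c := pr_le (c3 x hx (hxy.trans k)) (c3 y hy k)
    let D := Ch.pr (Ch.pt x) (Ch.pr x y hxy) (Ch.pt_le.2 (by simp))
    have l2 : D.top ≤ c := by simpa [D] using l1
    have l3 : D ∉ A2 A := by simpa [D] using hy'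
    have l4 : t < vv δ z u D := by rw [h.vv_off (l2.trans c1) l3]; simpa [D] using h2
    have l5 : Ch.pt (Ch.pt x) ≤ D := Ch.pt_le.2 (by simp [D])
    exact ⟨_, tp D c l2, ⟨l5.trans (le_tp _ _ _), by simpa using c1, p1,
      h.hi_up (le_tp _ _ _) (by simpa using c1) l4, Or.inr (inA (by simp))⟩,
      (h.mR (tri3 (inA (by simp)) l5 (le_tp _ _ _)) (l2.trans c1) p1 l4).1 (Tb.base p2 l3)⟩
  obtain ⟨q2, q3⟩ := q1 k
  rcases e.total hx (c1 c.top_mem) with k' | k'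
  · let D := Ch.pr (Ch.pt x) c (Ch.pt_le.2 (c3 x hx k'))
    have l2 : D.top ≤ e := by simpa [D] using c1
    have l3 : D ∈ A2 A := inA (by simp [D])
    have l5 : Ch.pt (Ch.pt x) ≤ D := Ch.pt_le.2 (by simp [D])
    have l6 : t < vv δ z u (tp D e l2) := h.hi_of (d := e) (by simp) (by simp) q3
    have b : TT A z δ u t (Ch.pt (Ch.pt x)) (tp D e l2) := Tb.base p2 (by simpa using q2)
    by_cases l4 : vv δ z u D ≤ t
    · exact ⟨D, tp D e l2, ⟨le_tp _ _ _, by simp, l4, l6, Or.inl l3⟩,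
        (h.mL (tri2 l3 l5 (le_tp _ _ _)) (by simp) l4 l6).2 b⟩
    · exact ⟨_, D, ⟨l5, l2, p1, not_le.1 l4, Or.inr l3⟩,
        (h.mR (tri2 l3 l5 (le_tp _ _ _)) l2 p1 (not_le.1 l4)).2 b⟩
  · have l1 : c ≤ Ch.dn e x (Ch.bot_le hx) := le_dn c1 k'
    let D := Ch.pr c _ l1
    have l2 : D.top ≤ e := by simpa [D] using dn_le
    have l3 : D ∉ A2 A := by simpa [D, top_dn hx] using hx'
    have l4 : vv δ z u D ≤ t := by rw [h.vv_off l2 l3]; simpa [D, top_dn hx] using h1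
    have l5 : Ch.pt c ≤ D := Ch.pt_le.2 (by simp [D])
    have l6 : t < vv δ z u (tp D e l2) := h.hi_of (d := e) (by simp) (by simp) q3
    have l7 : Ch.pt c ∈ A2 A := inA (by simp)
    exact ⟨_, tp D e l2, ⟨l5.trans (le_tp _ _ _), by simp, h.lo_dn l5 l2 l4, l6, Or.inl l7⟩,
      (h.mL (tri1 l7 l5 (le_tp _ _ _)) (by simp) l4 l6).1 (Tb.base l3 (by simpa using q2))⟩

/-- a mixed edge over an edge -/
theorem wit {x y : P} (hxy : x ≤ y) (hx : x ∈ e.1) (hy : y ∈ e.1) (hA : x ∈ A ∨ y ∈ A)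
    {e' : Ch P} {u' : P → ℤ} (hx' : x ∈ e'.1) (hy' : y ∈ e'.1)
    (e1 : u' x = u x) (e2 : u' y = u y) (h1 : u x ≤ t) (h2 : t < u y) :
    ∃ C D, Mx A z δ e u t C D ∧ Mx A z δ e' u' t C D ∧ vv δ z u' C = vv δ z u C := by
  let d := Ch.pr x y hxy
  have l : d ≤ e := pr_le hx hy
  have l' : d ≤ e' := pr_le hx' hy'
  have v : ∀ C : Ch (Ch P), C.top ≤ d → vv δ z u' C = vv δ z u C := fun C k => by
    unfold vv
    rcases mem_pr.1 (k C.top.top_mem) with a | a <;> rw [a] <;> omega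
  suffices ∃ C D, D.top ≤ d ∧ Mx A z δ e u t C D by
    obtain ⟨C, D, k, m⟩ := this
    have k2 := (Ch.top_mono m.1).trans k
    exact ⟨C, D, m, ⟨m.1, k.trans l', v C k2 ▸ m.2.2.1, v D k ▸ m.2.2.2.1, m.2.2.2.2⟩, v C k2⟩
  have px : Ch.pt x ≤ d := Ch.pt_le.2 (by simp [d])
  have py : Ch.pt y ≤ d := Ch.pt_le.2 (by simp [d])
  by_cases k : mu δ u d ≤ t
  · have hy2 : y ∈ A := by
      by_contra k2
      rw [h.inr.mu_off (by simpa [d] using k2)] at k
      simp only [d, Ch.top_pr] at k; omega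
    exact ⟨Ch.pt d, Ch.pr _ d py, by simp, Ch.pt_le.2 (by simp), by simpa using l,
      by rwa [h.ch.vv_pt l], h.hi_of (d := Ch.pt y) (by simp) (by simpa using l)
        (by rwa [h.mu_pt hy]), Or.inl (by simpa [d] using hy2)⟩
  · exact ⟨Ch.pt (Ch.pt x), Ch.pr _ d px, by simp, Ch.pt_le.2 (by simp), by simpa using l,
      by rwa [h.ch.vv_pt (Ch.pt_le.2 hx), h.mu_pt hx], h.hi_of (d := d) (by simp) (by simpa using l)
        (not_le.1 k), hA.imp (by simp) (by simp [d])⟩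

end Cx

open Cx in
theorem InR.nc (h : InR A z δ) (hA : A.OrdConnected) (hz : Coc A z) (hm : Mono A z) (hn : NC A z) :
    NC (A2 A) (rf δ z) := by
  let G : P → P → ℤ → Prop := fun x y k => ∀ e u, Mt A e → Chart z e u → x ∈ e.1 → y ∈ e.1 →
    ∀ C D, Mx A z δ e u (u x + k) C D → TT A z δ u (u x + k) C D
  have cx : ∀ {e u}, Mt A e → Chart z e u → Cx A z δ e u := fun he hu => ⟨hA, hm, h, he.dom, hu⟩
  have gb : ∀ x y k, x ≤ y → x ∉ A → y ∉ A → 0 ≤ k → k < z x y → G x y k := by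
    intro x y k hxy hx hy h0 h1 e u he hu a1 a2 C D m
    obtain ⟨X, hX⟩ := (cx he hu).fibre he (u x + k)
    obtain ⟨C', D', m', b⟩ := (cx he hu).base (t := u x + k) he a1 a2 hxy hx hy (by omega)
      (by rw [hu x a1 y a2 hxy] at h1; omega)
    exact (hX C D m).2 ((hX C' D' m').1 b)
  have gm : ∀ (E : Ch P) (x y x' y' : P) (k k' : ℤ), Mt A E → x ∈ E.1 → y ∈ E.1 → x' ∈ E.1 →
      y' ∈ E.1 → x' ≤ y' → 0 ≤ k' → k' < z x' y' → (∀ u, Chart z E u → u x + k = u x' + k') →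
      G x y k → G x' y' k' := by
    intro E x y x' y' k k' hE a1 a2 a3 a4 hxy h0 h1 ek g
    by_cases hA' : x' ∈ A ∨ y' ∈ A
    swap
    · exact gb _ _ _ hxy (fun h => hA' (Or.inl h)) (fun h => hA' (Or.inr h)) h0 h1
    intro e u he hu b1 b2 C D m
    obtain ⟨a, ha, ha'⟩ := hE.dom
    have hu' := chart_pot hz ha ha' (u x' - pot z a x')
    obtain ⟨X, hX⟩ := (cx he hu).fibre he (u x' + k')
    have e1 := hu x' b1 y' b2 hxy
    have e2 := hu' x' a3 y' a4 hxy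
    have e3 := ek _ hu'
    beta_reduce at e2 e3
    obtain ⟨C', D', m1, m2, ev⟩ := (cx he hu).wit (t := u x' + k') hxy b1 b2 hA'
      (e' := E) (u' := fun x => pot z a x + (u x' - pot z a x')) a3 a4
      (by ring) (by omega) (by omega) (by omega)
    have := g E _ hE hu' a1 a2 C' D' (by convert m2 using 1; omega)
    refine (hX C D m).2 ((hX C' D' m1).1 ?_)
    unfold TT at this ⊢
    convert this using 1
    omega
  have big : ∀ {x y w}, Tri A x y w → ∃ E : Ch P, Mt A E ∧ x ∈ E.1 ∧ y ∈ E.1 ∧ w ∈ E.1 := by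
    intro x y w t
    obtain ⟨E, k, hE⟩ := dom_iff.1 (show Dom A (tri x y w t.1 t.2.1) from
      let ⟨_, _, a, ha, c1, c2, c3⟩ := t; ⟨a, ha, by simp [c1, c2, c3]⟩)
    exact ⟨E, hE, k (by simp), k (by simp), k (by simp)⟩
  have all : ∀ x y k, Dp A x y → 0 ≤ k → k < z x y → G x y k := by
    intro x y k hp h0 h1
    refine NC.ind hn hz hm (G := G) (fun x y k hp => gb x y k hp.1) ?_ ?_ hp h0 h1
    · intro x y w k t h0 h1
      obtain ⟨E, hE, a1, a2, a3⟩ := big t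
      have := t.add hz; have := hm _ _ t.d23
      exact ⟨gm E _ _ _ _ _ _ hE a1 a2 a1 a3 t.d13.1 h0 (by omega) fun _ _ => rfl,
        gm E _ _ _ _ _ _ hE a1 a3 a1 a2 t.1 h0 h1 fun _ _ => rfl⟩
    · intro x y w k t h0 h1
      obtain ⟨E, hE, a1, a2, a3⟩ := big t
      have := t.add hz; have := hm _ _ t.d12
      exact ⟨gm E _ _ _ _ _ _ hE a2 a3 a1 a3 t.d13.1 (by omega) (by omega)
          fun u hu => by rw [hu x a1 y a2 t.1]; ring,
        gm E _ _ _ _ _ _ hE a1 a3 a2 a3 t.2.1 h0 h1 fun u hu => by rw [hu x a1 y a2 t.1]; ring⟩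
  intro C D k hp h0 h1
  by_cases hA' : C ∈ A2 A ∨ D ∈ A2 A
  swap
  · exact Tb.base (fun h => hA' (Or.inl h)) (fun h => hA' (Or.inr h))
  have he : Mt A D.top := hA'.elim (fun h => ⟨_, Ch.top_mono hp.1 C.top.top_mem, h⟩)
    fun h => ⟨_, D.top.top_mem, h⟩
  obtain ⟨u, hu⟩ := exists_chart hz he.dom
  have c := cx he hu
  rw [hu.rf le_rfl hp.1] at h1
  have k1 := Ch.top_mono hp.1
  have k2 : u D.top.bot ≤ vv δ z u C := ((c.ule D.top.bot_mem (k1 C.top.bot_mem)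
    (Ch.bot_anti k1)).trans (c.le_mu k1)).trans (hu.le_vv k1 C.top_mem)
  have k3 := h.vv_le hm he.dom hu (le_refl D.top)
  have := all _ _ (vv δ z u C + k - u D.top.bot) he.bt (by omega)
    (by rw [hu _ D.top.bot_mem _ D.top.top_mem D.top.bot_le_top]; omega) D.top u he hu
    D.top.bot_mem D.top.top_mem C D ⟨hp.1, le_rfl, by omega, by omega, hA'⟩
  unfold TT at this
  convert this using 1
  ring

end Crest.Agent.X212.Cut21
end
end

-- ▼ part X212/Cut21/Ref3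

/-!
# X212 / Cut21 (helper21): refinement in the range keeps `CondP`; thickening and halving
-/

set_option autoImplicit false
set_option linter.unusedSectionVars false

open Finset Classical

noncomputable section

namespace Crest.Agent.X212.Cut21

open Crest.Agent.X212.Hp13 Crest.Agent.X212.Alg36
open Crest.Agent.X212.Ind26 (tri tri_val top_tri bot_tri)

variable {P : Type} [PartialOrder P] [Fintype P] {A : Set P} {z : P → P → ℤ} {δ : Ch P → ℤ}

namespace Cx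

variable {e : Ch P} {u : P → ℤ} (h : Cx A z δ e u) (he : e.top ∉ A) {C D E : Ch (Ch P)}

/-- the canonical pair over `C` in the carrier -/
def QQ (A : Set P) (z : P → P → ℤ) (δ : Ch P → ℤ) (e : Ch P) (C : Ch (Ch P)) : Prop :=
  ∀ k : C.top ≤ e, PP (A2 A) (rf δ z) C (tp C e k)

include he in
theorem q0 (hE : E ∉ A2 A) (k : C ≤ E) (k' : E.top ≤ e) :
    PP (A2 A) (rf δ z) C E ↔ QQ A z δ e C := by
  have n1 : ∀ (D : Ch (Ch P)) (k : D.top ≤ e), tp D e k ∉ A2 A := fun D k => by simpa using he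
  exact ⟨fun a _ => PP.mv (n1 E k') (k.trans (le_tp _ _ _)) (Or.inl (tp_mono k))
      (PP.mv hE k (Or.inr (le_tp _ _ _)) a),
    fun a => PP.mv (n1 E k') (k.trans (le_tp _ _ _)) (Or.inl (le_tp _ _ _))
      (PP.mv (n1 C _) (le_tp _ _ _) (Or.inr (tp_mono k)) (a ((Ch.top_mono k).trans k')))⟩

include h he in
theorem q1 (hC : C ∈ A2 A) (hD : D ∈ A2 A) (k : C ≤ D) (k' : D.top ≤ e)
    (v : vv δ z u C = vv δ z u D) : QQ A z δ e C ↔ QQ A z δ e D := by
  have n1 : tp D e k' ∉ A2 A := by simpa using he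
  have v' : rf δ z C D = 0 := by rw [h.ch.rf k' k, v, sub_self]
  rw [← q0 he n1 (k.trans (le_tp _ _ _)) (by simp), ← q0 he n1 (le_tp _ _ _) (by simp)]
  exact ⟨PP.dn hC k v', PP.up hD k (le_tp _ _ _) v'⟩

include h in
theorem q2 (k : C ≤ D) (k' : D.top ≤ e) (v : C ∉ A2 A ∨ vv δ z u C < vv δ z u D) :
    QQ A z δ e D := fun _ => by
  by_cases hC : C ∈ A2 A
  · exact PP.low hC k (by rw [h.ch.rf k' k]; have := v.resolve_left (not_not.2 hC); omega)
  · exact PP.sut hC k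

include h he in
theorem q3 {x y : P} (hx : x ∈ e.1) (hy : y ∈ e.1) (hxy : x ≤ y) (hA : y ∈ A) :
    ((x ∉ A ∨ u x < u y) → QQ A z δ e (Ch.pt (Ch.pt y))) ∧
      (x ∈ A → u x = u y → (QQ A z δ e (Ch.pt (Ch.pt x)) ↔ QQ A z δ e (Ch.pt (Ch.pt y)))) := by
  let d := Ch.pr x y hxy
  have l : d ≤ e := pr_le hx hy
  have px : Ch.pt x ≤ d := Ch.pt_le.2 (by simp [d])
  have py : Ch.pt y ≤ d := Ch.pt_le.2 (by simp [d])
  have m1 : u x ≤ mu δ u d := by simpa [d] using h.le_mu l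
  have m2 : mu δ u d ≤ u y := by simpa [d] using h.mu_le l
  have v0 : ∀ w ∈ e.1, vv δ z u (Ch.pt (Ch.pt w)) = u w := fun w hw => by
    rw [h.ch.vv_pt (Ch.pt_le.2 hw), h.mu_pt hw]
  have v1 : vv δ z u (Ch.pr _ d py) = u y := le_antisymm
    (by simpa [d] using h.inr.vv_le h.mono h.dom h.ch (C := Ch.pr _ d py) (by simpa using l))
    (h.mu_pt hy ▸ h.ch.le_vv (by simpa using l) (by simp))
  have v2 : vv δ z u (Ch.pt d) = mu δ u d := h.ch.vv_pt l
  have v3 : vv δ z u (Ch.pr _ d px) = mu δ u d := le_antisymm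
    ((h.ch.vv_le (by simpa using l)).2 fun c hc => (mem_pr.1 hc).elim
      (fun e => by rw [e, h.mu_pt hx]; exact m1) fun e => e ▸ le_rfl)
    (h.ch.le_vv (by simpa using l) (by simp))
  have a1 : Ch.pr _ d py ∈ A2 A := by simpa [d] using hA
  have a2 : Ch.pt d ∈ A2 A := by simpa [d] using hA
  have a3 : Ch.pr _ d px ∈ A2 A := by simpa [d] using hA
  have e1 := h.q1 he (by simpa using hA) a1 (Ch.pt_le.2 (by simp)) (by simpa using l)
    ((v0 y hy).trans v1.symm)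
  have e2 : mu δ u d = u y → (QQ A z δ e (Ch.pr _ d px) ↔ QQ A z δ e (Ch.pt (Ch.pt y))) :=
    fun k => by
      rw [e1, ← h.q1 he a2 a1 (Ch.pt_le.2 (by simp)) (by simpa using l) (by rw [v1, v2, k]),
        h.q1 he a2 a3 (Ch.pt_le.2 (by simp)) (by simpa using l) (by rw [v2, v3])]
  refine ⟨fun k => ?_, fun k1 k2 => ?_⟩
  · by_cases k3 : mu δ u d = u y
    · exact (e2 k3).1 (h.q2 (C := Ch.pt (Ch.pt x)) (Ch.pt_le.2 (by simp)) (by simpa using l)
        (k.imp (by simp) fun k => by rw [v0 x hx, v3]; omega))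
    · exact e1.2 (h.q2 (C := Ch.pt d) (Ch.pt_le.2 (by simp)) (by simpa using l)
        (Or.inr (by rw [v1, v2]; omega)))
  · rw [← e2 (by omega)]
    exact h.q1 he (by simpa using k1) a3 (Ch.pt_le.2 (by simp)) (by simpa using l)
      (by rw [v0 x hx, v3]; omega)

end Cx

open Cx in
theorem InR.condP (h : InR A z δ) (hA : A.OrdConnected) (hz : Coc A z) (hm : Mono A z)
    (hc : CondP A z) : CondP (A2 A) (rf δ z) := by
  have cx : ∀ {e : Ch P} {x : P}, x ∈ e.1 → x ∈ A → ∃ u, Cx A z δ e u := fun {e x} h1 h2 =>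
    let ⟨u, hu⟩ := exists_chart hz (Mt.dom ⟨x, h1, h2⟩); ⟨u, hA, hm, h, Mt.dom ⟨x, h1, h2⟩, hu⟩
  -- independence of the carrier
  have tr : ∀ {x o : P} (hxo : x ≤ o), o ∉ A → ∀ e : Ch P, x ∈ e.1 → o ∈ e.1 → e.top ∉ A →
      (QQ A z δ (Ch.pr x o hxo) (Ch.pt (Ch.pt x)) ↔ QQ A z δ e (Ch.pt (Ch.pt x))) := by
    intro x o hxo ho e h1 h2 h3
    have k : Ch.pr (Ch.pt x) (Ch.pr x o hxo) (Ch.pt_le.2 (by simp)) ∉ A2 A := by simpa using ho
    rw [← q0 (by simpa using ho) k (Ch.pt_le.2 (by simp)) (by simp),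
      q0 h3 k (Ch.pt_le.2 (by simp)) (by simpa using pr_le h1 h2)]
  have key : ∀ x o, PP A z x o → x ∈ A → o ∉ A → ∀ hxo : x ≤ o,
      QQ A z δ (Ch.pr x o hxo) (Ch.pt (Ch.pt x)) := by
    intro x o hp
    induction hp with
    | @sut w a o hw h2 =>
      intro ha ho hao
      obtain ⟨u, c⟩ := cx (e := tri w a o h2 hao) (by simp) ha
      exact (tr hao ho _ (by simp) (by simp) (by simpa using ho)).2
        ((c.q3 (by simpa using ho) (by simp) (by simp) h2 ha).1 (Or.inl hw))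
    | @low w a o _ h2 h3 =>
      intro ha ho hao
      obtain ⟨u, c⟩ := cx (e := tri w a o h2 hao) (by simp) ha
      rw [c.ch w (by simp) a (by simp) h2] at h3
      exact (tr hao ho _ (by simp) (by simp) (by simpa using ho)).2
        ((c.q3 (by simpa using ho) (by simp) (by simp) h2 ha).1 (Or.inr (by omega)))
    | @up a b o hb h2 h3 h4 _ ih =>
      intro ha ho hao
      obtain ⟨u, c⟩ := cx (e := tri a b o h2 h3) (by simp) ha
      rw [c.ch a (by simp) b (by simp) h2] at h4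
      exact (tr hao ho _ (by simp) (by simp) (by simpa using ho)).2
        (((c.q3 (by simpa using ho) (by simp) (by simp) h2 hb).2 ha (by omega)).2
          ((tr h3 ho _ (by simp) (by simp) (by simpa using ho)).1 (ih hb ho h3)))
    | @dn a b o hb h2 h4 _ ih =>
      intro ha ho hao
      obtain ⟨u, c⟩ := cx (e := tri b a o h2 hao) (by simp) ha
      rw [c.ch b (by simp) a (by simp) h2] at h4
      exact (tr hao ho _ (by simp) (by simp) (by simpa using ho)).2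
        (((c.q3 (by simpa using ho) (by simp) (by simp) h2 ha).2 hb (by omega)).1
          ((tr (h2.trans hao) ho _ (by simp) (by simp) (by simpa using ho)).1 (ih hb ho _)))
    | @mv a o p hp h2 h3 _ ih =>
      intro ha ho hao
      rcases h3 with h3 | h3
      · exact (tr hao ho (tri a o p hao h3) (by simp) (by simp) (by simpa using hp)).2
          ((tr h2 hp _ (by simp) (by simp) (by simpa using hp)).1 (ih ha hp h2))
      · exact (tr hao ho (tri a p o h2 h3) (by simp) (by simp) (by simpa using ho)).2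
          ((tr h2 hp _ (by simp) (by simp) (by simpa using ho)).1 (ih ha hp h2))
  intro C hC E hE k
  have k1 : C.top ≤ E.top := Ch.top_mono k
  have hE' : E.top.top ∉ A := hE
  obtain ⟨u, c⟩ := cx (k1 C.top.top_mem) (show C.top.top ∈ A from hC)
  rw [q0 hE' hE k le_rfl]
  have k2 : Ch.pt C.bot.bot ≤ C.bot := Ch.pt_le.2 C.bot.bot_mem
  have k3 : C.bot ≤ E.top := le_top' C.bot_mem k1
  have k4 : bt C _ k2 ∈ A2 A := by simpa using hC
  have k5 : vv δ z u C = vv δ z u (bt C _ k2) := le_antisymm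
    (c.ch.vv_mono (by simpa using k1) (le_bt _ _ _))
    ((c.ch.vv_le (by simpa using k1)).2 fun d hd => (mem_bt.1 hd).elim
      (fun e => by
        rw [e, c.mu_pt (k3 C.bot.bot_mem)]
        exact (c.le_mu k3).trans (c.ch.le_vv k1 C.bot_mem))
      fun hd => c.ch.le_vv k1 hd)
  rw [c.q1 hE' hC k4 (le_bt _ _ _) (by simpa using k1) k5]
  have k6 : Ch.pt (Ch.pt C.bot.bot) ≤ bt C _ k2 := Ch.pt_le.2 (by simp)
  by_cases k7 : Ch.pt (Ch.pt C.bot.bot) ∉ A2 A ∨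
      vv δ z u (Ch.pt (Ch.pt C.bot.bot)) < vv δ z u (bt C _ k2)
  · exact c.q2 k6 (by simpa using k1) k7
  rw [not_or, not_not, not_lt] at k7
  have k8 : C.bot.bot ∈ A := by simpa using k7.1
  have k9 : C.bot.bot ≤ E.top.top := Ch.le_top (k3 C.bot.bot_mem)
  exact (c.q1 hE' k7.1 k4 k6 (by simpa using k1)
    (le_antisymm (c.ch.vv_mono (by simpa using k1) k6) k7.2)).1
    ((tr k9 hE' _ (k3 C.bot.bot_mem) E.top.top_mem hE').1 (key _ _ (hc _ k8 _ hE' k9) k8 hE' k9))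

theorem refStmt : RefStmt := fun _ _ δ hA hM hz hm h =>
  ⟨h.eqv hz hm, mono_rf hz δ, h.chi hM hz hm, h.nc hA hz hm, h.condP hA hz hm⟩

theorem InR.sf (h : InR A z δ) (hA : A.OrdConnected) (hz : Sf A z) : Sf (A2 A) (rf δ z) :=
  sf_iff.2 ⟨mono_rf hz.coc δ, coc_rf hz.coc δ, h.nc hA hz.coc hz.mono hz.nc⟩

theorem inR_dT (hm : Mono A z) : InR A z (dT A z) :=
  ⟨fun d hd => by unfold dT; split_ifs; exacts [hm _ _ hd.bt, le_rfl],
    fun d hd => by unfold dT; split_ifs; exacts [le_rfl, hm _ _ hd.bt], fun _ hd => if_neg hd⟩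

theorem inR_dH (hm : Mono A z) : InR A z (dH A z) :=
  ⟨fun d hd => by have := hm _ _ hd.bt; unfold dH; split_ifs <;> omega,
    fun d hd => by have := hm _ _ hd.bt; unfold dH; split_ifs <;> omega, fun _ hd => if_neg hd⟩

theorem mu_dT {e d : Ch P} {u : P → ℤ} (hu : Chart z e u) (hd : d ≤ e) (h : d.top ∈ A) :
    mu (dT A z) u d = u d.bot := by
  rw [mu, dT, if_pos h, hu _ (hd d.bot_mem) _ (hd d.top_mem) d.bot_le_top]; ring

/-- a refinement that takes the lowest value on chains from `O₋` to `A` -/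
def LowM (A : Set P) (z : P → P → ℤ) (δ : Ch P → ℤ) : Prop :=
  ∀ d : Ch P, d.top ∈ A → d.bot ∉ A → δ d = z d.bot d.top

theorem lowM_dT : LowM A z (dT A z) := fun _ h _ => if_pos h
theorem lowM_dH : LowM A z (dH A z) := fun _ h h' => by rw [dH, if_pos h, if_neg h']

/-- under a point of the region lying over `O₋` there is a largest point of `O₋`, at the same
level -/
theorem LowM.max (hl : LowM A z δ) (h : InR A z δ) (hA : A.OrdConnected) (hz : Coc A z)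
    (hm : Mono A z) {C D : Ch (Ch P)} (hC : C ∈ A2 A) (hD : D ∉ A2 A) (k : D ≤ C) :
    ∃ M, M ∉ A2 A ∧ M ≤ C ∧ rf δ z M C = 0 ∧ ∀ D, D ∉ A2 A → D ≤ C → D ≤ M := by
  have he : Dom A C.top := Mt.dom ⟨_, C.top.top_mem, hC⟩
  obtain ⟨u, hu⟩ := exists_chart hz he
  have c : Cx A z δ C.top u := ⟨hA, hm, h, he, hu⟩
  have n : ∀ D, D ∉ A2 A → D ≤ C → ∀ d ∈ D.1, d.top ∉ A := fun D h1 h2 d hd =>
    not_dn hA hC (Ch.top_mono (Ch.top_mono h2)) h1 (Ch.top_mono (Ch.le_top hd))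
  let M := C.sub (C.1.filter fun d => d.top ∉ A)
    ⟨D.top, mem_filter.2 ⟨k D.top_mem, hD⟩⟩ (filter_subset _ _)
  have m1 : M ≤ C := filter_subset _ _
  have m2 : M ∉ A2 A := (mem_filter.1 M.top_mem).2
  refine ⟨M, m2, m1, ?_, fun D h1 h2 d hd => mem_filter.2 ⟨h2 hd, n D h1 h2 d hd⟩⟩
  rw [hu.rf le_rfl m1, sub_eq_zero]
  refine le_antisymm ((hu.vv_le le_rfl).2 fun d hd => ?_) (hu.vv_mono le_rfl m1)
  by_cases h1 : d.top ∈ A
  swap
  · exact hu.le_vv (Ch.top_mono m1) (mem_filter.2 ⟨hd, h1⟩)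
  have h2 : M.top ≤ d := (C.total (m1 M.top_mem) hd).resolve_right fun h' =>
    m2 (hA.out h1 hC ⟨Ch.top_mono h', Ch.top_mono (Ch.top_mono m1)⟩)
  have h3 : d.bot ∉ A := not_dn hA h1 (Ch.top_mono h2) m2
    ((Ch.bot_anti h2).trans M.top.bot_le_top)
  have h4 := Ch.le_top hd
  rw [c.vv_off (Ch.top_mono m1) m2, mu, hl d h1 h3, hu _ (h4 d.bot_mem) _ (h4 d.top_mem) d.bot_le_top]
  have := c.ule (h4 d.bot_mem) (h4 (h2 M.top.top_mem)) (Ch.bot_le (h2 M.top.top_mem))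
  omega

end Crest.Agent.X212.Cut21
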