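import Crest.Agent.X212.Hp13.Thk
import Crest.Agent.X212.Sup43.Defs
import Crest.Agent.X212.Alg36.Ext_Mg
import Crest.Agent.X212.Alg36.Inc3
import Crest.Agent.X212.Cut21.Ref3
import Crest.Agent.X212.Sup43.In
import Crest.Agent.X212.Hlf24.Half_Mg
import Crest.Agent.X212.Cut21.Pos
import Crest.Agent.X212.Ind26.Hb
import Crest.Agent.X212.Ind26.Circ
import Crest.Agent.X212.Sf30.Tree2
import Crest.Agent.X212.Reg33.Num
import Crest.Agent.X212.Cut21.Psh2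
import Crest.Agent.X212.Hlf24.Bdy
import Crest.Agent.X212.Mcg32.Prep

-- ▼ part X212/Hp13/M3
section

/-!
# X212 / Hp13 (helper13): the moves M3 and M4 of `Sup43`
-/

set_option autoImplicit false
set_option linter.unusedSectionVars false

open Finset Classical

noncomputable section

namespace Crest.Agent.X212.Hp13

open Sup43

section gen

variable {P : Type} [PartialOrder P] [Fintype P] {A : Set P} {X z w : P → P → ℤ} [IsCoc A z]
  [IsCoc A w]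

theorem LR.ii {R : Lv A w → Lv A z → Prop} (h : LR R) {p r : Lv A w} {q r' : Lv A z} (k : R p q)
    (k' : R r r') (hp : p ∈ LA A w) (l : r ≤ p) (j : 1 ≤ X r.1.1.top p.1.1.top) : q ∈ II A X z :=
  ⟨(h.la k).1 hp, r', (h.le_iff k' k).1 l, by rwa [h.ch k, h.ch k']⟩

theorem Sg.mu_lt {R : Lv A w → Lv A z → Prop} {Xs : Set (Lv A w)} {Ys N : Set (Lv A z)}
    {J : Lv A z → Lv A z → Prop} (h : Sg R Xs Ys N J) (hm : Mono A z) {K : Set (Lv A w)}
    (hK : IsUpperSet K) (hX : Xs ⊆ K) (hN : IsUpperSet N) (hKN : ∀ p q, R p q → p ∈ K → q ∈ N)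
    (h0 : ∀ q ∈ N, q ∉ II A X z)
    (hcl : ∀ p ∈ II A X w, ∀ p' ∈ II A X w, p' ≤ p → p ∈ K → p' ∈ K)
    (hne : ∃ k ∈ II A X w, k ∈ K) (hc : Coc A (cnt (Cls A z)ᶜ)) (hw : Coc A w) :
    mu A X (cnt (Cls A z)ᶜ) hc < mu A X w hw := by
  obtain ⟨k, k1, k2⟩ := hne
  have : IsCoc A (cnt (Cls A z)ᶜ) := ⟨hc⟩
  have sat : Sat (Cls A z)ᶜ := sat_cls.compl
  have l := sat.lr hm
  have dn : ∀ {q b}, PR (Cls A z)ᶜ q b → b ∈ II A X (cnt (Cls A z)ᶜ) → q ∈ II A X z :=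
    fun {q b} j ⟨b1, r, r1, r2⟩ => let ⟨_, j'⟩ := sat.exists_pr' hm r; l.symm.ii j j' b1 r1 r2
  refine ncard_cmp_lt (fun b a => ∃ q, PR (Cls A z)ᶜ q b ∧ R a q) k1 (fun b hb => ?_) ?_
  · obtain ⟨q, j⟩ := sat.exists_pr' hm b
    have hq := dn j hb
    obtain ⟨p, -, p2⟩ := h.tot' q fun i => h0 q (h.yn i) hq
    obtain ⟨q1, r, r1, r2⟩ := id hq
    obtain ⟨r', -, r3⟩ := h.tot' r fun i => h0 q (hN r1 (h.yn i)) hq
    refine ⟨p, h.lr.symm.ii p2 r3 q1 r1 r2, ⟨q, j, p2⟩, fun i => h0 q (hKN p q p2 ?_) hq⟩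
    exact i.ind k2 fun a ha b hb ab => ⟨fun u => hK ab u, hcl b hb a ha ab⟩
  · rintro b hb b' - a a' ⟨q, q1, q2⟩ ⟨q', q3, q4⟩ i
    have i1 : Rch (II A X w \ K) a a' := by
      by_cases e : a ∈ II A X w
      · exact Rch.in_clopen (C := II A X w \ K) (fun x hx y hy xy => ⟨hy, fun u => hx.2
          (xy.elim (fun v => hcl y hy x hx.1 v u) fun v => hK v u)⟩)
          ⟨e, fun u => h0 q (hKN a q q2 u) (dn q1 hb)⟩ i
      · rcases i.cases_head with rfl | ⟨_, u, -⟩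
        exacts [Rch.rfl, absurd u.1 e]
    have i2 : Rch (II A X z) q q' := h.lr.rch (S := II A X w \ K) (fun p ⟨⟨p1, r, r1, r2⟩, p2⟩ => by
      obtain ⟨u, -, u2⟩ := h.tot p fun j => p2 (hX j)
      obtain ⟨v, -, v2⟩ := h.tot r fun j => p2 (hK r1 (hX j))
      exact ⟨u, h.lr.ii u2 v2 p1 r1 r2, u2⟩) q2 q4 i1
    exact l.rch (S := II A X z ∩ (Cls A z)ᶜ) (fun p ⟨⟨p1, r, r1, r2⟩, p2⟩ => by
      obtain ⟨u, u2⟩ := sat.exists_pr hm p2
      obtain ⟨v, v2⟩ := sat.exists_pr hm ((sat r p r1).2 p2)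
      exact ⟨u, l.ii u2 v2 p1 r1 r2, u2⟩) q1 q3 (sat.rch q1.1 i2)

theorem Lv.hi {r q : Lv A z} (h : r ≤ q) : q.1.2 < z q.1.1.bot r.1.1.top :=
  not_le.1 fun k => Sf30.not_lo_top r ((Sf30.lo_iff h r.1.1.top_mem).1 k)

theorem mt_top (hA : IsUpperSet A) {c : Ch P} (h : Mt A c) : c.top ∈ A :=
  let ⟨_, h1, h2⟩ := h; hA (Ch.le_top h1) h2

end gen

section piece

variable {s : St} {X Y : s.P → s.P → ℤ} {ω : s.P → ℤ} [IsCoc s.A X] {E : Set (Lv s.A X)}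

/-- the chains that carry a cell of `X` -/
def MX (s : St) (X : s.P → s.P → ℤ) : Set (Ch s.P) := Lv.ch '' (Set.univ : Set (Lv s.A X))

theorem mem_MX {c : Ch s.P} (h1 : Dom s.A c) (h2 : 1 ≤ X c.bot c.top) : c ∈ MX s X :=
  ⟨⟨(c, 0), h1, le_rfl, h2⟩, trivial, rfl⟩

variable (hP : Pos s X Y ω)
include hP

theorem pos_emb : Emb (Set.univ : Set (Lv s.A X)) := emb_univ hP.sx.mono hP.jx

theorem pos_le {p q : Lv s.A X} (h : p.ch ≤ q.ch) : p ≤ q := pos_emb hP p trivial q trivial h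

theorem pos_lev (p : Lv s.A X) : p.1.2 = 0 ∧ X p.1.1.bot p.1.1.top = 1 := by
  have := hP.jx _ _ p.2.1.bt
  have := p.2.2
  omega

theorem pos_Y {p q : Lv s.A X} (h : p ≤ q) : Y q.1.1.bot p.1.1.bot = nu ω p - nu ω q ∧
    0 ≤ Y q.1.1.bot p.1.1.bot := by
  obtain ⟨h1, h2⟩ := Lv.le_iff.1 h
  have d := q.2.1.dp q.1.1.bot_mem (h1 p.1.1.bot_mem) (Ch.bot_anti h1)
  have := hP.ex _ _ d
  simp only [Pi.add_apply, cb] at this
  exact ⟨by unfold nu; omega, hP.sy.mono _ _ d⟩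

variable (hE : Pc (LA s.A X) (nu ω) E)
include hE

theorem pc_sub : E ⊆ LA s.A X := let ⟨_, h⟩ := hE.cmp; fun _ k => (h.sub k).1

theorem pc_conn : Conn E := let ⟨_, h⟩ := hE.cmp; h.conn

theorem pc_la {p q : Lv s.A X} (hp : p ∈ E) (h : Cm p q) : q ∈ LA s.A X :=
  h.elim (LA.upper (pc_sub hP hE hp)) (hE.cl p hp q)

theorem pc_iff {p q : Lv s.A X} (hp : p ∈ E) (h : Cm p q) : q ∈ E ↔ nu ω q = nu ω p :=
  let ⟨_, k⟩ := hE.cmp
  ⟨fun j => (k.sub j).2.trans (k.sub hp).2.symm,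
    fun j => k.clopen hp ⟨pc_la hP hE hp h, j.trans (k.sub hp).2⟩ h⟩

theorem pc_top {p : Lv s.A X} (hp : p ∈ E) {c : Ch s.P} (hc : c ∈ MX s X) (h : Cm p.ch c) :
    c.top ∈ s.A := by
  obtain ⟨q, -, rfl⟩ := hc
  exact mt_top hP.up (pc_la hP hE hp (h.imp (pos_le hP) (pos_le hP)))

theorem pc_be {p : Lv s.A X} (hp : p ∈ E) {C : Ch (Ch s.P)} (hC : C ∈ Cq (MX s X))
    (h : ∀ c ∈ C.1, Cm p.ch c) : be s.A C = C.bot.bot :=
  be_in fun c hc => pc_top hP hE hp (hC c hc) (h c hc)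

/-- Q-FORM -/
theorem pc_form {p : Lv s.A X} (hp : p ∈ E) {C W : Ch (Ch s.P)} (hW : p.ch ∈ W.1) (h : C ≤ W)
    (h1 : 1 ≤ X (be s.A C) (be s.A W)) : C ∈ Cq (MX s X) := by
  have hm : Dom s.A W.top := (Mt.mono (pc_sub hP hE hp) (Ch.le_top hW)).dom
  have hc := hP.sx.coc
  have key : ∀ c ∈ W.1, C.bot.bot ∈ c.1 → be s.A W ∈ c.1 → c ∈ MX s X := fun c c1 c2 c3 => by
    have d := hm.mono (Ch.le_top c1)
    have l1 := bb_le_be s.A C
    have l2 := be_mono hP.up h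
    have m : be s.A C ∈ W.top.1 := Ch.top_mono h (be_mem _ C)
    have := hP.sx.mono.le_range hc d c2 c3 (l1.trans l2)
    have := hc.add' hm (Ch.le_top c1 c2) m (be_mem _ W) l1 l2
    have := hP.sx.mono _ _ (hm.dp (Ch.le_top c1 c2) m l1)
    exact mem_MX d (by omega)
  intro c hc
  refine key c (h hc) (Ch.bot_le hc C.bot.bot_mem) ?_
  rcases be_cases s.A W with ⟨-, e⟩ | ⟨d, d1, d2, -, e⟩
  · rw [e]; exact Ch.bot_le (h hc) W.bot.bot_mem
  · rcases W.total d1 (h C.bot_mem) with k | k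
    · rw [e]; exact Ch.bot_le hc (k d.top_mem)
    · exact absurd (pc_top hP hE hp (key d d1 (k C.bot.bot_mem) (e ▸ d.top_mem)) (W.cm hW d1)) d2

/-- the jump of the thickened `Y` inside `Q` -/
theorem pc_Y {p : Lv s.A X} (hp : p ∈ E) {C D : Ch (Ch s.P)} (hD : D ∈ Cq (MX s X))
    (h : ∀ c ∈ D.1, Cm p.ch c) (l : C ≤ D) : ∃ q r : Lv s.A X, q.ch = C.bot ∧ r.ch = D.bot ∧
      r ≤ q ∧ Cm p q ∧ Cm p r ∧ pb (be s.A) Y C D = nu ω r - nu ω q ∧ 0 ≤ pb (be s.A) Y C D := by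
  obtain ⟨q, -, e1⟩ := hD _ (l C.bot_mem)
  obtain ⟨r, -, e2⟩ := hD _ D.bot_mem
  have k : r ≤ q := pos_le hP (by rw [e1, e2]; exact Ch.bot_anti l)
  refine ⟨q, r, e1, e2, k, (e1 ▸ h _ (l C.bot_mem)).imp (pos_le hP) (pos_le hP),
    (e2 ▸ h _ D.bot_mem).imp (pos_le hP) (pos_le hP), ?_⟩
  rw [pb, pc_be hP hE hp (lower_cq _ l hD) fun c hc => h c (l hc), pc_be hP hE hp hD h, ← e1, ← e2]
  exact pos_Y hP k

/-- a point of `U₂` over a point of `Q` -/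
theorem pc_over {p : Lv s.A X} (hp : p ∈ E) {C : Ch (Ch s.P)} (hC : C ∈ Cq (MX s X))
    (h : ∀ c ∈ C.1, Cm p.ch c) : ∃ W, C ≤ W ∧ 1 ≤ pb (be s.A) X C W := by
  have l : ∀ c ∈ C.1, Ch.pt C.bot.top ≤ c := fun c hc => Ch.pt_le.2 (Ch.bot_le hc C.bot.top_mem)
  refine ⟨C.ins (Ch.pt C.bot.top) fun c hc => Or.inl (l c hc), C.le_ins _ _, ?_⟩
  have e : (C.ins (Ch.pt C.bot.top) fun c hc => Or.inl (l c hc)).bot = Ch.pt C.bot.top :=
    Ch.bot_eq (mem_insert_self _ _) fun c hc => (mem_insert.1 hc).elim (fun e => e.ge) (l c)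
  rw [pb, pc_be hP hE hp hC h, be_in, e, Ch.bot_pt]
  · obtain ⟨q, -, e⟩ := hC _ C.bot_mem
    rw [← e]; exact (pos_lev hP q).2.ge
  · intro c hc
    rcases mem_insert.1 hc with rfl | hc
    · simpa using pc_top hP hE hp (hC _ C.bot_mem) (h _ C.bot_mem)
    · exact pc_top hP hE hp (hC c hc) (h c hc)

end piece

theorem m3_core {P : Type} [PartialOrder P] [Fintype P] {A Q E : Set P} {X w : P → P → ℤ}
    (hM : Mf 3 A) (hb : Bnd ℤ A) (low : Low A Q E) (eu1 : eu E = 1) (hs : Sf A w) (hc : Coc A X)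
    (hm : Mono A X) (jump : ∀ x, ∀ y ∈ E, x ≤ y → 0 ≤ w x y ∧ (w x y = 0 ↔ x ∈ E))
    (form : ∀ {e C W}, e ∈ E → e ≤ W → C ≤ W → 1 ≤ X C W → C ∈ Q)
    (ov : ∀ e ∈ E, ∃ W, e ≤ W ∧ 1 ≤ X e W) :
    ∃ Y', ∃ h' : Sf A Y', Eqv A w Y' ∧ chi A w ≤ chi A Y' ∧ mu A X Y' h'.coc < mu A X w hs.coc := by
  have hv := mv_of_lower hs.mono (E := E)
    (fun x y k hx hy => by
      have := jump x y hy k.1
      have : w x y ≠ 0 := fun e => hx (this.2.1 e)
      omega)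
    fun x y k hx hy => (jump x y hy k.1).2.2 hx
  obtain ⟨z, rfl⟩ : ∃ z, w = up z E := ⟨_, (up_sub w E).symm⟩
  rw [show up z E - cb (ind E) = z from add_sub_cancel_right _ _] at hv
  have : IsCoc A z := ⟨by simpa [up] using hs.coc.sub (coc_cb (ind E))⟩
  have sg := low.sg hM hv
  obtain ⟨a, b, c, -⟩ := sg.swap hM hb hv.lo hs (eqv_up low.sub).symm
    (by rw [chi_up hM low.sub, low.ee_eq, eu1]; ring)
  refine ⟨_, a, b, c, sg.mu_lt hv.lo (K := NX A z E) (fun _ _ l k => NX.upper k l)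
    (fun _ => X_sub_NX) (fun _ _ l k => NY.upper k l) (fun _ _ k => k.nb.2) ?_ ?_ ?_ _ _⟩
  · rintro q ⟨e, e1, e2, e3⟩ ⟨-, r, r1, r2⟩
    have hi := Lv.hi (Lv.le_def.1 r1)
    have rm := Lv.ch_le (Lv.le_def.1 r1) r.1.1.top_mem
    rcases q.1.1.total e1 rm with k | k
    · rw [e3, hv.z_eq q.2.1 e1 rm e2
        (low.up e e2 _ (form e2 (Ch.le_top e1) (Ch.le_top rm) r2) k)] at hi
      exact lt_irrefl _ hi
    · have := this.coc.add' q.2.1 q.1.1.bot_mem rm e1 (Ch.bot_le rm) k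
      have := hv.lo _ _ (q.2.1.dp rm e1 k)
      omega
  · rintro p - p' ⟨-, r, r1, r2⟩ l ⟨e, e1, e2, e3⟩
    have r1 := Lv.le_def.1 r1
    obtain ⟨l1, l2⟩ := Lv.le_iff.1 l
    have hi := Lv.hi (r1.trans l)
    have rm := Lv.ch_le r1 r.1.1.top_mem
    have t := l1 p'.1.1.top_mem
    have a1 := hc.add' p.2.1 (l1 rm) t p.1.1.top_mem (Ch.le_top rm) (Ch.le_top t)
    have a2 := hm _ _ (p.2.1.dp t p.1.1.top_mem (Ch.le_top t))
    have a3 := hs.coc.add' p.2.1 p.1.1.bot_mem (l1 p'.1.1.bot_mem) (l1 rm) (Ch.bot_anti l1)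
      (Ch.bot_le rm)
    have m : r.1.1.top ∈ E := by
      rcases p.1.1.total e1 (l1 rm) with k | k
      · exact low.up e e2 _ (form e2 (Ch.le_top e1) (Ch.le_top (l1 rm)) (by omega)) k
      · have := hs.coc.add' p.2.1 p.1.1.bot_mem (l1 rm) e1 (Ch.bot_le (l1 rm)) k
        have := jump _ e e2 k
        exact this.2.1 (by omega)
    refine ⟨_, rm, m, ?_⟩
    have := hv.z_eq p.2.1 e1 (l1 rm) e2 m
    have b1 := up_apply (z := z) (E := E) p.1.1.bot e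
    have b2 := up_apply (z := z) (E := E) p.1.1.bot r.1.1.top
    rw [ind_of_mem e2] at b1
    rw [ind_of_mem m] at b2
    omega
  · obtain ⟨x, hx, e, he, l⟩ := low.ne
    obtain ⟨W, l', k⟩ := ov e he
    have m : Mt A (Ch.tr x e W l l') := ⟨e, by simp [Ch.mem_tr], low.sub he⟩
    have le : Ch.pr x e l ≤ Ch.tr x e W l l' :=
      Ch.pr_le l (by simp [Ch.mem_tr]) (by simp [Ch.mem_tr])
    obtain ⟨r, r1, r2⟩ := hv.exists_X (m.dom.mono le) (by simpa) (by simpa)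
    obtain ⟨p, p1, p2⟩ := Lv.exists_ge hv.hi r m.dom (r2 ▸ le)
    exact ⟨p, ⟨show Mt A p.1.1 from p1 ▸ m, r, p2, by rw [r2, p1, Ch.top_tr]; simpa⟩,
      NX.upper (X_sub_NX r1) p2⟩

theorem m3Stmt : M3Stmt := by
  intro s X Y ω _ ω' E hP hE h1 hl hu h
  have sub := pc_sub hP hE
  have low : Low s.sd.sd.A (Cq (MX s X)) (Ce (MX s X) (Lv.ch '' E)) :=
    (pos_emb hP).low hP.good.mf hP.sx.mono subset_rfl
    (fun _ k => mt_top hP.up k) (fun _ _ _ _ => trivial) sub (fun p hp _ => LA.upper (sub hp))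
    (pc_conn hP hE) (by
      by_contra k
      exact hu fun p q l hp => by_contra fun j => k ⟨p, hp, q, j, Or.inl l⟩)
  have mem : ∀ {C : Ch (Ch s.P)} {q : Lv s.A X}, C ∈ Cq (MX s X) → q.ch = C.bot →
      (C ∈ Ce (MX s X) (Lv.ch '' E) ↔ q ∈ E) :=
    fun {C q} hC e => ⟨fun ⟨_, _, c1, p, p1, p2⟩ =>
      hl (pos_le hP (by rw [e, p2]; exact Ch.bot_le c1)) p1,
      fun k => ⟨hC, _, C.bot_mem, q, k, e⟩⟩
  refine m3_core h.good.mf h.good.bnd low ?_ h.sy h.sx.coc h.sx.mono ?_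
    (fun ⟨_, _, c1, p, p1, e⟩ l l' k => pc_form hP hE p1 (l (e ▸ c1)) l' k)
    fun e ⟨c, _, c1, p, p1, j⟩ => pc_over hP hE p1 c fun c => e.cm (j ▸ c1)
  · exact (eu_ce (Set.image_mono (Set.subset_univ _))).trans
      (((pos_emb hP).mono (Set.subset_univ _)).eu.trans
      ((eu_lower hP.good.mf hP.sx.mono sub hl).trans h1))
  · rintro C D ⟨hD, _, c1, p, p1, rfl⟩ l
    obtain ⟨q, r, e1, e2, k, -, -, e3, e4⟩ := pc_Y hP hE p1 hD (fun c => D.cm c1) l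
    have rE := (mem hD e2).1 ⟨hD, _, c1, p, p1, rfl⟩
    refine ⟨e4, Iff.symm (((mem (lower_cq _ l hD) e1).trans (pc_iff hP hE rE (Or.inl k))).trans ?_)⟩
    exact ⟨fun j => e3.trans (by omega), fun j => by have := e3.symm.trans j; omega⟩

theorem m4_core {P : Type} [PartialOrder P] [Fintype P] {A Q F : Set P} {X z : Ch P → Ch P → ℤ}
    (hM : Mf 3 A) (hb : Bnd ℤ (Ch.top ⁻¹' A : Set (Ch P))) (low : Low A Q F) (eu1 : eu F = 1)
    (hR : (Ch.bot ⁻¹' F : Set (Ch P)) ⊆ Ch.top ⁻¹' A) (hs : Sf (Ch.top ⁻¹' A) z)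
    (hc : Coc (Ch.top ⁻¹' A) X) (hm : Mono (Ch.top ⁻¹' A) X)
    (jump : ∀ x y : Ch P, x.bot ∈ F → x ≤ y → 0 ≤ z x y ∧ (z x y = 0 ↔ y.bot ∈ F))
    (form : ∀ {e D W : Ch P}, e.bot ∈ F → e ≤ W → D ≤ W → 1 ≤ X D W → D ∈ Cq Q)
    (ov : ∃ e D W : Ch P, e.bot ∈ F ∧ D.bot ∉ F ∧ e ≤ D ∧ D ≤ W ∧ 1 ≤ X D W) :
    ∃ Y', ∃ h' : Sf (Ch.top ⁻¹' A) Y', Eqv (Ch.top ⁻¹' A) z Y' ∧
      chi (Ch.top ⁻¹' A) z ≤ chi (Ch.top ⁻¹' A) Y' ∧
      mu (Ch.top ⁻¹' A) X Y' h'.coc < mu (Ch.top ⁻¹' A) X z hs.coc := by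
  have hv : Mv (Ch.top ⁻¹' A) z (Ch.bot ⁻¹' F) := mv_of_raise hs.mono
    (fun x y k hx hy => by
      have := jump x y hx k.1
      have : z x y ≠ 0 := fun e => hy (this.2.1 e)
      omega)
    fun x y k hx hy => (jump x y hx k.1).2.2 hy
  have : IsCoc (Ch.top ⁻¹' A) z := ⟨hs.coc⟩
  have sg := low.sg_bot hM hR hv
  have lowR : ∀ {x e : Ch P}, x ∈ Cq Q → e.bot ∈ F → x ≤ e → x.bot ∈ F := fun {x e} hx he l =>
    by_contra fun k => low.off k he l _ x.bot_mem (hx _ x.bot_mem)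
  obtain ⟨a, b, c, -⟩ := sg.swap (Alg36.Mf.sd hM) hb hv.hi hs (eqv_up hR)
    (by rw [chi_up (Alg36.Mf.sd hM) hR, low.ee_bot hM, eu1]; ring)
  refine ⟨_, a, b, c, sg.mu_lt hv.hi (K := NY _ z (Ch.bot ⁻¹' F)) (fun _ _ l k => NY.upper k l)
    (fun _ => Y_sub_NY) (fun _ _ l k => NX.upper k l) (fun _ _ k => k.nb.1) ?_ ?_ ?_ _ _⟩
  · rintro q hq ⟨-, r, r1, r2⟩
    obtain ⟨e, e1, e2, -⟩ := id hq
    have rm := Lv.ch_le (Lv.le_def.1 r1) r.1.1.top_mem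
    exact hv.NX_bot hq (lowR (lower_cq Q (Ch.bot_le rm)
      (form e2 (Ch.le_top e1) (Ch.le_top rm) r2)) e2 (Ch.bot_le e1))
  · rintro p - p' ⟨-, r, r1, r2⟩ l ⟨e, e1, e2, e3⟩
    obtain ⟨l1, l2⟩ := Lv.le_iff.1 l
    have rm := Lv.ch_le (Lv.le_def.1 r1) r.1.1.top_mem
    have t := l1 p'.1.1.top_mem
    have bm := l1 p'.1.1.bot_mem
    have a1 := hc.add' p.2.1 (l1 rm) t p.1.1.top_mem (Ch.le_top rm) (Ch.le_top t)
    have a2 := hm _ _ (p.2.1.dp t p.1.1.top_mem (Ch.le_top t))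
    have hq := lower_cq Q (Ch.bot_le rm) (form e2 (Ch.le_top e1) (Ch.le_top (l1 rm)) (by omega))
    have := p'.2.2.1
    have m : p'.1.1.bot.bot ∈ F := by
      rcases p.1.1.total e1 bm with k | k
      · have := hs.coc.add' p.2.1 p.1.1.bot_mem e1 bm (Ch.bot_le e1) k
        have := jump _ _ e2 k
        exact this.2.1 (by omega)
      · exact lowR hq e2 k
    have := hv.z_eq p.2.1 e1 bm e2 m
    exact Y_sub_NY ⟨m, by omega⟩
  · obtain ⟨e, D, W, he, hD, l, l', k⟩ := ov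
    have m : Mt (Ch.top ⁻¹' A) (Ch.tr e D W l l') := ⟨e, by simp [Ch.mem_tr], hR he⟩
    have le : Ch.pr e D l ≤ Ch.tr e D W l l' :=
      Ch.pr_le l (by simp [Ch.mem_tr]) (by simp [Ch.mem_tr])
    obtain ⟨r, r1, r2⟩ := hv.exists_Y (m.dom.mono le) (by simpa) (by simpa)
    obtain ⟨p, p1, p2⟩ := Lv.exists_ge hv.lo r m.dom (r2 ▸ le)
    exact ⟨p, ⟨show Mt _ p.1.1 from p1 ▸ m, r, p2, by rw [r2, p1, Ch.top_tr]; simpa⟩,
      NY.upper (Y_sub_NY r1) p2⟩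

theorem m4Stmt : M4Stmt := by
  intro s X Y ω _ ω' E hP hE h1 hu hl h
  have sub := pc_sub hP hE
  have emb := pos_emb hP
  have emE := emb.mono (Set.subset_univ E)
  have EQ : Cq (Lv.ch '' E) ⊆ Cq (MX s X) := fun c hc x hx =>
    Set.image_mono (Set.subset_univ _) (hc x hx)
  obtain ⟨p, hp, q, hq, qp⟩ : ∃ p ∈ E, ∃ q, q ∉ E ∧ q ≤ p := by
    by_contra k
    exact hl fun p q l hp => by_contra fun j => k ⟨p, hp, q, j, l⟩
  have inE : ∀ {r : Lv s.A X}, r.ch ∈ Lv.ch '' E ↔ r ∈ E := emb.mem (Set.subset_univ _) trivial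
  have l01 : Ch.pt p.ch ≤ Ch.pr q.ch p.ch (Lv.ch_le qp) := Ch.pt_le.2 (by simp)
  have m0 : Ch.pt p.ch ∈ Cq (Lv.ch '' E) := fun x hx => mem_singleton.1 hx ▸ inE.2 hp
  have m1 : Ch.pr q.ch p.ch (Lv.ch_le qp) ∈ Cq (MX s X) := fun x hx => by
    simp only [Ch.pr_val, mem_insert, mem_singleton] at hx
    rcases hx with rfl | rfl
    exacts [⟨q, trivial, rfl⟩, ⟨p, trivial, rfl⟩]
  have n1 : Ch.pr q.ch p.ch (Lv.ch_le qp) ∉ Cq (Lv.ch '' E) := fun k => hq (inE.1 (k _ (by simp)))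
  have up2 : IsUpperSet (Ch.top ⁻¹' (Ch.top ⁻¹' s.A) : Set (Ch (Ch s.P))) :=
    (hP.up.preimage Ch.top_mono).preimage Ch.top_mono
  have EA : Cq (Lv.ch '' E) ⊆ Ch.top ⁻¹' (Ch.top ⁻¹' s.A) := fun C hC =>
    let ⟨_, r1, r2⟩ := hC _ C.top_mem; show C.top.top ∈ s.A from r2 ▸ mt_top hP.up (sub r1)
  have low : Low (Ch.top ⁻¹' (Ch.top ⁻¹' (Ch.top ⁻¹' s.A))) (Cq (Cq (MX s X)))
      (Ce (Cq (MX s X)) (Cq (Lv.ch '' E))) := by
    refine low_ce (mf_cq (emb.mf hP.good.mf hP.sx.mono subset_rfl fun _ _ _ _ => trivial))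
      ?_ EQ (fun x hx y hy l => ?_) (conn_cq (emE.ws.conn_iff.1 (pc_conn hP hE)))
      ⟨_, m1, n1, _, m0, Or.inr l01⟩
    · rintro C ⟨r, r1, r2⟩
      exact show C.top.top ∈ s.A from r2 ▸ mt_top hP.up r1
    · obtain ⟨a, a1, a2⟩ := hx _ x.top_mem
      obtain ⟨b, -, b2⟩ := hy _ y.top_mem
      exact ⟨b, LA.upper (sub a1) (pos_le hP (by rw [a2, b2]; exact Ch.top_mono l)), b2⟩
  have bb : ∀ {x : Ch (Ch (Ch s.P))}, x ∈ Ce (Cq (MX s X)) (Cq (Lv.ch '' E)) →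
      x.bot ∈ Cq (Lv.ch '' E) := fun ⟨_, _, c1, c2⟩ => lower_cq _ (Ch.bot_le c1) c2
  refine m4_core (Alg36.Mf.sd (Alg36.Mf.sd (Alg36.Mf.sd hP.good.mf))) h.good.bnd low ?_
    (fun d hd => up2.preimage Ch.top_mono d.bot_le_top (low.sub hd)) h.sy h.sx.coc h.sx.mono
    (fun x y hx l => ?_) (fun {e D W} he l l' k => ?_) ?_
  · exact (eu_ce EQ).trans ((eu_cq _).trans (emE.eu.trans
      ((eu_upper hP.good.mf hP.sx.mono sub hu).trans h1)))
  · have l2 : x.bot.bot ≤ y.bot.bot := Ch.bot_anti (Ch.bot_anti l)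
    have yq : y.bot ∈ Cq (Cq (MX s X)) := lower_cq _ (Ch.bot_anti l) hx.1
    have k : ∀ u : Ch (Ch (Ch (Ch s.P))), x.bot.bot ≤ u.bot.bot →
        be (Ch.top ⁻¹' (Ch.top ⁻¹' s.A)) u = u.bot.bot := fun u hu =>
      be_in fun c hc => up2 (hu.trans (Ch.le_top (Ch.bot_le hc u.bot.bot_mem))) (EA (bb hx))
    obtain ⟨a, a1, a2⟩ := bb hx _ x.bot.bot.bot_mem
    obtain ⟨c, r, e1, e2, j, -, -, e3, e4⟩ := pc_Y hP hE a1 (yq _ y.bot.bot_mem)
      (fun c => y.bot.bot.cm (a2 ▸ l2 x.bot.bot.bot_mem)) l2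
    have cE : c ∈ E := inE.1 (by rw [e1, ← a2]; exact inE.2 a1)
    have e : pb (be (Ch.top ⁻¹' (Ch.top ⁻¹' s.A))) (pb (be s.A) Y) x y =
        pb (be s.A) Y x.bot.bot y.bot.bot := by rw [pb, k x le_rfl, k y l2]
    refine ⟨e4.trans_eq e.symm, Iff.trans (b := r ∈ E) ?_ ⟨fun i => ⟨yq, _, y.bot.bot_mem, fun t ht => ?_⟩,
      fun i => inE.1 (e2 ▸ bb i _ y.bot.bot.bot_mem)⟩⟩
    · rw [pc_iff hP hE cE (Or.inr j)]
      exact ⟨fun i => by have := e3.symm.trans (e.symm.trans i); omega,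
        fun i => e.trans (e3.trans (by omega))⟩
    · obtain ⟨b, -, rfl⟩ := yq _ y.bot.bot_mem t ht
      exact inE.2 (hu (pos_le hP (e2 ▸ Ch.bot_le ht)) i)
  · obtain ⟨a, a1, a2⟩ := bb he _ e.bot.bot.bot_mem
    have := pc_form hP hE a1 (W := W.top.top) (C := D.top.top)
      (a2 ▸ Ch.le_top (Ch.le_top (l e.bot_mem) e.bot.bot_mem) e.bot.bot.bot_mem)
      (Ch.top_mono (Ch.top_mono l')) k
    exact fun c hc C hC => lower_cq _ ((Ch.le_top hC).trans (Ch.top_mono (Ch.le_top hc))) this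
  · obtain ⟨W, w1, w2⟩ := pc_over hP hE hp m1 fun c hc => Ch.cm _ (by simp) hc
    have l1 : Ch.pt (Ch.pr q.ch p.ch (Lv.ch_le qp)) ≤ Ch.pr _ _ l01 := Ch.pt_le.2 (by simp)
    have l2 : Ch.pr _ _ l01 ≤ Ch.tr _ _ W l01 w1 :=
      Ch.pr_le _ (by simp [Ch.mem_tr]) (by simp [Ch.mem_tr])
    refine ⟨Ch.pt (Ch.pr _ _ l01), Ch.pr _ _ l1, Ch.tr _ _ _ l1 l2, ?_, ?_, Ch.pt_le.2 (by simp),
      Ch.pr_le _ (by simp [Ch.mem_tr]) (by simp [Ch.mem_tr]), ?_⟩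
    · rw [Ch.bot_pt]
      refine ⟨fun t ht => ?_, _, mem_insert_self _ _, m0⟩
      simp only [Ch.pr_val, mem_insert, mem_singleton] at ht
      rcases ht with rfl | rfl
      exacts [EQ m0, m1]
    · rw [Ch.bot_pr]
      exact fun k => n1 (mt_pt.1 k.2)
    · show 1 ≤ pb (be s.A) X (Ch.pr _ _ l1).top.top (Ch.tr _ _ _ l1 l2).top.top
      rwa [Ch.top_pr, Ch.top_pr, Ch.top_tr, Ch.top_tr]

end Crest.Agent.X212.Hp13
end
end

-- ▼ part X212/Sup43/Core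
section

/-!
# X212 / Sup43 (helper43): CORE from its leaves, by induction on the number of crossing curves
-/

set_option autoImplicit false
set_option linter.unusedSectionVars false

open Finset Classical

noncomputable section

namespace Crest.Agent.X212.Sup43

open Crest.Agent.X212.Hp13

section piece

variable {P : Type} [PartialOrder P] [Fintype P] {A : Set P} {X Y z : P → P → ℤ} {ω : P → ℤ}

theorem nu_anti [IsCoc A X] (hY : Mono A Y) (he : EqD A (X + Y) (cb ω)) :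
    Antitone (nu ω : Lv A X → ℤ) := fun p q h => by
  obtain ⟨h1, h2⟩ := Lv.le_iff.1 h
  have d := q.2.1.dp q.1.1.bot_mem (h1 p.1.1.bot_mem) (Ch.bot_anti h1)
  have e := he _ _ d
  have m := hY _ _ d
  simp only [Pi.add_apply, cb] at e
  unfold nu
  omega

theorem th_mono [IsCoc A Y] (hX : Mono A X) (cX : Coc A X) (he : EqD A (X + Y) (cb ω)) :
    Monotone (th X ω : Lv A Y → ℤ) := fun p q h => by
  obtain ⟨h1, h2⟩ := Lv.le_iff.1 h
  have e := he _ _ (q.2.1.dp q.1.1.bot_mem (h1 p.1.1.bot_mem) (Ch.bot_anti h1))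
  have m := hX _ _ (q.2.1.dp (h1 p.1.1.top_mem) q.1.1.top_mem (Ch.top_mono h1))
  have e1 := cX.add' q.2.1 q.1.1.bot_mem (h1 p.1.1.bot_mem) q.1.1.top_mem (Ch.bot_anti h1)
    (Ch.le_top (h1 p.1.1.bot_mem))
  have e2 := cX.add' q.2.1 (h1 p.1.1.bot_mem) (h1 p.1.1.top_mem) q.1.1.top_mem p.1.1.bot_le_top
    (Ch.top_mono h1)
  simp only [Pi.add_apply, cb] at e
  unfold th
  omega

/-- a positive piece is a disc on one side of its boundary -/
theorem piece_cases [IsCoc A z] (hM : Mf 3 A) (hz : Sf A z) {f : Lv A z → ℤ}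
    (hf : Monotone f ∨ Antitone f) {E : Set (Lv A z)} {n : ℤ}
    (hE : IsCmp {p | p ∈ LA A z ∧ f p = n} E) (hp : 0 < chiC E) :
    chiC E = 1 ∧ (IsLowerSet E ∧ ¬ IsUpperSet E ∨ IsUpperSet E ∧ ¬ IsLowerSet E) := by
  have sub : E ⊆ LA A z := fun p k => (hE.sub k).1
  have conv : E.OrdConnected := ⟨fun a ha b hb x hx => hE.clopen ha ⟨LA.upper (sub ha) hx.1, by
    have e1 := (hE.sub ha).2
    have e2 := (hE.sub hb).2
    rcases hf with hf | hf <;> have := hf hx.1 <;> have := hf hx.2 <;> omega⟩ (Or.inl hx.1)⟩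
  have both : IsLowerSet E → ¬ IsUpperSet E := fun hl hu => by
    obtain ⟨x, hx⟩ := hE.ne
    obtain ⟨p, p1, q, q1, k⟩ := hz.noCl _ (isCmp_cmp (sub hx))
    exact q1 (sub (hl k ((Rch.in_clopen (fun a ha b _ j => j.elim (fun j => hu j ha)
      fun j => hl j ha) hx p1.2).mem hx)))
  have M := Sf30.mf_LA hM hz.mono
  have esc : ¬ (IsLowerSet E ∧ IsUpperSet E) → eu E ≤ 1 := fun k => by
    have : ∃ p ∈ E, ∃ q, q ∉ E ∧ Cm p q := by
      by_contra j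
      push Not at j
      exact k ⟨fun a b l ha => by_contra fun t => j a ha b t (Or.inr l),
        fun a b l ha => by_contra fun t => j a ha b t (Or.inl l)⟩
    obtain ⟨p, p1, q, q1, l⟩ := this
    exact Alg36.Mf.eu_le_one M sub hE.conn fun a ha =>
      ⟨p, sub p1, (hE.conn a ha p p1).mono sub, q, q1, l⟩
  have le := esc fun k => both k.1 k.2
  rcases Alg36.extStmt _ _ E M sub conv hE.conn (Sf30.chiC_eq_ee hM hz.mono sub ▸ hp) with h | h
  · refine ⟨?_, Or.inl ⟨h, both h⟩⟩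
    rw [← ee_lower h, ← Sf30.chiC_eq_ee hM hz.mono sub] at le
    omega
  · refine ⟨?_, Or.inr ⟨h, fun k => both k h⟩⟩
    rw [← Sf30.chiC_eq_eu hM hz.mono sub h] at le
    omega

end piece

/-- a positive piece of `X` -/
theorem x_piece {s : St} {X Y : s.P → s.P → ℤ} {ω : s.P → ℤ}
    [IsCoc s.A X] [IsCoc s.A Y] [IsCoc s.A (X + Y)] (h : Pos s X Y ω)
    (hp : 0 < chiC (Cls s.A (X + Y))) : ∃ E, Pc (LA s.A X) (nu ω) E ∧ 0 < chiC E := by
  rcases dec' h hp with k | ⟨E, ⟨n, h1⟩, h2, h3⟩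
  · exact k
  obtain ⟨e, ⟨a, b⟩ | ⟨a, b⟩⟩ := piece_cases h.good.mf h.sy
    (Or.inl (th_mono h.sx.mono h.sx.coc h.ex)) h1 h2
  · exact Alg36.incLStmt s X Y ω E h ⟨⟨n, h1⟩, fun p hp q k => (h1.sub (a k hp)).1⟩ e a b
  · exact Alg36.incU s X Y ω E h ⟨n, h1⟩ h3 e a b

theorem up2 {s : St} (h : IsUpperSet s.A) : IsUpperSet s.sd.sd.A :=
  (desc2 s).A_eq ▸ h.preimage (desc2 s).mono

theorem Pos.B {s : St} {X Y : s.P → s.P → ℤ} {ω : s.P → ℤ} (h : Pos s X Y ω) :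
    ∃ ω', Pos s.sd.sd (pb (be s.A) X) (pb (be s.A) Y) ω' :=
  let ⟨a, b, c⟩ := be_ref Cut21.refStmt h.good h.up h.sx
  let ⟨d, e, _⟩ := be_ref Cut21.refStmt h.good h.up h.sy
  h.next (desc2 s) a b c (fun _ _ k => h.jx _ _ (dp_be h.up k)) d e

theorem Pos.C {s : St} {X Y : s.P → s.P → ℤ} {ω : s.P → ℤ} (h : Pos s X Y ω) :
    ∃ ω', Pos s.sd.sd (pb tt X) (pb (be s.A) Y) ω' :=
  let ⟨d, e, _⟩ := be_ref Cut21.refStmt h.good h.up h.sy
  h.next (desc2 s) ((desc2 s).sf h.sx) Eqv.rfl ((desc2 s).chi X)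
    (fun _ _ k => h.jx _ _ (Dp.map (desc2 s).mono k)) d e

/-- one step: the measure drops -/
theorem step {s : St} {X Y : s.P → s.P → ℤ} {ω : s.P → ℤ} [IsCoc s.A X] (h : Pos s X Y ω)
    {E : Set (Lv s.A X)} (hE : Pc (LA s.A X) (nu ω) E) (hp : 0 < chiC E) :
    ∃ t f X' Y' ω', ∃ h' : Pos t X' Y' ω', Desc s t f ∧ Eqv t.A (pb f (X + Y)) (X' + Y') ∧
      chi s.A X + chi s.A Y ≤ chi t.A X' + chi t.A Y' ∧
      mu t.A X' Y' h'.sy.coc < mu s.A X Y h.sy.coc := by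
  obtain ⟨n, hn⟩ := hE.cmp
  obtain ⟨ω1, p1⟩ := h.B
  obtain ⟨-, x1, x2⟩ := be_ref Cut21.refStmt h.good h.up h.sx
  obtain ⟨-, y1, y2⟩ := be_ref Cut21.refStmt h.good h.up h.sy
  have m1 := bStmt s X Y ω h p1.sy.coc
  obtain ⟨e, ⟨a, b⟩ | ⟨a, b⟩⟩ := piece_cases h.good.mf h.sx
    (Or.inr (nu_anti h.sy.mono h.ex)) hn hp
  · obtain ⟨Y', k1, k2, k3, k4⟩ := m3Stmt s X Y ω ω1 E h hE e a b p1
    obtain ⟨ω', p⟩ := p1.next Desc.refl p1.sx Eqv.rfl rfl p1.jx k1 k2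
    exact ⟨_, _, _, _, _, p, desc2 s, x1.add (y1.trans k2), by omega, k4.trans_le m1⟩
  · obtain ⟨ω2, p2⟩ := p1.C
    have m2 := cStmt _ _ _ _ p1 p2.sy.coc
    obtain ⟨-, z1, z2⟩ := be_ref Cut21.refStmt p1.good p1.up p1.sy
    obtain ⟨Y', k1, k2, k3, k4⟩ := m4Stmt s X Y ω ω2 E h hE e a b p2
    obtain ⟨ω', p⟩ := p2.next Desc.refl p2.sx Eqv.rfl rfl p2.jx k1 k2
    have c := (desc2 s.sd.sd).chi (pb (be s.A) X)
    refine ⟨_, _, _, _, _, p, (desc2 s).trans (desc2 s.sd.sd), ?_, by omega,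
      k4.trans_le (m2.trans m1)⟩
    exact ((desc2 s.sd.sd).eqv (x1.add y1)).trans (Eqv.rfl.add (z1.trans k2))

theorem coreStmt : CoreStmt := by
  intro s X Y ω h
  induction e : mu s.A X Y h.sy.coc using Nat.strong_induction_on generalizing s with
  | _ n ih =>
  have : IsCoc s.A X := ⟨h.sx.coc⟩
  have : IsCoc s.A Y := ⟨h.sy.coc⟩
  have : IsCoc s.A (X + Y) := ⟨h.sx.coc.add h.sy.coc⟩
  by_cases hp : 0 < chiC (Cls s.A (X + Y))
  · obtain ⟨E, h1, h2⟩ := x_piece h hp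
    obtain ⟨t, f, X', Y', ω', h', d, k1, k2, k3⟩ := step h h1 h2
    obtain ⟨u, g, w, d', j1, j2, j3⟩ := ih _ (e ▸ k3) t X' Y' ω' h' rfl
    exact ⟨u, f ∘ g, w, d.trans d', j1, (d'.eqv k1).trans j2, k2.trans j3⟩
  · obtain ⟨d1, d2, d3, -⟩ := drop h.good.bnd (h.sx.mono.add h.sy.mono)
    exact ⟨s, id, _, Desc.refl, d1, d2, by rw [d3, chi_add]; omega⟩

end Crest.Agent.X212.Sup43
end
end

-- ▼ part X212/Sup43/Bound
section

/-!
# X212 / Sup43 (helper43): BOUND from CORE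
-/

set_option autoImplicit false
set_option linter.unusedSectionVars false

open Finset Classical

noncomputable section

namespace Crest.Agent.X212.Sup43

open Crest.Agent.X212.Hp13 Crest.Agent.X212.Cut21

/-- a maximal surface with jumps at most one in the class of the reversed surface -/
theorem exists_X (hH : HalfStmt) {s : St} {z : s.P → s.P → ℤ} (hs : Good s) (hA : IsUpperSet s.A)
    (hz : Coc s.A z) (hm : Mono s.A z) (hj : ∀ x y, Dp s.A x y → z x y ≤ 1) :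
    ∃ t f X, Desc s.sd t f ∧ Sf t.A X ∧ Eqv t.A (pb f (rev z)) X ∧ Max t X ∧
      ∀ x y, Dp t.A x y → X x y ≤ 1 := by
  have G := Alg36.Good.sd hs
  obtain ⟨t1, f1, w, d1, s1, e1, m1⟩ := maxStmt s.sd (rev z) G hz.rev hm.rev
  have G1 := Alg36.Good.desc G d1
  obtain ⟨t2, f2, X, d2, s2, e2, c2, j2⟩ := hH t1 w G1 s1 fun x y hy l => by
    obtain ⟨y1, a, ha, y2⟩ := id hy
    have p := dp_hi ha l y2
    rw [← e1.off p (om_dn G1.conv hy l).1 y1]
    rw [d1.A_eq] at p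
    have q := p.map d1.mono
    exact hj _ _ (q.dom_top.dp (Ch.bot_mem _) (q.le (Ch.bot_mem _)) (Ch.bot_anti q.le))
  refine ⟨t2, f1 ∘ f2, X, d1.trans d2, s2, (d2.eqv e1).trans e2,
    (m1.desc d2).of_eqv e2 (by rw [c2, d2.chi]), fun x y p => ?_⟩
  have d := ((Desc.sd s).trans d1).trans d2
  obtain ⟨a, ha, l⟩ := dp_up (d.A_eq ▸ hA.preimage d.mono) p
  exact j2 x y ((_root_.em _).imp_right fun k => ⟨k, a, ha, l⟩) p.le

/-- in normal form the surface is canonical on the frontier -/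
theorem nf_eqv {s t : St} {f : t.P → s.P} {z : s.P → s.P → ℤ} {δ : s.P → ℤ} {k : ℤ}
    {T : t.P → t.P → ℤ} (d : Desc s t f) (h0 : ∀ x, x ∉ s.A → δ x = 0)
    (hδ : ∀ a ∈ Fr s.A, (∃ o, o ∉ s.A ∧ a ≤ o ∧ δ a = z a o) ∧ ∀ o, o ∉ s.A → a ≤ o → δ a ≤ z a o)
    (hm : Mono t.A T) (e : Eqv t.A (pb f (z + k • Rm s.A)) T) (hv : VertP t.A T) :
    ∃ g : t.P → ℤ, (∀ x, x ∉ Inn t.A → g x = 0) ∧
      EqD t.A T (pb f (z + cb δ + k • Rm s.A) + cb g) := by
  obtain ⟨g, g1, g2⟩ := e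
  have mem : ∀ x, x ∈ t.A ↔ f x ∈ s.A := fun x => by rw [d.A_eq]; rfl
  refine ⟨g - δ ∘ f, fun x hx => ?_, fun x y p => ?_⟩
  · by_cases j : x ∈ t.A
    · have hx : x ∈ Fr t.A := by_contra fun i => hx ⟨j, i⟩
      have val : ∀ o, o ∉ t.A → x ≤ o → T x o = z (f x) (f o) - g x := fun o o1 o2 => by
        rw [g2 x o (Dp.of_left j o2)]
        simp [pb, cb, Rm, g1 o o1, ind_of_mem (E := {x | ∃ a ∈ s.A, a ≤ x}) ⟨_, (mem x).1 j, le_rfl⟩,
          ind_of_mem (E := {x | ∃ a ∈ s.A, a ≤ x}) ⟨_, (mem x).1 j, d.mono o2⟩]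
        ring
      obtain ⟨⟨o, o1, o2, o3⟩, h2⟩ := hδ (f x) (by rw [Alg36.fr_desc d] at hx; exact hx)
      obtain ⟨p, p1, rfl⟩ := desc_up d o2
      obtain ⟨q, q1, q2, q3⟩ := hv x hx
      have := hm _ _ (Dp.of_left j p1)
      have := val p (mt (mem p).1 o1) p1
      have := val q q1 q2
      have := h2 _ (mt (mem q).2 q1) (d.mono q2)
      simp only [Pi.sub_apply, Function.comp]
      omega
    · simp [g1 x j, h0 _ (mt (mem x).2 j)]
  · rw [g2 x y p]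
    simp only [pb, cb, Pi.add_apply, Pi.sub_apply, Function.comp]
    ring

/-- the levels of the exact surface -/
theorem exact_bound {s : St} (hs : Stt s) {ρ : Ch s.P → ℤ} (m : ℕ)
    (h0 : ∀ c, Dom (Inn s.A) c → 0 ≤ ρ c) (h1 : ∀ c, ρ c ≤ m) : ∃ D : ℤ, ∀ k : ℕ,
      Mono (Ch.top ⁻¹' Inn s.A) (cb ρ + (k : ℤ) • pb Ch.top (Rm s.A)) →
      ∀ t f u, Desc (s.at (Inn s.A)).sd t f → Sf t.A u →
        Eqv t.A (pb f (cb ρ + (k : ℤ) • pb Ch.top (Rm s.A))) u →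
          chi t.A u ≤ k * chi (Inn s.A) (Rm s.A) + D := by
  let r := (s.at (Inn s.A)).sd
  have G : Good r := Alg36.Good.sd (good_inn hs.toGood hs.thick)
  set R := chi (Inn s.A) (Rm s.A) with hR
  let C : ℤ := ∑ U : Set r.P, (Fintype.card (Lv r.A (cb (ind U))) : ℤ)
  refine ⟨2 * m * (C + |R|), fun k hm t f u d hu e => ?_⟩
  let ω : Ch s.P → ℤ := fun c => ρ c + k * ind {x | ∃ a ∈ s.A, a ≤ x} c.top
  have hω : cb ρ + (k : ℤ) • pb Ch.top (Rm s.A) = cb ω := by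
    funext x y
    simp only [ω, cb, pb, Rm, Pi.add_apply, Pi.smul_apply, smul_eq_mul]
    ring
  rw [hω] at hm e
  have cls : ∀ (n : ℤ) (g : r.P → ℤ), (∀ c, Dom (Inn s.A) c → ind {x | n < ω x} c = g c) →
      EqD r.A (cb g) (cb (ind {x | n < ω x})) := fun n g h x y p =>
    congrArg₂ (· - ·) (h y p.dom_top).symm (h x (p.dom_top.mono p.le)).symm
  have val : ∀ c, ω c = ρ c ∧ ind {x | ∃ a ∈ s.A, a ≤ x} c.top = 0 ∨
      ω c = ρ c + k ∧ ind {x | ∃ a ∈ s.A, a ≤ x} c.top = 1 := fun c => by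
    simp only [ω, ind]
    split_ifs <;> simp
  obtain ⟨N, hN, le⟩ := chi_levels (s := r) (φ := fun n => (if n ∈ Ico (0 : ℤ) k then R else 0) +
    (if n ∈ Ico (0 : ℤ) m then C + |R| else 0) + if n ∈ Ico (k : ℤ) (k + m) then C + |R| else 0)
    (fun n w hw ew => by
      have hC : chi t.A w ≤ C := (chi_bdd G.mf (coc_cb _) (mono_level hm n) d hw ew).trans
        (single_le_sum (f := fun U : Set r.P => (Fintype.card (Lv r.A (cb (ind U))) : ℤ))
          (fun _ _ => Int.natCast_nonneg _) (mem_univ _))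
      have C0 : 0 ≤ C := sum_nonneg fun _ _ => Int.natCast_nonneg _
      have := neg_abs_le R
      have := abs_nonneg R
      have zero : ∀ i : ℤ, (∀ c, Dom (Inn s.A) c → ind {x | n < ω x} c = i) → chi t.A w ≤ 0 :=
        fun i h => by
          have : IsEmpty (Lv r.A 0) := ⟨fun p => absurd p.2.2.1 (not_le.2 p.2.2.2)⟩
          have := chi_bdd G.mf coc_zero mono_zero d hw ((Eqv.of_eqD (d.eqD
            ((show EqD r.A 0 (cb fun _ => i) from fun _ _ _ => by simp [cb]).trans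
              (cls n _ h)))).trans ew)
          simpa using this
      simp only [mem_Ico]
      by_cases a : n < 0
      · have := zero 1 fun c hc => by
          have := h0 c hc
          rw [ind_lt, if_pos (by rcases val c with h | h <;> omega)]
        split_ifs <;> omega
      by_cases b : (k : ℤ) + m ≤ n
      · have := zero 0 fun c _ => by
          have := h1 c
          rw [ind_lt, if_neg (by rcases val c with h | h <;> omega)]
        split_ifs <;> omega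
      by_cases c : (m : ℤ) ≤ n ∧ n < k
      · have : chi t.A w ≤ R := max_inn hs.toTaut t (Ch.top ∘ f) ((Desc.sd _).trans d) w hw
          ((Eqv.of_eqD (d.eqD (cls n (ind {x | ∃ a ∈ s.A, a ≤ x} ∘ Ch.top) fun x hx => by
            have := h0 x hx
            have := h1 x
            rcases val x with h | h
            · exact (ind_lt ω n x).trans ((if_neg (by omega)).trans h.2.symm)
            · exact (ind_lt ω n x).trans ((if_pos (by omega)).trans h.2.symm)))).trans ew)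
        split_ifs <;> omega
      · split_ifs <;> omega) hu e (k + m)
  have sm : ∀ (a b c : ℤ), 0 ≤ a → a ≤ b → b ≤ N →
      ∑ n ∈ Ico (-N) N, (if n ∈ Ico a b then c else 0) = (b - a) * c := fun a b c i j l => by
    rw [sum_ite_mem, inter_eq_right.2 (Ico_subset_Ico (by omega) l), sum_const, Int.card_Ico,
      nsmul_eq_mul, Int.toNat_of_nonneg (by omega)]
  rw [sum_add_distrib, sum_add_distrib, sm _ _ _ le_rfl (by omega) (by omega),
    sm _ _ _ le_rfl (by omega) (by omega), sm _ _ _ (by omega) (by omega) hN] at le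
  linarith

theorem boundStmt_of (hH : HalfStmt) : BoundStmt := by
  intro s z hs hz hm hj
  let s0 := s.at (Inn s.A)
  have G0 : Good s0 := good_inn hs.toGood hs.thick
  obtain ⟨δ, δ0, δ1, δ2, δ3⟩ := exists_del hs.conv hz hm
  obtain ⟨t2, f2, X, d2, sX, eX, mX, jX⟩ := exists_X hH G0 inn_up (hz.mono inn_sub)
    (hm.mono inn_sub) fun x y p => by
      obtain ⟨a, ha, l⟩ := dp_up inn_up p
      exact hj x y ((_root_.em _).imp_right fun k => ⟨k, a, ha.1, l⟩) p.le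
  obtain ⟨m, hm'⟩ := Finite.exists_le fun c : Ch s.P => (rg z c + δ c.top).toNat
  obtain ⟨D, hD⟩ := exact_bound hs (ρ := fun c => rg z c + δ c.top) m
    (fun c hc => add_nonneg (hm _ _ (hc.bt.mono inn_sub)) (δ1 _)) fun c => Int.toNat_le.1 (hm' c)
  refine ⟨chi s.A (z + cb δ) - chi (Inn s.A) (z + cb δ) + D - chi t2.A X,
    fun k t f T d hT e => ?_⟩
  obtain ⟨t', f', T', d', sT, eT, cT, vT⟩ := nfStmt t T (Alg36.Good.desc hs.toGood d)
    (Alg36.thick_desc hs.thick d) hT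
  have dF := d.trans d'
  obtain ⟨g, g1, g2⟩ := nf_eqv dF δ0 δ2 sT.mono ((d'.eqv e).trans eT) vT
  set W := z + cb δ + (k : ℤ) • Rm s.A with hW
  have d0 : Desc s0 (t'.at (Inn t'.A)) (f ∘ f') := inn_desc dF ▸ dF.at (Inn s.A)
  have c0 : chi (Inn t'.A) (pb (f ∘ f') W) = chi (Inn s.A) W := d0.chi W
  have c1 : chi t'.A T' = chi s.A W - chi (Inn s.A) W + chi (Inn t'.A) T' := by
    rw [chi_congr g2, chi_congr (g2.mono inn_sub), chi_add (z := pb _ W), chi_add (z := pb _ W),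
      dF.chi, c0, chi_cb_sub (Alg36.Mf.desc hs.mf dF) inn_sub g1]
    ring
  obtain ⟨u, gX, gT, dX, dT, com⟩ := ((Desc.sd s0).trans d2).common d0
  have ex : EqD (Ch.top ⁻¹' Inn s.A) (cb (fun c => rg z c + δ c.top) + (k : ℤ) • pb Ch.top (Rm s.A))
      (rev z + pb Ch.top W) := fun x y p => by
    rw [Pi.add_apply (rev z), Pi.add_apply (rev z x), rev_eq (hz.mono inn_sub) p.dom_top p.le]
    simp only [hW, pb, cb, Pi.add_apply, Pi.neg_apply, Pi.smul_apply]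
    ring
  have eU : Eqv u.A (pb (f2 ∘ gX) (cb (fun c => rg z c + δ c.top) + (k : ℤ) • pb Ch.top (Rm s.A)))
      (pb gX X + pb gT T') := by
    refine (Eqv.of_eqD ((d2.trans dX).eqD ex)).trans ((dX.eqv eX).add ?_)
    have : pb (f2 ∘ gX) (pb Ch.top W) = pb gT (pb (f ∘ f') W) := congrArg (pb · W) com
    exact (Eqv.of_eqD fun x y _ => congrFun (congrFun this x) y).trans
      (dT.eqv ⟨g, g1, g2.mono inn_sub⟩)
  have dU := d0.trans dT
  obtain ⟨ω, hω⟩ : ∃ ω, EqD u.A (pb gX X + pb gT T') (cb ω) := by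
    obtain ⟨j, -, j2⟩ := eU
    refine ⟨(fun c => rg z c + δ c.top + k * ind {x | ∃ a ∈ s.A, a ≤ x} c.top) ∘ (f2 ∘ gX) + j,
      j2.trans fun x y _ => ?_⟩
    simp only [pb, cb, Rm, Pi.add_apply, Pi.smul_apply, smul_eq_mul, Function.comp]
    ring
  obtain ⟨v, h, U, dv, sU, e1, c2⟩ := coreStmt u _ _ ω ⟨Alg36.Good.desc G0 dU,
    dU.A_eq ▸ inn_up.preimage dU.mono, dX.sf sX, mX.desc dX,
    fun x y p => jX _ _ (Dp.map dX.mono (dX.A_eq ▸ p)), dT.sf (sf_inn sT), hω⟩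
  have := hD k (((hm.mono inn_sub).rev.add ((δ3.add ((mono_Rm.mono inn_sub).smul
    (Int.natCast_nonneg k))).pb Ch.top_mono)).congr ex) v _ U ((d2.trans dX).trans dv) sU
    ((dv.eqv eU).trans e1)
  have c3 : chi u.A (pb gT T') = chi (Inn t'.A) T' := dT.chi T'
  rw [dX.chi, c3] at c2
  rw [hW, chi_add, chi_add (z := z + cb δ), chi_smul, chi_smul] at c1
  linarith

/-- **BOUND** -/
theorem boundStmt : BoundStmt := boundStmt_of (halfStmt_of Hlf24.half2Stmt)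

end Crest.Agent.X212.Sup43
end
end

-- ▼ part X212/Mcg32/Prep2
section

/-!
# X212 / H (helper32): PREP with `NT0`
-/

set_option autoImplicit false

namespace Crest.Agent.X212.Mcg32

open Crest.Agent.X212.Hp13 Crest.Agent.X212.Cut21

theorem prepB : PrepB fun s z => NT0 s.A z := fun s z hs hz =>
  prepN s z hs.toGood (em_of_nc hs.conv hs.sfm.nc z) hs.sfp.nc hz

end Crest.Agent.X212.Mcg32
end

-- ▼ part X212/Cut21/Cut0
section

/-!
# X212 / Cut21 (helper21): CUT without maximality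
-/

set_option autoImplicit false
set_option linter.unusedSectionVars false

open Finset Classical

noncomputable section

namespace Crest.Agent.X212.Cut21

open Crest.Agent.X212.Hp13 Crest.Agent.X212.Alg36

/-- what holds for the cut manifold without maximality -/
structure Wc (s c : St) : Prop extends Good c where
  thick : Thick c.A
  esc : Esc c.A c.A
  sfm : Sf c.A (Rm c.A)
  sfp : Sf c.A (Rp c.A)
  ee : ee c.A = ee s.A

theorem cut_thk0 {s : St} {w : s.P → s.P → ℤ} (hs : Good s) (ht : Thick s.A) (he : Esc s.A s.A)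
    (hw : Sf s.A w) (b : Bdy s.A w) (j : JK s.A w) (p : CondP s.A w) :
    NF s.sd.sd.P s.sd.sd.A (thk s.A w) ∧ ∃ (c : St) (pr : c.P → s.sd.sd.P) (lev : c.P → ℤ),
      IsCut s.sd.sd.A (thk s.A w) c.A pr lev ∧ Wc s c := by
  have r := inR_dT hw.mono
  have d := desc2 s
  have g := Good.desc hs d
  have sf : Sf s.sd.sd.A (thk s.A w) := r.sf hs.conv hw
  have e : Eqv s.sd.sd.A (pb (Ch.top ∘ Ch.top) w) (thk s.A w) := r.eqv hw.coc hw.mono
  have nf : NF s.sd.sd.P s.sd.sd.A (thk s.A w) :=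
    ⟨sf, Hlf24.thkStmt s w hs hw.coc hw.mono j, r.condP hs.conv hw.coc hw.mono p,
      condMStmt _ _ g sf.coc sf.mono
        (fun _ ha _ ho l => lowM_dT.max r hs.conv hw.coc hw.mono ha ho l)
        (Hlf24.bdyStmt.bdy hs hw.coc d e b).cm⟩
  obtain ⟨c, pr, lev, hc⟩ := exists_cut (s := s.sd.sd) g.conv sf.coc sf.mono
  obtain ⟨c1, c2, c3, c4, c5, c6⟩ := cut1Stmt _ c _ pr lev g sf.coc sf.mono sf.nc hc
  obtain ⟨c7, c8⟩ := cut2Stmt s c w pr lev hs ht hw.coc hw.mono j b.br hc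
  exact ⟨nf, c, pr, lev, hc, ⟨c1, c2, c7, c3, c4⟩, c8, c6 (Esc.desc' he d),
    sf_iff.2 ⟨mono_Rm, coc_Rm, nc_rm hc.cov g.conv sf.coc sf.mono sf.nc nf.cm⟩,
    sf_iff.2 ⟨mono_Rp c1, coc_Rp, nc_rp hc.cov g.conv sf.coc sf.mono sf.nc nf.cp⟩,
    by rw [c5, d.ee_A]⟩

/-- CUT without maximality, full output -/
theorem cut0 {s : St} {z : s.P → s.P → ℤ} (hs : Good s) (ht : Thick s.A) (he : Esc s.A s.A)
    (hz : Sf s.A z) (b : Bdy s.A z) :
    ∃ (t : St) (f : t.P → s.P) (z' : t.P → t.P → ℤ) (c : St) (pr : c.P → t.P) (lev : c.P → ℤ),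
      Desc s t f ∧ Eqv t.A (pb f z) z' ∧ chi t.A z' = chi s.A z ∧ NF t.P t.A z' ∧
      IsCut t.A z' c.A pr lev ∧ Wc s c := by
  have hb := Hlf24.bdyStmt
  obtain ⟨t1, f1, w1, d1, s1, e1, c1, v1⟩ := nfStmt s z hs ht hz
  have g1 := Good.desc hs d1
  have b1 := hb.bdy hs hz.coc d1 e1 b
  obtain ⟨t2, f2, w2, d2, m2, e2, c2, j2, n2, p2⟩ := Hlf24.half2Stmt t1 w1 g1 s1.coc s1.mono b1.jo
  have d := d1.trans d2
  have s2 : Sf t2.A w2 := sf_iff.2 ⟨m2, e2.coc (d2.coc s1.coc), n2 s1.nc⟩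
  have e : Eqv t2.A (pb (f1 ∘ f2) z) w2 := (d2.eqv e1).trans e2
  obtain ⟨nf, c, pr, lev, hc, st⟩ := cut_thk0 (Good.desc hs d) (thick_desc ht d)
    (Esc.desc' he d) s2 (hb.bdy hs hz.coc d e b) j2
    (p2 (condPStmt _ _ g1 (thick_desc ht d1) s1.coc s1.mono v1 b1.cp))
  have r := inR_dT m2
  exact ⟨_, _, _, c, pr, lev, d.trans (desc2 t2), ((desc2 t2).eqv e).trans (r.eqv s2.coc m2),
    (r.chi (Mf.desc hs.mf (d.trans (desc2 t2))) s2.coc m2).trans (c2.trans c1), nf, hc,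
    { st with ee := st.ee.trans d.ee_A }⟩

theorem cut0Stmt : Ind26.Cut0Stmt := fun _ _ hs ht he hz b =>
  let ⟨t, f, z', c, pr, lev, h1, h2, h3, h4, h5, h6⟩ := cut0 hs ht he hz b
  ⟨t, f, z', c, pr, lev, h1, h2, h3, h4, h5, h6.toGood, h6.thick⟩

theorem ind_stepStmt : Ind26.StepStmt Ind26.par := ind_step (stepStmt Sup43.boundStmt) Ind26.HB

theorem ind_stepStmt' (HB : St → ℕ → Prop) : Ind26.StepStmt (par' HB) :=
  ind_step' Mcg32.prepB Sup43.boundStmt HB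

theorem ind_jStmt' (HB : St → ℕ → Prop) : Ind26.JStmt (par' HB) := jStmtB _ HB

theorem ind_jStmt : Ind26.JStmt Ind26.par := jStmt Ind26.HB

end Crest.Agent.X212.Cut21
end
end

-- ▼ part X212/Ind26/Leaf
section

/-!
# X212 / Ind26 (helper26): the leaves of BASE and their assembly
-/

set_option autoImplicit false
set_option linter.unusedSectionVars false

open Finset Classical

noncomputable section

namespace Crest.Agent.X212.Ind26

open Hp13 Cut21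
open Alg36 (Om Op Esc)

/-- PHI: few pieces of a system of index zero miss a side -/
def PhiStmt : Prop := ∀ (s : St) (z : s.P → s.P → ℤ) [IsCoc s.A z], Good s → NF s.P s.A z →
  DS s.A z → idx s.A z = 0 → ((J1 s.A z).card : ℤ) + (J2 s.A z).card ≤ chiC (Yc s.A z)

/-- COUNT: the cut along a complete system of index zero consists of balls -/
def CountStmt : Prop := ∀ (s c : St) (z : s.P → s.P → ℤ) [IsCoc s.A z] (π : c.P → s.P), Good s →
  NF s.P s.A z → DS s.A z → Cov s c z π → Good c → Esc c.A c.A → ∀ C, IsCmp c.A C → 0 < eu C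

/-- DROP: a subsystem has conditioned boundary -/
def DropStmt : Prop := ∀ (s : St) (z : s.P → s.P → ℤ) [IsCoc s.A z], Stt s → DS s.A z →
  idx s.A z = 0 → JO s.A z → BR s.A z →
    ∃ (w : s.P → s.P → ℤ) (_ : IsCoc s.A w), DS s.A w ∧ idx s.A w = 0 ∧ Bdy s.A w

theorem nf_sd {s : St} {z : s.P → s.P → ℤ} (h : NF s.P s.A z) :
    NF s.sd.P s.sd.A (pb Ch.top z) :=
  ⟨h.adm.sd.sf, fun _ _ hy l => h.jk _ _ (hy.imp id Hlf24.om_sd.1) (Ch.top_mono l),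
    condP_iff.2 h.adm.sd.cu, condM_iff.2 h.adm.sd.cd⟩

theorem base_of (hR : RegStmt) (hI : IsoStmt) (hT : TrStmt) (hP : PhiStmt) (hC : CountStmt)
    (hD : DropStmt) {s : St} (h : Stt s) (h0 : HB s 0) :
    ∃ (t : St) (f : t.P → s.P) (z : t.P → t.P → ℤ) (s' : St) (π : s'.P → t.P),
      Desc s t f ∧ Adm t z ∧ Cov t s' z π ∧ End s' := by
  obtain ⟨t1, f1, z1, _, d1, a1, a2⟩ := h0
  have g1 := (Alg36.stt_desc h d1).toGood
  obtain ⟨t2, f2, z2, _, m, d2, b1, b2, b3, b4⟩ := hR t1 z1 g1 a1.sf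
  obtain ⟨c1, c2⟩ := hI _ _ _ _ _ m g1 d2 a1 b1 b2
  have s2 := Alg36.stt_desc h (d1.trans d2)
  obtain ⟨z3, _, e1, e2, e3⟩ := hD t2 z2 s2 c1 (by omega) b3 b4
  obtain ⟨t, f, z, c, π, lev, d3, k1, k2, nf, k3, wc⟩ := cut0 s2.toGood s2.thick s2.esc e1.sf e3
  have : IsCoc t.A z := ⟨nf.sf.coc⟩
  obtain ⟨l1, l2⟩ := hT _ _ _ _ _ s2.toGood d3 e1 nf.sf k1 k2.ge
  have st := Alg36.stt_desc s2 d3
  have iv : Inv t := ⟨st.toTaut, st.esc⟩
  have ds := Desc.sd t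
  have : IsCoc t.sd.A (pb Ch.top z) := ⟨ds.coc nf.sf.coc⟩
  obtain ⟨n1, n2⟩ := hT _ _ _ _ _ st.toGood ds l1 (nf_sd nf).sf Eqv.rfl (ds.chi z).ge
  refine ⟨t, _, z, c, π, (d1.trans d2).trans d3, nf.adm, k3.cov,
    Wk.end_of ⟨wc.toGood, wc.sfm, wc.sfp, wc.esc⟩ (wc.ee.trans s2.bal)
      (glue iv nf.sf.mono nf.jk k3.cov (hP t z st.toGood nf l1 (l2.trans e2)))
      (glue (Alg36.inv_desc iv ds) (nf_sd nf).sf.mono (nf_sd nf).jk k3.cov.sd
        (hP _ _ (Alg36.Good.desc st.toGood ds) (nf_sd nf) n1 (n2.trans (l2.trans e2))))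
      (hC t c z π st.toGood nf l1 k3.cov wc.toGood wc.esc)⟩

end Crest.Agent.X212.Ind26
end
end

-- ▼ part X212/Ind26/Disc
section

/-!
# X212 / Ind26 (helper26): the collars of a conditioned disc, PHI
-/

set_option autoImplicit false
set_option linter.unusedSectionVars false

open Finset Classical

noncomputable section

namespace Crest.Agent.X212.Ind26

open Hp13 Cut21
open Alg36 (Om Op Esc)

variable {P : Type} [PartialOrder P] [Fintype P] {A : Set P} {z : P → P → ℤ}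

/-- the cell of a triangle -/
def tc {x y w : P} {k : ℤ} (t : Tri A x y w) (h0 : 0 ≤ k) (h1 : k < z x w) : Lv A z :=
  ⟨(tri x y w t.1 t.2.1, k), let ⟨_, _, a, ha, c⟩ := t; ⟨a, ha, by simpa using c⟩, h0,
    by simpa using h1⟩

@[simp] theorem tc_ch {x y w : P} {k : ℤ} (t : Tri A x y w) (h0 : 0 ≤ k) (h1 : k < z x w) :
    (tc t h0 h1).1.1 = tri x y w t.1 t.2.1 := rfl

@[simp] theorem ec_ch {x y : P} {k : ℤ} (hp : Dp A x y) (h0 : 0 ≤ k) (h1 : k < z x y) :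
    (ec hp h0 h1).1.1 = Ch.pr x y hp.1 := rfl

theorem mem_la {p : Lv A z} : p ∈ LA A z ↔ ∃ a ∈ p.1.1.1, a ∈ A := Iff.rfl

/-- the cells that meet `O₊` -/
def Xp (A : Set P) (z : P → P → ℤ) : Set (Lv A z) := {p | p ∈ LA A z ∧ p.1.1.top ∉ A}

/-- the cells that meet `O₋` -/
def Xm (A : Set P) (z : P → P → ℤ) : Set (Lv A z) := {p | p ∈ LA A z ∧ p.1.1.bot ∉ A}

theorem mem_xp {p : Lv A z} : p ∈ Xp A z ↔ (∃ a ∈ p.1.1.1, a ∈ A) ∧ p.1.1.top ∉ A := Iff.rfl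

theorem mem_xm {p : Lv A z} : p ∈ Xm A z ↔ (∃ a ∈ p.1.1.1, a ∈ A) ∧ p.1.1.bot ∉ A := Iff.rfl

variable [hz : IsCoc A z]

theorem ec_le {x y : P} {k : ℤ} {hp : Dp A x y} {h0 : 0 ≤ k} {h1 : k < z x y} {p : Lv A z}
    (hx : x ∈ p.1.1.1) (hy : y ∈ p.1.1.1) (e : p.1.2 = k + z p.1.1.bot x) : ec hp h0 h1 ≤ p :=
  Lv.le_iff.2 ⟨pr_le (h := hp.1) hx hy, by simpa [ec] using e⟩

theorem tri0 {x y w : P} (t : Tri A x y w) : z x x = 0 :=
  let ⟨_, _, _, ha, c, _⟩ := t; hz.coc.self ha c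

theorem ec12 {x y w : P} {k : ℤ} {t : Tri A x y w} {hp : Dp A x y} {h0 : 0 ≤ k} {h1 : k < z x y}
    {h2 : k < z x w} : ec hp h0 h1 ≤ tc t h0 h2 :=
  ec_le (by simp) (by simp) (by simp [tc, tri0 (z := z) t])

theorem ec13 {x y w : P} {k : ℤ} {t : Tri A x y w} {hp : Dp A x w} {h0 : 0 ≤ k}
    {h1 : k < z x w} : ec hp h0 h1 ≤ tc t h0 h1 :=
  ec_le (by simp) (by simp) (by simp [tc, tri0 (z := z) t])

theorem ec23 {x y w : P} {k k' : ℤ} {t : Tri A x y w} {hp : Dp A y w} {h0 : 0 ≤ k}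
    {h1 : k < z y w} {h2 : 0 ≤ k'} {h3 : k' < z x w} (e : k' = k + z x y) :
    ec hp h0 h1 ≤ tc t h2 h3 :=
  ec_le (by simp) (by simp) (by simpa [tc] using e)

/-- the interior cofaces of a cell are connected -/
theorem conn_cof (hN : Nice A) (hm : Mono A z) (q : Lv A z) : Conn {p | p ∈ LA A z ∧ q ≤ p} := by
  by_cases hq : q ∈ LA A z
  · exact conn_cone (m := q) ⟨hq, le_rfl⟩ fun _ k => Or.inr k.2
  set S := {p | p ∈ LA A z ∧ q ≤ p}
  have key : ∀ {a : P}, a ∈ A → ∀ {r s : Lv A z}, q ≤ r → q ≤ s →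
      a ∈ r.1.1.1 → a ∈ s.1.1.1 → Rch S r s := fun {a} ha r s h1 h2 h3 h4 => by
    have k : ∀ x ∈ q.1.1.1, Cm a x := fun x hx => r.1.1.cm h3 (Lv.ch_le h1 hx)
    have m : Mt A (q.1.1.ins a k) := ⟨a, mem_insert_self _ _, ha⟩
    obtain ⟨t, t3, t2⟩ := Lv.exists_ge hm q m.dom (q.1.1.le_ins a k)
    have t1 : t ∈ S := ⟨show Mt A t.1.1 from t3 ▸ m, t2⟩
    exact (Rch.of_cm (E := S) ⟨⟨a, h3, ha⟩, h1⟩ t1 (Or.inr (Sf30.lv_le_of_ge t2 h1
      (t3 ▸ insert_subset h3 (Lv.ch_le h1))))).trans (Rch.of_cm t1 ⟨⟨a, h4, ha⟩, h2⟩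
        (Or.inl (Sf30.lv_le_of_ge t2 h2 (t3 ▸ insert_subset h4 (Lv.ch_le h2)))))
  rintro p ⟨⟨a, a1, a2⟩, h⟩ p' ⟨⟨b, b1, b2⟩, h'⟩
  refine ((hN q.1.1 q.2.1 hq).conn a ⟨a2, fun x hx => p.1.1.cm a1 (Lv.ch_le h hx)⟩ b
    ⟨b2, fun x hx => p'.1.1.cm b1 (Lv.ch_le h' hx)⟩).ind
    (p := fun t => ∀ s, q ≤ s → t ∈ s.1.1.1 → Rch S p s)
    (fun s k1 k2 => key a2 h k1 a1 k2) ?_ p' h' b1
  intro u hu v hv huv
  let c := (q.1.1.ins u hu.2).ins v fun x hx =>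
    (mem_insert.1 hx).elim (fun e => e ▸ Or.inr huv) (hv.2 x)
  have m : Mt A c := ⟨v, mem_insert_self _ _, hv.1⟩
  obtain ⟨r, r1, r2⟩ := Lv.exists_ge hm q m.dom ((q.1.1.le_ins _ _).trans (Ch.le_ins _ _ _))
  have ru : u ∈ r.1.1.1 := r1 ▸ mem_insert_of_mem (mem_insert_self _ _)
  have rv : v ∈ r.1.1.1 := r1 ▸ mem_insert_self _ _
  exact ⟨fun k s k1 k2 => (k r r2 ru).trans (key hv.1 r2 k1 rv k2),
    fun k s k1 k2 => (k r r2 rv).trans (key hu.1 r2 k1 ru k2)⟩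

/-- the cofaces of a connected set of cells -/
theorem rch_cof (hN : Nice A) (hm : Mono A z) {B S : Set (Lv A z)}
    (hS : ∀ q ∈ B, ∀ p ∈ LA A z, q ≤ p → p ∈ S) {q q' : Lv A z} (hq : q ∈ B) (r : Rch B q q')
    {p : Lv A z} (hp : p ∈ LA A z) (l : q ≤ p) : ∀ p' ∈ LA A z, q' ≤ p' → Rch S p p' := by
  have k : ∀ a ∈ B, ∀ {u v}, u ∈ LA A z → v ∈ LA A z → a ≤ u → a ≤ v → Rch S u v :=
    fun a ha _ _ h1 h2 h3 h4 =>
      (conn_cof hN hm a _ ⟨h1, h3⟩ _ ⟨h2, h4⟩).mono fun x hx => hS a ha x hx.1 hx.2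
  refine r.ind (p := fun t => ∀ p' ∈ LA A z, t ≤ p' → Rch S p p')
    (fun p' h1 h2 => k q hq hp h1 l h2) fun a ha b hb j =>
      ⟨fun i u h1 h2 => i u h1 (j.trans h2), fun i u h1 h2 => ?_⟩
  obtain ⟨v, v1, v2⟩ := Lv.exists_la hm b
  exact (i v v1 v2).trans (k a ha v1 h1 (j.trans v2) h2)

/-- `p` reaches the boundary inside `S` -/
def Rb (S : Set (Lv A z)) (p : Lv A z) : Prop := ∃ r ∈ LB A z, Rch S p r

theorem Rb.via {S : Set (Lv A z)} {p q r : Lv A z} (h : Rb S q) (hp : p ∈ S) (hq : q ∈ S)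
    (hr : r ∈ S) (h1 : p ≤ r) (h2 : q ≤ r) : Rb S p :=
  let ⟨b, b1, b2⟩ := h
  ⟨b, b1, ((Rch.of_cm hp hr (Or.inl h1)).trans (Rch.of_cm hr hq (Or.inr h2))).trans b2⟩

theorem rb_of {S : Set (Lv A z)} {p q r : Lv A z} (hp : p ∈ S) (hq : q ∉ LA A z)
    (hr : r ∈ S) (hr' : r ∈ LA A z) (h1 : p ≤ r) (h2 : q ≤ r) : Rb S p :=
  ⟨r, ⟨hr', q, hq, h2⟩, Rch.of_cm hp hr (Or.inl h1)⟩

theorem rb_pp (hm : Mono A z) (hc : CondP A z) {a o : P} {k : ℤ}
    (ha : a ∈ A) (ho : o ∉ A) (hp : Dp A a o) (h0 : 0 ≤ k) (h1 : k < z a o) :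
    Rb (Xp A z) (ec hp h0 h1) := by
  obtain ⟨N, hN⟩ := (Set.finite_range fun p : P × P => z p.1 p.2).bddAbove
  obtain ⟨n, hn⟩ : ∃ n : ℕ, N - k ≤ n := ⟨(N - k).toNat, Int.self_le_toNat _⟩
  induction n generalizing a o k with
  | zero => have := hN ⟨(a, o), rfl⟩; simp only at this; omega
  | succ n ih =>
  have m : ∀ {a o : P} {k : ℤ} {hp : Dp A a o} {h0 : 0 ≤ k} {h1 : k < z a o}, a ∈ A → o ∉ A →
      ec hp h0 h1 ∈ Xp A z := fun ha ho => by simp [mem_xp, ha, ho]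
  have pp := hc a ha o ho hp.1
  induction pp with
  | @sut x a o hx l =>
    have t := tri2 ha l hp.1
    have := t.add hz.coc
    have := hm _ _ t.d12
    exact rb_of (q := ec t.d13 (k := k + z x a) (by omega) (by omega)) (r := tc t _ _) (m ha ho)
      (by simp [mem_la, hx, ho]) (by simp [mem_xp, ha, ho]) (by simp [mem_la, ha]) (ec23 rfl) ec13
  | @low x a o hx l j =>
    have t := tri2 ha l hp.1
    have := t.add hz.coc
    exact (ih hx ho t.d13 (k := k + z x a) (by omega) (by omega) (by omega)).via (r := tc t _ _)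
      (m ha ho) (m hx ho) (by simp [mem_xp, ha, ho]) (ec23 rfl) ec13
  | @up a b o hb l l' j _ i =>
    have t := tri1 ha l l'
    have := t.add hz.coc
    exact (i hb ho t.d23 (by omega)).via (r := tc t _ _) (m ha ho) (m hb ho)
      (by simp [mem_xp, ha, ho]) ec13 (ec23 (by omega))
  | @dn a b o hb l j _ i =>
    have t := tri1 hb l hp.1
    have := t.add hz.coc
    exact (i hb ho t.d13 (by omega)).via (r := tc t _ _) (m ha ho) (m hb ho)
      (by simp [mem_xp, ha, ho]) (ec23 (by omega)) ec13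
  | @mv a o p hp' l j _ i =>
    rcases j with j | j
    · have t := tri1 ha hp.1 j
      have := t.add hz.coc
      have := hm _ _ t.d23
      exact (i ha hp' t.d13 (by omega)).via (r := tc t _ _) (m ha ho) (m ha hp')
        (by simp [mem_xp, ha, hp']) ec12 ec13
    have t := tri1 ha l j
    have := t.add hz.coc
    by_cases e : k < z a p
    · exact (i ha hp' t.d12 e).via (r := tc t _ _) (m ha ho) (m ha hp')
        (by simp [mem_xp, ha, ho]) ec13 ec12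
    · exact rb_of (q := ec t.d23 (k := k - z a p) (by omega) (by omega)) (r := tc t _ _) (m ha ho)
        (by simp [mem_la, hp', ho]) (by simp [mem_xp, ha, ho]) (by simp [mem_la, ha]) ec13
        (ec23 (by omega))

theorem rb_pm (hm : Mono A z) (hj : JK A z) {a o : P} (pp : PM A z a o)
    (ha : a ∈ A) (ho : o ∉ A) (hp : Dp A o a) (h1 : 0 < z o a) :
    Rb (Xm A z) (ec hp le_rfl h1) := by
  have m : ∀ {a o : P} {hp : Dp A o a} {h1 : 0 < z o a}, a ∈ A → o ∉ A →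
      ec hp le_rfl h1 ∈ Xm A z := fun ha ho => by simp [mem_xm, ha, ho]
  induction pp with
  | @sut x a o hx l =>
    have t := tri2 ha hp.1 l
    have := t.add hz.coc
    have := hm _ _ t.d23
    exact rb_of (q := ec t.d13 le_rfl (by omega)) (r := tc t _ _) (m ha ho)
      (by simp [mem_la, hx, ho]) (by simp [mem_xm, ha, ho]) (by simp [mem_la, ha]) ec12 ec13
  | @hi x a o hx l j =>
    have := (tri2 ha hp.1 l).add hz.coc
    have := hj o x (Or.inl hx) (hp.1.trans l)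
    omega
  | @dn a b o hb l l' j _ i =>
    have t := tri2 hb l' l
    have := t.add hz.coc
    exact (i hb ho t.d12 (by omega)).via (r := tc t _ _) (m ha ho) (m hb ho)
      (by simp [mem_xm, ha, ho]) ec13 ec12
  | @up a b o hb l j _ i =>
    have t := tri2 ha hp.1 l
    have := t.add hz.coc
    exact (i hb ho t.d13 (by omega)).via (r := tc t _ _) (m ha ho) (m hb ho)
      (by simp [mem_xm, ha, ho]) ec12 ec13
  | @mv a o p hp' l j _ i =>
    rcases j with j | j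
    · have t := tri3 ha j l
      have := t.add hz.coc
      by_cases e : 0 < z o p
      · exact rb_of (q := ec t.d12 le_rfl e) (r := tc t _ _) (m ha ho)
          (by simp [mem_la, hp', ho]) (by simp [mem_xm, ha, ho]) (by simp [mem_la, ha]) ec13 ec12
      · have := hm _ _ t.d12
        exact (i ha hp' t.d23 (by omega)).via (r := tc t _ _) (m ha ho) (m ha hp')
          (by simp [mem_xm, ha, ho]) ec13 (ec23 (by omega))
    have t := tri3 ha j hp.1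
    have := t.add hz.coc
    have := hm _ _ t.d12
    have := hj p a (Or.inl ha) l
    exact (i ha hp' t.d13 (by omega)).via (r := tc t _ _) (m ha ho) (m ha hp')
      (by simp [mem_xm, ha, hp']) (ec23 (by omega)) ec13

theorem rb_face {S : Set (Lv A z)} {p q : Lv A z} (h : Rb S q) (hp : p ∈ S) (hq : q ∈ S)
    (l : q ≤ p) : Rb S p := h.via hp hq hp le_rfl l

theorem rb_xp (hm : Mono A z) (hc : CondP A z) {p : Lv A z} (hp : p ∈ Xp A z) :
    Rb (Xp A z) p := by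
  have d : ∀ x ∈ p.1.1.1, Dp A x p.1.1.top := fun x hx => p.2.1.dp hx p.1.1.top_mem (Ch.le_top hx)
  have e : ∀ x ∈ p.1.1.1, z p.1.1.bot p.1.1.top = z p.1.1.bot x + z x p.1.1.top := fun x hx =>
    hz.coc.add' p.2.1 p.1.1.bot_mem hx p.1.1.top_mem (Ch.bot_le hx) (Ch.le_top hx)
  have := p.2.2.2
  by_cases k : ∃ a ∈ p.1.1.1, a ∈ A ∧ z p.1.1.bot a ≤ p.1.2
  · obtain ⟨a, a1, a2, a3⟩ := k
    have := e a a1
    exact rb_face (rb_pp hm hc a2 hp.2 (d a a1) (k := p.1.2 - z p.1.1.bot a) (by omega) (by omega))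
      hp (by simp [mem_xp, a2, hp.2]) (ec_le a1 p.1.1.top_mem (by omega))
  · have b0 := dom_zero (z := z) p.2.1 p.1.1.bot_mem
    have hb : p.1.1.bot ∉ A := fun j => k ⟨_, p.1.1.bot_mem, j, b0.trans_le p.2.2.1⟩
    exact rb_of (q := ec (d _ p.1.1.bot_mem) p.2.2.1 this) hp (by simp [mem_la, hb, hp.2]) hp hp.1
      le_rfl (ec_le p.1.1.bot_mem p.1.1.top_mem (by omega))

theorem rb_xm (hm : Mono A z) (hj : JK A z) (hc : CondM A z) {p : Lv A z} (hp : p ∈ Xm A z)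
    (ht : p.1.1.top ∈ A) : Rb (Xm A z) p := by
  have := p.2.2.1
  have := p.2.2.2
  have := hj _ _ (Or.inl ht) p.1.1.bot_le_top
  have b0 := dom_zero (z := z) p.2.1 p.1.1.bot_mem
  exact rb_face (rb_pm hm hj (hc _ ht _ hp.2 p.1.1.bot_le_top) ht hp.2 p.2.1.bt (by omega)) hp
    (by simp [mem_xm, ht, hp.2]) (ec_le p.1.1.bot_mem p.1.1.top_mem (by omega))

theorem Rb.cmp {S D : Set (Lv A z)} (hS : S ⊆ LA A z) (hD : IsCmp (LA A z) D) {p : Lv A z}
    (hp : p ∈ D ∩ S) (h : Rb S p) : ∃ r ∈ D ∩ S, r ∈ LB A z ∧ Rch (D ∩ S) p r :=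
  let ⟨r, r1, r2⟩ := h
  have k := Rch.in_clopen (C := D ∩ S) (fun _ hx _ hy l => ⟨hD.clopen hx.1 (hS hy) l, hy⟩) hp r2
  ⟨r, k.mem hp, r1, k⟩

/-- a boundary cell under `p` with the same top -/
theorem exists_off (hm : Mono A z) {p : Lv A z} (hp : p ∈ LB A z) (ht : p.1.1.top ∉ A) :
    ∃ q, q ∉ LA A z ∧ q ≤ p ∧ q.1.1.top = p.1.1.top := by
  obtain ⟨-, q, q1, q2⟩ := hp
  have ne : ∃ x ∈ p.1.1.1, x ∉ A := ⟨_, p.1.1.top_mem, ht⟩
  have l := le_offA (h := ne) q1 (Lv.ch_le q2)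
  obtain ⟨r, r1, r2⟩ := Lv.exists_ge hm q (p.2.1.mono offA_le) l
  refine ⟨r, show ¬ Mt A r.1.1 from r1 ▸ offA_not,
    Sf30.lv_le_of_ge r2 q2 (r1 ▸ offA_le), r1 ▸ Ch.top_eq (mem_offA.2 ⟨p.1.1.top_mem, ht⟩)
      fun x hx => Ch.le_top (mem_offA.1 hx).1⟩

theorem top_op {p : Lv A z} (hp : p ∈ Xp A z) : p.1.1.top ∈ Op A :=
  let ⟨⟨a, a1, a2⟩, h⟩ := hp; ⟨h, a, a2, Ch.le_top a1⟩

/-- the collar of `R₊` in a disc of index zero is connected -/
theorem conn_xp (hA : A.OrdConnected) (hM : Mf 3 A) (hN : Nice A) (hm : Mono A z) (hc : CondP A z)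
    {D : Set (Lv A z)} (hD : IsCmp (LA A z) D) (h1 : chiC D = 1) (h2 : nm A (cnt (dn D)) ≤ 1) :
    Conn (D ∩ Xp A z) := by
  have k : ∀ p ∈ D ∩ Xp A z, ∃ r, Rch (D ∩ Xp A z) p r ∧ r ∈ LA A z ∧
      ∃ q ∈ {q | q ∈ Bd D ∧ q.1.1.top ∉ Om A}, q ≤ r := fun p hp => by
    obtain ⟨r, r1, r2, r3⟩ := (rb_xp hm hc hp.2).cmp (fun _ j => j.1) hD hp
    obtain ⟨q, q1, q2, q3⟩ := exists_off hm r2 r1.2.2
    exact ⟨r, r3, r1.2.1, q, ⟨⟨q1, r, r1.1, q2⟩, fun j => Alg36.om_op hA j (q3 ▸ top_op r1.2)⟩, q2⟩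
  intro p hp p' hp'
  obtain ⟨r, r1, r2, q, q1, q2⟩ := k p hp
  obtain ⟨r', s1, s2, q', s3, s4⟩ := k p' hp'
  refine (r1.trans (rch_cof hN hm (S := D ∩ Xp A z) (fun a ha u hu l => ⟨?_, hu, ?_⟩) q1
    (conn_bp hA hM hN hm hD h1 h2 q q1 q' s3) r2 q2 r' s2 s4)).trans s1.symm
  · exact (mem_dn (fun _ i _ j => hD.clopen i j) hu).1 ((sat_cmp hN hm hD a u l).1 ha.1.2)
  · exact (op_up hA ((Alg36.cases_of_mt hu (Lv.ch_le l a.1.1.top_mem) (off_bt ha.1.1).2).resolve_left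
      ha.2) (Ch.top_mono (Lv.ch_le l))).1

theorem nm_le (h0 : idx A z = 0) {D : Set (Lv A z)} (hD : IsCmp (LA A z) D) :
    nm A (cnt (dn D)) ≤ 1 := by
  have := sum_eq_zero_iff.1 h0 D (Sf30.mem_cs.2 hD)
  omega

theorem yc_dn (hA : A.OrdConnected) {p q : Lv A z} (hp : p ∈ Yc A z) (hq : q ∈ LA A z)
    (l : q ≤ p) : q ∈ Yc A z :=
  let ⟨_, a1, a2⟩ := hq; hA.out a2 hp ⟨Ch.le_top a1, Ch.top_mono (Lv.ch_le l)⟩

theorem xp_upper (hA : A.OrdConnected) : IsUpperSet (Xp A z) := fun _ _ l hp =>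
  ⟨LA.upper hp.1 l, fun k => hp.2 (yc_dn hA k hp.1 l)⟩

theorem isCmp_inter {Q : Type} [PartialOrder Q] [Fintype Q] {Y D C : Set Q}
    (hC : IsCmp Y C) (k : C ⊆ D) : IsCmp (D ∩ Y) C :=
  Sf30.isCmp_of (fun _ j => ⟨k j, hC.sub j⟩) hC.ne hC.conn fun _ i _ j l => hC.clopen i j.2 l

theorem chiC_cs {Y : Set (Lv A z)} (hY : Y ⊆ LA A z) :
    chiC Y = ∑ D ∈ Sf30.cs (LA A z), chiC (D ∩ Y) := by
  have := Sf30.sum_cs (LA A z) fun p => if p ∈ Y then p.1.1.sg else 0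
  simp only [← sum_filter, filter_filter] at this
  rw [chiC, show univ.filter (· ∈ Y) = univ.filter fun p => p ∈ LA A z ∧ p ∈ Y from
    filter_congr fun p _ => ⟨fun k => ⟨hY k, k⟩, fun k => k.2⟩, ← this]
  exact sum_congr rfl fun D _ => sum_congr (Finset.ext fun _ => by simp) fun _ _ => rfl

theorem card_cs {Y : Set (Lv A z)} (hY : Y ⊆ LA A z) {J : Finset (Set (Lv A z))}
    (hJ : J ⊆ Sf30.cs Y) : J.card ≤ ∑ D ∈ Sf30.cs (LA A z), (J.filter (· ⊆ D)).card := by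
  refine le_trans (card_le_card fun C hC => ?_) card_biUnion_le
  have k := Sf30.mem_cs.1 (hJ hC)
  obtain ⟨p, hp⟩ := k.ne
  exact mem_biUnion.2 ⟨_, Sf30.mem_cs.2 (isCmp_cmp (hY (k.sub hp))), mem_filter.2 ⟨hC, fun q hq =>
    ⟨hY (k.sub hq), (k.conn p hp q hq).mono (k.sub.trans hY)⟩⟩⟩

/-- the planar inequality in a disc; `G` is a connected open part -/
theorem disc_planar (hM : Mf 3 A) (hm : Mono A z) {D G H : Set (Lv A z)} (hD : IsCmp (LA A z) D)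
    (hT : Tch A z D) (h1 : chiC D = 1) (hc : Sf30.Col D G H) (hU : IsUpperSet G) (hG : Conn G)
    (hn : G.Nonempty) : (((Sf30.cs H).filter (Sf30.Inn D)).card : ℤ) ≤ chiC H := by
  obtain ⟨p, p1, q, q1, q2⟩ := hT
  have := planar ((Sf30.mf_LA hM hm).mono hD.sub) hc hD.conn
    ⟨p, p1, q, fun k => q1 (hD.sub k), Or.inr q2⟩ hG hn
  have e := chiC_union hc.dj
  rw [hc.un, h1, ← eu_upper hM hm (hc.l.trans hD.sub) hU] at e
  omega

theorem phi_one (hA : A.OrdConnected) (hM : Mf 3 A) (hN : Nice A) (hm : Mono A z) (hc : CondP A z)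
    {D : Set (Lv A z)} (hD : IsCmp (LA A z) D) (hT : Tch A z D) (h1 : chiC D = 1)
    (h2 : nm A (cnt (dn D)) ≤ 1) : (((J1 A z).filter (· ⊆ D)).card : ℤ) +
      ((J2 A z).filter (· ⊆ D)).card ≤ chiC (D ∩ Yc A z) := by
  have all : ∀ Y, IsCmp (Yc A z) Y → Y ⊆ D → (∀ p ∈ Y, ∀ q ∈ D, p ≤ q → q ∈ Yc A z) → D ⊆ Y :=
    fun Y hY k j q hq => by
      obtain ⟨p, hp⟩ := hY.ne
      exact (hD.conn p (k hp) q hq).ind (p := (· ∈ Y)) hp fun a ha b hb l =>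
        ⟨fun i => hY.clopen i (j a i b hb l) (Or.inl l),
          fun i => hY.clopen i (yc_dn hA (hY.sub i) (hD.sub ha) l) (Or.inr l)⟩
  by_cases hn : (D ∩ Xp A z).Nonempty
  · have := disc_planar hM hm (G := D ∩ Xp A z) (H := D ∩ Yc A z) hD hT h1
      ⟨Set.ext fun p => ⟨fun k => k.elim (·.1) (·.1), fun k => or_iff_not_imp_right.2 fun j =>
        ⟨k, hD.sub k, fun i => j ⟨k, i⟩⟩⟩, Set.disjoint_left.2 fun _ i j => i.2.2 j.2⟩
      ((hD.upper Sf30.la_upper).inter (xp_upper hA)) (conn_xp hA hM hN hm hc hD h1 h2) hn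
    have a1 : ((J1 A z).filter (· ⊆ D)).card ≤
        ((Sf30.cs (D ∩ Yc A z)).filter (Sf30.Inn D)).card := card_le_card fun Y hY => by
      obtain ⟨k1, k2⟩ := mem_filter.1 hY
      obtain ⟨k3, k4⟩ := mem_filter.1 k1
      exact mem_filter.2 ⟨Sf30.mem_cs.2 (isCmp_inter (Sf30.mem_cs.1 k3) k2), fun p hp q l =>
        hD.clopen (k2 hp) (l.elim (LA.upper (hD.sub (k2 hp))) (k4 p hp q)) l⟩
    rw [filter_false_of_mem (s := J2 A z) fun Y hY k => ?_, card_empty]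
    · omega
    obtain ⟨k3, k4⟩ := mem_filter.1 hY
    obtain ⟨p, p1, p2⟩ := hn
    exact p2.2 ((Sf30.mem_cs.1 k3).sub (all Y (Sf30.mem_cs.1 k3) k (fun a ha b _ => k4 a ha b) p1))
  · have sub : D ⊆ Yc A z := fun p hp => by_contra fun k => hn ⟨p, hp, hD.sub hp, k⟩
    have a2 : ((J2 A z).filter (· ⊆ D)).card ≤ 1 := card_le_one.2 fun Y hY Y' hY' => by
      have k : ∀ Y ∈ (J2 A z).filter (· ⊆ D), Y = D := fun Y hY =>
        (mem_filter.1 hY).2.antisymm (all Y (Sf30.mem_cs.1 (mem_filter.1 (mem_filter.1 hY).1).1)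
          (mem_filter.1 hY).2 fun _ _ _ i _ => sub i)
      rw [k Y hY, k Y' hY']
    rw [filter_false_of_mem (s := J1 A z) fun Y hY k => ?_, card_empty, Set.inter_eq_left.2 sub, h1]
    · omega
    obtain ⟨k3, k4⟩ := mem_filter.1 hY
    obtain ⟨p, p1, q, q1, q2⟩ := hT
    exact q1 (k4 p (all Y (Sf30.mem_cs.1 k3) k (fun _ _ _ i _ => sub i) p1) q q2)

theorem phiStmt : PhiStmt := fun s z _ hs nf h h0 => by
  have a1 := card_cs (J := J1 s.A z) (fun _ => yc_la) (filter_subset _ _)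
  have a2 := card_cs (J := J2 s.A z) (fun _ => yc_la) (filter_subset _ _)
  have a3 := sum_le_sum fun D hD => phi_one hs.conv hs.mf hs.nice h.sf.mono nf.cp
    (Sf30.mem_cs.1 hD) (h.sf.noCl D (Sf30.mem_cs.1 hD)) (h.disc D (Sf30.mem_cs.1 hD))
    (nm_le h0 (Sf30.mem_cs.1 hD))
  rw [sum_add_distrib, ← chiC_cs fun _ => yc_la, ← Nat.cast_sum, ← Nat.cast_sum] at a3
  omega

end Crest.Agent.X212.Ind26
end
end

-- ▼ part X212/Ind26/Count
section

/-!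
# X212 / Ind26 (helper26): the cut along a complete disc system consists of balls
-/

set_option autoImplicit false
set_option linter.unusedSectionVars false

open Finset Classical

noncomputable section

namespace Crest.Agent.X212.Ind26

open Hp13 Cut21
open Alg36 (Om Op Esc)

section

variable {P : Type} [PartialOrder P] [Fintype P] {A : Set P} {z : P → P → ℤ}

theorem exOn_cs {E : Set P} {u : P → P → ℤ} (h : ∀ C, IsCmp E C → ExOn C u) : ExOn E u := by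
  choose! g hg using h
  refine ⟨fun x => g (Hp13.cmp E x) x, fun x hx y hy l => ?_⟩
  have r := Rch.of_cm hx hy (Or.inl l)
  simp only [← cmp_eq r]
  exact hg _ (isCmp_cmp hx) x (mem_cmp_self hx) y ⟨hy, r⟩ l

/-- the cells inside `A` -/
def Zc (A : Set P) (z : P → P → ℤ) : Set (Lv A z) := {p | ∀ x ∈ p.1.1.1, x ∈ A}

theorem zc_la {p : Lv A z} (h : p ∈ Zc A z) : p ∈ LA A z := ⟨_, p.1.1.top_mem, h _ p.1.1.top_mem⟩

theorem Spn.flat (hm : Mono A z) {u : P → P → ℤ} (h : Spn A z u) :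
    ∃ g : P → ℤ, ∀ x ∈ A, ∀ y, x ≤ y → z x y = 0 → u x y = g y - g x := by
  induction h with
  | @part T _ =>
    exact ⟨0, fun x hx y l e => le_antisymm ((cnt_le hm (Dp.of_left hx l)).trans (by simp [e]))
      (by simpa using cnt_nonneg x y)⟩
  | cb g => exact ⟨g, fun _ _ _ _ _ => rfl⟩
  | add _ _ i j =>
    obtain ⟨g, hg⟩ := i
    obtain ⟨g', hg'⟩ := j
    exact ⟨g + g', fun x hx y l e => by
      simp only [Pi.add_apply, hg x hx y l e, hg' x hx y l e]; ring⟩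
  | neg _ i =>
    obtain ⟨g, hg⟩ := i
    exact ⟨-g, fun x hx y l e => by simp only [Pi.neg_apply, hg x hx y l e]; ring⟩
  | congr _ e' i =>
    obtain ⟨g, hg⟩ := i
    exact ⟨g, fun x hx y l e => (e' x y (Dp.of_left hx l)).trans (hg x hx y l e)⟩

variable [hz : IsCoc A z]

theorem zc_lower : IsLowerSet (Zc A z) := fun _ _ l h x hx => h x (Lv.ch_le l hx)

/-- the collar of the boundary of a disc is connected -/
theorem conn_col (hA : A.OrdConnected) (hM : Mf 3 A) (hN : Nice A) (nf : NF P A z)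
    {D : Set (Lv A z)} (hD : IsCmp (LA A z) D) (h1 : chiC D = 1) :
    Conn (D ∩ (LA A z \ Zc A z)) := by
  have hm := nf.sf.mono
  have k : ∀ p ∈ D ∩ (LA A z \ Zc A z), ∃ r, Rch (D ∩ (LA A z \ Zc A z)) p r ∧ r ∈ LA A z ∧
      ∃ q ∈ Bd D, q ≤ r := fun p hp => by
    have : Rb (LA A z \ Zc A z) p := by
      by_cases ht : p.1.1.top ∈ A
      · obtain ⟨r, r1, r2⟩ := rb_xm hm nf.jk nf.cm ⟨hp.2.1, fun k => hp.2.2 fun x hx =>
          hA.out k ht ⟨Ch.bot_le hx, Ch.le_top hx⟩⟩ ht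
        exact ⟨r, r1, r2.mono fun q k => ⟨k.1, fun j => k.2 (j _ q.1.1.bot_mem)⟩⟩
      · obtain ⟨r, r1, r2⟩ := rb_xp hm nf.cp ⟨hp.2.1, ht⟩
        exact ⟨r, r1, r2.mono fun q k => ⟨k.1, fun j => k.2 (j _ q.1.1.top_mem)⟩⟩
    obtain ⟨r, r1, ⟨r2, q, q1, q2⟩, r3⟩ := this.cmp Set.sdiff_subset hD hp
    exact ⟨r, r3, r2, q, ⟨q1, r, r1.1, q2⟩, q2⟩
  intro p hp p' hp'
  obtain ⟨r, r1, r2, q, q1, q2⟩ := k p hp
  obtain ⟨r', s1, s2, q', s3, s4⟩ := k p' hp'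
  exact (r1.trans (rch_cof hN hm (S := D ∩ (LA A z \ Zc A z)) (fun a ha u hu l =>
    ⟨(mem_dn (fun _ i _ j => hD.clopen i j) hu).1 ((sat_cmp hN hm hD a u l).1 ha.2), hu,
      fun j => ha.1 (zc_la (zc_lower l j))⟩) q1
    (conn_bd hM hm hD h1 q q1 q' s3) r2 q2 r' s2 s4)).trans s1.symm

/-- the inner parts of the discs are discs -/
theorem ctr_zc (hA : A.OrdConnected) (hM : Mf 3 A) (hN : Nice A) (nf : NF P A z)
    (h : ∀ D, IsCmp (LA A z) D → chiC D = 1) {E : Set (Lv A z)} (hE : IsCmp (Zc A z) E) :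
    Ctr E := by
  have hm := nf.sf.mono
  have h2 := Sf30.mf_LA hM hm
  obtain ⟨p, hp⟩ := hE.ne
  have hD := isCmp_cmp (zc_la (hE.sub hp))
  set D := Hp13.cmp (LA A z) p
  have hT := nf.sf.noCl D hD
  have k : E ⊆ D := fun q hq =>
    ⟨zc_la (hE.sub hq), (hE.conn p hp q hq).mono fun _ j => zc_la (hE.sub j)⟩
  have esc : ∀ Y ⊆ D, Esc (LA A z) Y := fun Y hY a ha =>
    let ⟨b, b1, q, q1, q2⟩ := hT
    ⟨b, hD.sub b1, (hD.conn a (hY ha) b b1).mono hD.sub, q, fun j => q1 (hD.sub (hY j)), Or.inr q2⟩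
  have a1 := disc_planar hM hm (G := D ∩ (LA A z \ Zc A z)) (H := D ∩ Zc A z) hD hT (h D hD)
    ⟨Set.ext fun p => ⟨fun k => k.elim (·.1) (·.1), fun k => or_iff_not_imp_right.2 fun j =>
      ⟨k, hD.sub k, fun i => j ⟨k, i⟩⟩⟩, Set.disjoint_left.2 fun _ i j => i.2.2 j.2⟩
    ((hD.upper Sf30.la_upper).inter (Sf30.la_upper.inter zc_lower.compl))
    (conn_col hA hM hN nf hD (h D hD))
    (let ⟨b, b1, _, q1, q2⟩ := hT; ⟨b, b1, hD.sub b1, fun j => q1 (zc_la (zc_lower q2 j))⟩)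
  rw [filter_true_of_mem fun Y hY a ha x l => by
      have := (Sf30.mem_cs.1 hY).sub ha
      exact hD.clopen this.1 (l.elim (LA.upper (hD.sub this.1)) fun j => zc_la (zc_lower j this.2)) l,
    ← eu_lower (E := D ∩ Zc A z) hM hm (fun _ j => hD.sub j.1) (fun a b l j => ⟨hD.clopen j.1
      (zc_la (zc_lower l j.2)) (Or.inr l), zc_lower l j.2⟩), ← Sf30.sum_eu_cs,
    card_eq_sum_ones, Nat.cast_sum] at a1
  have le : ∀ Y ∈ Sf30.cs (D ∩ Zc A z), eu Y ≤ ((1 : ℕ) : ℤ) := fun Y hY =>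
    have j : Y ⊆ D := fun _ i => ((Sf30.mem_cs.1 hY).sub i).1
    Alg36.Mf.eu_le_one h2 (j.trans hD.sub) (Sf30.mem_cs.1 hY).conn (esc Y j)
  exact Alg36.Mf.ctr_of_eu h2 (k.trans hD.sub) hE.conn (esc E k)
    ((sum_eq_sum_iff_of_le le).1 (le_antisymm (sum_le_sum le) a1) E
      (Sf30.mem_cs.2 (isCmp_inter hE k))).ge

/-- a cocycle of the cut manifold extends across the discs -/
theorem exists_ext (hm : Mono A z) (hj : JK A z) (h : ∀ E, IsCmp (Zc A z) E → Ctr E)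
    {w : P → P → ℤ} (hw : ∀ x ∈ A, ∀ y ∈ A, ∀ v ∈ A, x ≤ y → y ≤ v → z x y = 0 → z y v = 0 →
      w x v = w x y + w y v) :
    ∃ W, CocOn A W ∧ ∀ x y, z x y = 0 → W x y = w x y := by
  have fl : ∀ p q : Lv A z, q ∈ Zc A z → p ≤ q →
      z q.1.1.bot p.1.1.bot = 0 ∧ z p.1.1.top q.1.1.top = 0 := fun p q hq l => by
    have l := Lv.ch_le l
    have ht := hq _ q.1.1.top_mem
    have := hj _ _ (Or.inl ht) q.1.1.bot_le_top
    have := add3 (z := z) ht (Ch.bot_anti l) (Ch.le_top (l p.1.1.bot_mem))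
    have := add3 (z := z) ht p.1.1.bot_le_top (Ch.top_mono l)
    have := hm _ _ (Dp.of_left (hq _ q.1.1.bot_mem) (Ch.bot_anti l))
    have := hm _ _ (Dp.of_right ht (Ch.top_mono l))
    have := lv_pos' p
    omega
  obtain ⟨G, hG⟩ := exOn_cs (E := Zc A z)
    (u := fun p q => w p.1.1.top q.1.1.top + w q.1.1.bot p.1.1.bot) fun E hE =>
      (h E hE).ex _ _ fun p hp q hq r hr l l' => by
        have hp := hE.sub hp
        have hq := hE.sub hq
        have hr := hE.sub hr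
        have := hw _ (hp _ p.1.1.top_mem) _ (hq _ q.1.1.top_mem) _ (hr _ r.1.1.top_mem)
          (Ch.top_mono (Lv.ch_le l)) (Ch.top_mono (Lv.ch_le l')) (fl p q hq l).2 (fl q r hr l').2
        have := hw _ (hr _ r.1.1.bot_mem) _ (hq _ q.1.1.bot_mem) _ (hp _ p.1.1.bot_mem)
          (Ch.bot_anti (Lv.ch_le l')) (Ch.bot_anti (Lv.ch_le l)) (fl q r hr l').1 (fl p q hq l).1
        omega
  have w0 : ∀ x ∈ A, w x x = 0 := fun x hx => by
    have := hw x hx x hx x hx le_rfl le_rfl (self0 hz.coc hx) (self0 hz.coc hx)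
    omega
  refine ⟨fun x y => if k : Dp A x y ∧ 0 < z x y then G (ec k.1 le_rfl k.2) else w x y,
    fun x hx y hy v hv l l' => ?_, fun x y e => dif_neg fun k => k.2.ne' e⟩
  have t := tri1 hx l l'
  have := t.add hz.coc
  have := hm _ _ t.d12
  have := hm _ _ t.d23
  have := hj _ _ (Or.inl hv) (l.trans l')
  have := w0 x hx
  have := w0 v hv
  have m : ∀ k : 0 < z x v, tc t le_rfl k ∈ Zc A z := fun k => by simp [Zc, hx, hy, hv]
  have m' : ∀ k : 0 < z x v, G (tc t le_rfl k) = G (ec t.d13 le_rfl k) := fun k => by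
    have := hG _ (by simp [Zc, hx, hv]) _ (m k) (ec13 (hp := t.d13))
    simp only [ec_ch, tc_ch, Ch.top_pr, Ch.bot_pr, top_tri, bot_tri] at this
    omega
  simp only
  by_cases a : 0 < z x y
  · have k : 0 < z x v := by omega
    have := hG _ (by simp [Zc, hx, hy]) _ (m k) (ec12 (hp := t.d12) (h1 := a))
    simp only [ec_ch, tc_ch, Ch.top_pr, Ch.bot_pr, top_tri, bot_tri] at this
    rw [dif_pos ⟨t.d13, k⟩, dif_pos ⟨t.d12, a⟩, dif_neg fun j => by omega, ← m' k]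
    omega
  by_cases b : 0 < z y v
  · have k : 0 < z x v := by omega
    have := hG _ (by simp [Zc, hy, hv]) _ (m k) (ec23 (hp := t.d23) (h0 := le_rfl) (h1 := b)
      (by omega))
    simp only [ec_ch, tc_ch, Ch.top_pr, Ch.bot_pr, top_tri, bot_tri] at this
    rw [dif_pos ⟨t.d13, k⟩, dif_neg fun j => a j.2, dif_pos ⟨t.d23, b⟩, ← m' k]
    omega
  · rw [dif_neg fun j => by omega, dif_neg fun j => a j.2, dif_neg fun j => b j.2]
    exact hw x hx y hy v hv l l' (by omega) (by omega)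

end

theorem countStmt : CountStmt := fun s c z _ π hs nf h hc gc esc C hC => by
  by_contra hn
  have clo := Alg36.IsCmp.clo hC
  obtain ⟨w, w1, w2, -⟩ := Alg36.Mf.exists_cocOn gc.mf hC.sub hC.ne (esc.mono hC.sub) (not_lt.1 hn)
  obtain ⟨u, u1, u2, -⟩ := clo.exists_coc gc.nice w1
  have : Nonempty c.P := let ⟨b, _⟩ := hC.ne; ⟨b⟩
  have L := hc.toLift
  choose! σ σ1 σ2 using fun a (ha : a ∈ s.A) => L.exA ha
  have le : ∀ x ∈ s.A, ∀ y ∈ s.A, x ≤ y → z x y = 0 → σ x ≤ σ y := fun x hx y hy l e =>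
    (hc.le_iff (σ1 x hx) (σ1 y hy)).2 (by rw [σ2 x hx, σ2 y hy]; exact ⟨l, e⟩)
  obtain ⟨W, W1, W2⟩ := exists_ext nf.sf.mono nf.jk
    (fun _ => ctr_zc hs.conv hs.mf hs.nice nf h.disc) (w := pb σ u)
    fun x hx y hy v hv l l' e e' => Alg36.Coc.cocOn u1 _ (σ1 x hx) _ (σ1 y hy) _ (σ1 v hv)
      (le x hx y hy l e) (le y hy v hv l' e')
  obtain ⟨V, V1, V2⟩ := Alg36.Nice.exists_coc hs.nice W1
  obtain ⟨g, hg⟩ := (h.span V V1).flat nf.sf.mono
  refine w2 ⟨g ∘ π, fun b hb b' hb' l => ?_⟩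
  have k := hC.sub hb
  have k' := hC.sub hb'
  have e := hc.zero k k' l
  have i : ∀ b ∈ c.A, σ (π b) = b := fun b hb => L.bij.injOn (σ1 _ (L.mem hb)) hb (σ2 _ (L.mem hb))
  have := hg _ (L.mem k) _ (L.mon l) e
  rw [V2 _ (L.mem k) _ (L.mem k') (L.mon l), W2 _ _ e, pb, i b k, i b' k', u2 b hb b' hb' l] at this
  exact this

end Crest.Agent.X212.Ind26
end
end

-- ▼ part X212/Ind26/Drop
section

/-!
# X212 / Ind26 (helper26): dropping the discs that cut off a source or a sink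
-/

set_option autoImplicit false
set_option linter.unusedSectionVars false

open Finset Classical

noncomputable section

namespace Crest.Agent.X212.Ind26

open Hp13 Cut21
open Alg36 (Om Op Esc)

section

variable {P : Type} [PartialOrder P] [Fintype P] {A : Set P} {z : P → P → ℤ}
  {T U : Set (Lv A z)}

theorem cnt_congr {x y : P} (l : x ≤ y)
    (h : ∀ q : Lv A z, q.1.1 = Ch.pr x y l → (q ∈ T ↔ q ∈ U)) : cnt T x y = cnt U x y := by
  rw [cnt, cnt, dif_pos l, dif_pos l, nlev, nlev, filter_congr (p := lev T _) (q := lev U _)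
    fun k _ => exists_congr fun q => ⟨fun j => ⟨(h q j.2.1).1 j.1, j.2⟩, fun j => ⟨(h q j.2.1).2 j.1, j.2⟩⟩]

theorem cnt_split (T U : Set (Lv A z)) : cnt T = cnt (T ∩ U) + cnt (T \ U) := by
  funext x y
  simp only [Pi.add_apply, cnt]
  split_ifs with l
  swap
  · rfl
  rw [nlev, nlev, nlev, ← card_filter_add_card_filter_not (lev U (Ch.pr x y l)), filter_filter,
    filter_filter, Nat.cast_add]
  refine congrArg₂ _ (congrArg _ (congrArg _ (filter_congr fun k _ => ?_)))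
    (congrArg _ (congrArg _ (filter_congr fun k _ => ?_)))
  · exact ⟨fun ⟨⟨q, a, b, c⟩, q', a', b', c'⟩ =>
      ⟨q, ⟨a, Lv.ext (b'.trans b.symm) (c'.trans c.symm) ▸ a'⟩, b, c⟩,
      fun ⟨q, a, b⟩ => ⟨⟨q, a.1, b⟩, q, a.2, b⟩⟩
  · exact ⟨fun ⟨⟨q, a, b⟩, j⟩ => ⟨q, ⟨a, fun i => j ⟨q, i, b⟩⟩, b⟩,
      fun ⟨q, a, b, c⟩ => ⟨⟨q, a.1, b, c⟩, fun ⟨q', a', b', c'⟩ =>
        a.2 (Lv.ext (b'.trans b.symm) (c'.trans c.symm) ▸ a')⟩⟩

theorem cnt_empty : cnt (∅ : Set (Lv A z)) = 0 := by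
  funext x y
  simp [cnt, nlev, lev]

theorem cnt_one {x y : P} (hp : Dp A x y) (h : 0 < z x y) (h1 : ec hp le_rfl h ∈ T)
    (h2 : ∀ q ∈ T, q.1.1 = Ch.pr x y hp.1 → q.1.2 = 0) : cnt T x y = 1 := by
  rw [cnt, dif_pos hp.1, nlev, show (Ico 0 (z x y)).filter (lev T (Ch.pr x y hp.1)) = {0} from
    eq_singleton_iff_unique_mem.2 ⟨mem_filter.2 ⟨mem_Ico.2 ⟨le_rfl, h⟩, _, h1, rfl, rfl⟩,
      fun k hk => let ⟨q, a, b, c⟩ := (mem_filter.1 hk).2; c ▸ h2 q a b⟩]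
  rfl

theorem spn_zero : Spn A z 0 := cb_zero (G := ℤ) (P := P) ▸ Spn.cb 0

theorem sat_inter (h : Sat T) (h' : Sat U) : Sat (T ∩ U) := fun p q k =>
  and_congr (h p q k) (h' p q k)

theorem nm_congr {u v : P → P → ℤ} (h : EqD A u v) : nm A u = nm A v :=
  sum_congr rfl fun c hc => by rw [h _ _ (dp_om (mem_filter.1 hc).2 c.bot_le_top)]

variable [hz : IsCoc A z]

/-- the cells of `T` as cells of `cnt U` -/
def prI (U T : Set (Lv A z)) : Set (Lv A (cnt U)) := {p | ∃ q ∈ T, PR U q p}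

section
variable (hU : Sat U) (hm : Mono A z) [IsCoc A (cnt U)]
include hU hm

theorem mem_prI {q : Lv A z} {p : Lv A (cnt U)} (k : PR U q p) : p ∈ prI U T ↔ q ∈ T :=
  ⟨fun ⟨_, h1, h2⟩ => (hU.lr hm).symm.uniq h2 k ▸ h1, fun h => ⟨q, h, k⟩⟩

theorem sat_prI (hT : Sat T) : Sat (prI U T) := fun p p' l => by
  obtain ⟨q, k⟩ := hU.exists_pr' hm p
  obtain ⟨q', k'⟩ := hU.exists_pr' hm p'
  rw [mem_prI hU hm k, mem_prI hU hm k']
  exact hT q q' (((hU.lr hm).le_iff k k').2 l)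

theorem cnt_prI (hT : T ⊆ U) : EqD A (cnt (prI U T)) (cnt T) := fun x y hp => by
  show (if h : x ≤ y then nlev _ (Ch.pr x y h) 0 (cnt U x y) else 0) =
    if h : x ≤ y then nlev T (Ch.pr x y h) 0 (z x y) else 0
  rw [dif_pos hp.1, dif_pos hp.1, nlev, nlev]
  congr 1
  symm
  refine card_bij (fun k _ => nlev U (Ch.pr x y hp.1) 0 k) (fun k hk => ?_)
    (fun k hk k' hk' e => ?_) fun j hj => ?_
  · obtain ⟨q, a, b, rfl⟩ := (mem_filter.1 hk).2
    obtain ⟨p, k⟩ := hU.exists_pr hm (hT a)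
    have := p.2.2
    rw [k.2.1, k.2.2, b, Ch.top_pr, Ch.bot_pr] at this
    exact mem_filter.2 ⟨mem_Ico.2 this, p, ⟨q, a, k⟩, k.2.1.trans b, b ▸ k.2.2⟩
  · obtain ⟨q, a, b, rfl⟩ := (mem_filter.1 hk).2
    obtain ⟨q', a', b', rfl⟩ := (mem_filter.1 hk').2
    rcases lt_trichotomy q.1.2 q'.1.2 with l | l | l
    · exact absurd e (nlev_lt _ q.2.2.1 l ⟨q, hT a, b, rfl⟩).ne
    · exact l
    · exact absurd e (nlev_lt _ q'.2.2.1 l ⟨q', hT a', b', rfl⟩).ne'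
  · obtain ⟨p, ⟨q, a, k⟩, b, rfl⟩ := (mem_filter.1 hj).2
    have e := k.2.1.symm.trans b
    have := q.2.2
    rw [e, Ch.top_pr, Ch.bot_pr] at this
    exact ⟨q.1.2, mem_filter.2 ⟨mem_Ico.2 this, q, a, e, rfl⟩, e ▸ k.2.2.symm⟩

theorem spn_sub (hT : Sat T) (k : T ⊆ U) : Spn A (cnt U) (cnt T) :=
  (Spn.part (sat_prI hU hm hT)).congr (cnt_prI hU hm k).symm

/-- the components of a subsystem -/
theorem cmp_sub' (hN : Nice A) {D' : Set (Lv A (cnt U))} (h : IsCmp (LA A (cnt U)) D') :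
    ∃ D, IsCmp (LA A z) D ∧ EqD A (cnt (dn D')) (cnt (dn D)) := by
  have L := hU.lr hm
  obtain ⟨p, hp, rfl⟩ := h
  obtain ⟨q, k⟩ := hU.exists_pr' hm p
  have hq := (L.la k).2 hp
  have hD := isCmp_cmp hq
  have sub : dn (Hp13.cmp (LA A z) q) ⊆ U := fun a ⟨b, b1, b2⟩ =>
    (hU a b b2).2 ((hU.rch k.1 b1.2).mem ⟨hq, k.1⟩).2
  refine ⟨_, hD, EqD.trans (fun x y j => cnt_congr j.1 fun r _ => ?_) (cnt_prI hU hm sub)⟩
  obtain ⟨r', r1, r2⟩ := Lv.exists_la mono_cnt r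
  obtain ⟨t, kt⟩ := hU.exists_pr' hm r'
  rw [sat_cmp hN mono_cnt (isCmp_cmp hp) r r' r2, sat_prI hU hm (sat_cmp hN hm hD) r r' r2,
    mem_prI hU hm kt, mem_dn (fun _ i _ j => (isCmp_cmp hp).clopen i j) r1,
    mem_dn (fun _ i _ j => hD.clopen i j) ((L.la kt).2 r1)]
  exact and_congr (L.la kt).symm (hU.rch_iff hm k kt).symm

end

theorem chi_dn (hN : Nice A) (hm : Mono A z) {D : Set (Lv A z)} (hD : IsCmp (LA A z) D) :
    chi A (cnt (dn D)) = chiC D := by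
  rw [(sat_cmp hN hm hD).chi hm, show LA A z ∩ dn D = D from Set.ext fun p =>
    ⟨fun k => (mem_dn (fun _ i _ j => hD.clopen i j) k.1).1 k.2,
      fun k => ⟨hD.sub k, p, k, Or.inl rfl⟩⟩]

theorem DS.chi_nonneg (h : DS A z) : 0 ≤ chi A z := by
  rw [chi_eq_chiC h.sf.mono, chiC_cs subset_rfl]
  refine sum_nonneg fun D hD => ?_
  rw [Set.inter_eq_left.2 (Sf30.mem_cs.1 hD).sub, h.disc D (Sf30.mem_cs.1 hD)]
  exact zero_le_one

theorem br_sub (hU : Sat U) (hm : Mono A z) (hj : JO A z) (h : BR A z) : BR A (cnt U) := by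
  intro o ho y hy l k
  have le := fun y (hy : y ∈ Om A) (l : o ≤ y) => cnt_le (T := U) hm (dp_om hy l)
  have c := h o ho y hy l (k.trans_le (le y hy l))
  rwa [show {y | y ∈ Om A ∧ o ≤ y ∧ 0 < cnt U o y} = {y | y ∈ Om A ∧ o ≤ y ∧ 0 < z o y} from
    Set.ext fun v => ⟨fun j => ⟨j.1, j.2.1, j.2.2.trans_le (le v j.1 j.2.1)⟩, fun j =>
      ⟨j.1, j.2.1, (c.conn y ⟨hy, l, k.trans_le (le y hy l)⟩ v j).ind (p := fun t => 0 < cnt U o t)
        k fun a ha b hb l' => ?_⟩⟩]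
  obtain ⟨-, e, he, i⟩ := id hb.1
  have t := tri_hi he ha.2.1 l' i
  have := t.add (hU.coc hm)
  have := t.add hz.coc
  have := cnt_nonneg (T := U) a b
  have := cnt_le (T := U) hm t.d23
  have := hj o b hb.1 hb.2.1
  have := ha.2.2
  omega

/-- drop one disc of a null-cohomologous part -/
theorem drop1 (hM : Mf 3 A) (hN : Nice A) (hB : Bnd ℤ A) (h : DS A z)
    (h0 : idx A z = 0) (hj : JO A z) (hb : BR A z) {K : Set (Lv A z)}
    (hK : ∀ p q, p ∉ LA A z → q ∉ LA A z → p ≤ q → (p ∈ K ↔ q ∈ K)) {q₀ : Lv A z}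
    (h1 : q₀ ∉ LA A z) (h2 : q₀ ∈ K) {g : P → ℤ}
    (hg : ∀ x y, Dp A x y → x ∉ A → y ∉ A → cnt K x y = g y - g x) :
    ∃ (w : P → P → ℤ) (_ : IsCoc A w), DS A w ∧ idx A w = 0 ∧ JO A w ∧ BR A w ∧
      chi A w < chi A z := by
  have hm := h.sf.mono
  let C := {p | p ∈ LA A z ∧ ∃ q ∈ K, q ∈ Bd (Hp13.cmp (LA A z) p)}
  have cl : ∀ p ∈ C, ∀ q ∈ LA A z, Cm p q → q ∈ C := fun p hp q hq l =>
    ⟨hq, cmp_eq (Rch.of_cm hp.1 hq l) ▸ hp.2⟩
  have sC : Sat (dn C) := hN.sat hm (fun _ k => k.1) cl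
  have eK : ∀ q, q ∉ LA A z → (q ∈ dn C ↔ q ∈ K) := fun q hq => by
    refine ⟨fun ⟨p, ⟨p1, r, r1, r2⟩, l⟩ => ?_, fun k => ?_⟩
    · have hD := isCmp_cmp p1
      exact (conn_bd hM hm hD (h.disc _ hD) r r2 q ⟨hq, p, mem_cmp_self p1, l⟩).ind
        (p := (· ∈ K)) r1 fun a ha b hb => hK a b ha.1 hb.1
    · obtain ⟨p, p1, p2⟩ := Lv.exists_la hm q
      exact ⟨p, ⟨p1, q, k, hq, p, mem_cmp_self p1, p2⟩, p2⟩
  obtain ⟨g', -, e⟩ := Alg36.Bnd.eqD_cb hB (sC.coc hm) (g := g) fun x y hp hx hy =>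
    (cnt_congr hp.1 fun q k => eK q (by simp [mem_la, k, hx, hy])).trans (hg x y hp hx hy)
  obtain ⟨p, p1, p2⟩ := Lv.exists_la hm q₀
  have hD := isCmp_cmp p1
  set D := Hp13.cmp (LA A z) p
  have sD := sat_cmp hN hm hD
  have hU := sD.compl
  have : IsCoc A (cnt (dn D)ᶜ) := ⟨hU.coc hm⟩
  have all : ∀ T, Sat T → p ∈ T → dn D ⊆ T := fun T hT k a ⟨b, b1, b2⟩ =>
    (hT a b b2).2 ((hT.rch k b1.2).mem ⟨p1, k⟩).2
  have out : ∀ T, Sat T → Spn A (cnt (dn D)ᶜ) (cnt (T \ dn D)) := fun T hT =>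
    spn_sub hU hm (sat_inter hT hU) fun _ k => k.2
  have sp : Spn A (cnt (dn D)ᶜ) (cnt (dn D)) := by
    have := cnt_split (dn C) (dn D)
    rw [Set.inter_eq_right.2 (all _ sC ((sC q₀ p p2).1 ((eK q₀ h1).2 h2)))] at this
    exact ((Spn.cb g').add (out _ sC).neg).congr fun x y j => by
      have := congrFun₂ this x y
      have := e x y j
      simp only [Pi.add_apply, Pi.neg_apply] at *
      omega
  refine ⟨_, this, ⟨hU.sf hm (by simp [Hp13.noCl_iff.1 h.sf.noCl]), fun D' k => ?_, fun u hu => ?_⟩,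
    sum_eq_zero fun D' k => ?_, fun x y hy l => (cnt_le hm (dp_om hy l)).trans (hj x y hy l),
    br_sub hU hm hj hb, ?_⟩
  · obtain ⟨E, k1, k2⟩ := cmp_sub' hU hm hN k
    rw [← chi_dn hN mono_cnt k, chi_congr k2, chi_dn hN hm k1, h.disc E k1]
  · have sp' := h.span u hu
    clear hu
    induction sp' with
    | @part T hT =>
      rw [cnt_split T (dn D)]
      refine Spn.add ?_ (out T hT)
      by_cases k : p ∈ T
      · rwa [Set.inter_eq_right.2 (all T hT k)]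
      · rw [show T ∩ dn D = ∅ from Set.eq_empty_of_forall_notMem fun a j =>
          all _ hT.compl k j.2 j.1, cnt_empty]
        exact spn_zero
    | cb g => exact .cb g
    | add _ _ i j => exact i.add j
    | neg _ i => exact i.neg
    | congr _ e i => exact i.congr e
  · obtain ⟨E, k1, k2⟩ := cmp_sub' hU hm hN (Sf30.mem_cs.1 k)
    have := nm_le h0 k1
    rw [nm_congr k2]
    omega
  · have := chi_congr (cnt_add_compl (T := dn D) hm)
    rw [chi_add, chi_dn hN hm hD, h.disc D hD] at this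
    omega

theorem cnt_zero {x y : P} (hm : Mono A z) (hp : Dp A x y) (e : z x y = 0) : cnt T x y = 0 :=
  le_antisymm (e ▸ cnt_le hm hp) (cnt_nonneg x y)

/-- the boundary cells around a source or a sink -/
def Nul (A : Set P) (z : P → P → ℤ) [IsCoc A z] : Prop := ∃ K : Set (Lv A z),
  (∀ p q, p ∉ LA A z → q ∉ LA A z → p ≤ q → (p ∈ K ↔ q ∈ K)) ∧ (∃ q, q ∉ LA A z ∧ q ∈ K) ∧
    ∃ g : P → ℤ, ∀ x y, Dp A x y → x ∉ A → y ∉ A → cnt K x y = g y - g x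

theorem nul_src (hA : A.OrdConnected) (hm : Mono A z) (hn : NC A (Rp A)) (h : ¬ CP A z) :
    Nul A z := by
  let V := {o | o ∈ Op A ∧ ¬ RP A z o}
  have dn : ∀ {x o}, o ∈ V → Dp A x o → x ∉ A → x ∈ V ∧ z x o = 0 := fun {x o} ho hp hx => by
    obtain ⟨l, a, ha, c1, c2⟩ := id hp
    have k : x ∈ Op A := ⟨hx, a, ha, c1.resolve_right fun j => ho.2 (.sut hx ha j
      (c2.resolve_right fun i => Alg36.om_op hA ⟨ho.1.1, a, ha, i⟩ ho.1))⟩
    have e := le_antisymm (not_lt.1 fun j => ho.2 (.low k l j)) (hm _ _ hp)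
    exact ⟨⟨k, fun j => ho.2 (.dn k l e j)⟩, e⟩
  have up : ∀ {o p}, o ∈ V → o ≤ p → z o p = 0 → p ∈ V := fun ho l e =>
    ⟨op_up hA ho.1 l, fun j => ho.2 (.up l e j)⟩
  have pos : ∀ {o p}, o ∈ V → o ≤ p → p ∉ V → 0 < z o p := fun ho l k =>
    lt_of_le_of_ne (hm _ _ (dp_op ho.1 l)) fun e => k (up ho l e.symm)
  refine ⟨{q | q.1.1.bot ∈ V ∧ q.1.2 = 0}, fun p q _ hq l => ?_, ?_, -ind V, fun x y hp hx hy => ?_⟩
  · obtain ⟨l, e⟩ := Lv.le_iff.1 l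
    have d := q.2.1.dp q.1.1.bot_mem (l p.1.1.bot_mem) (Ch.bot_anti l)
    have := hm _ _ d
    have := p.2.2.1
    exact ⟨fun k => have := dn k.1 d (off_bt hq).1; ⟨this.1, by have := k.2; omega⟩,
      fun k => have := k.2; ⟨up k.1 d.1 (by omega), by omega⟩⟩
  · simp only [CP, not_forall] at h
    obtain ⟨o, ho, h⟩ := h
    obtain ⟨x, a, y, r, su⟩ := op_su hA hn ho
    by_contra k
    refine (r.ind (p := (· ∈ V)) ⟨ho, h⟩ fun u hu v hv l =>
      ⟨fun j => by_contra fun i => k ⟨ec (dp_op hu l) le_rfl (pos j l i),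
        by simp [mem_la, hu.1, hv.1], by simpa using j, rfl⟩,
        fun j => (dn j (dp_op hu l) hu.1).1⟩).2 (.sut su.1 su.2.1 su.2.2.2.1 su.2.2.2.2)
  · simp only [Pi.neg_apply]
    by_cases a : x ∈ V
    · by_cases b : y ∈ V
      · rw [cnt_zero hm hp (dn b hp hx).2, ind_of_mem a, ind_of_mem b]; rfl
      · rw [cnt_one (T := {q | q.1.1.bot ∈ V ∧ q.1.2 = 0}) hp (pos a hp.1 b)
          ⟨by simpa using a, rfl⟩ fun _ j _ => j.2, ind_of_mem a, ind_of_not b]; rfl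
    · rw [ind_of_not a, ind_of_not fun b => a (dn b hp hx).1]
      by_contra k
      obtain ⟨q, q1, q2⟩ := cnt_ne hp.1 k
      exact a (by simpa [q2] using q1.1)

theorem nul_snk (hA : A.OrdConnected) (hm : Mono A z) (hj : JO A z) (hn : NC A (Rm A))
    (h : ¬ CM A z) : Nul A z := by
  let V := {o | o ∈ Om A ∧ ¬ RM A z o}
  have up : ∀ {o x}, o ∈ V → Dp A o x → x ∉ A → x ∈ V ∧ z o x = 0 := fun {o x} ho hp hx => by
    obtain ⟨l, a, ha, c1, c2⟩ := id hp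
    have k : x ∈ Om A := ⟨hx, a, ha, c2.resolve_left fun j => ho.2 (.sut hx ha j
      (c1.resolve_left fun i => Alg36.om_op hA ho.1 ⟨ho.1.1, a, ha, i⟩))⟩
    have e := le_antisymm (not_lt.1 fun j => ho.2 (.hi k l j)) (hm _ _ hp)
    exact ⟨⟨k, fun j => ho.2 (.up k l e j)⟩, e⟩
  have dn : ∀ {o p}, o ∈ V → p ≤ o → z p o = 0 → p ∈ V := fun ho l e =>
    ⟨om_dn hA ho.1 l, fun j => ho.2 (.dn l e j)⟩
  have pos : ∀ {o p}, o ∈ V → p ≤ o → p ∉ V → 0 < z p o := fun ho l k =>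
    lt_of_le_of_ne (hm _ _ (dp_om ho.1 l)) fun e => k (dn ho l e.symm)
  refine ⟨{q | q.1.1.top ∈ V}, fun p q _ hq l => ?_, ?_, ind V, fun x y hp hx hy => ?_⟩
  · have l := Lv.ch_le l
    have d := q.2.1.dp (l p.1.1.top_mem) q.1.1.top_mem (Ch.top_mono l)
    refine ⟨fun k => (up k d (off_bt hq).2).1, fun k => dn k d.1 ?_⟩
    have := hm _ _ d
    have := hz.coc.add' q.2.1 (l p.1.1.bot_mem) (l p.1.1.top_mem) q.1.1.top_mem p.1.1.bot_le_top d.1
    have := hj _ _ k.1 (p.1.1.bot_le_top.trans d.1)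
    have := lv_pos' p
    omega
  · simp only [CM, not_forall] at h
    obtain ⟨o, ho, h⟩ := h
    obtain ⟨x, a, y, r, su⟩ := om_su hA hn ho
    by_contra k
    refine (r.ind (p := (· ∈ V)) ⟨ho, h⟩ fun u hu v hv l =>
      ⟨fun j => (up j (dp_om hv l) hv.1).1,
        fun j => by_contra fun i => k ⟨ec (dp_om hv l) le_rfl (pos j l i),
          by simp [mem_la, hu.1, hv.1], by simpa using j⟩⟩).2
      (.sut su.2.2.1 su.2.1 su.2.2.2.2 su.2.2.2.1)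
  · by_cases b : y ∈ V
    · by_cases a : x ∈ V
      · rw [cnt_zero hm hp (up a hp hy).2, ind_of_mem a, ind_of_mem b]; rfl
      · rw [cnt_one hp (pos b hp.1 a) (by simpa using b) fun q _ e => ?_, ind_of_mem b,
          ind_of_not a]
        · rfl
        have := q.2.2
        have := hj x y b.1 hp.1
        simp only [e, Ch.top_pr, Ch.bot_pr] at *
        omega
    · rw [ind_of_not b, ind_of_not fun a => b (up a hp hy).1]
      by_contra k
      obtain ⟨q, q1, q2⟩ := cnt_ne hp.1 k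
      exact b (by simpa [q2] using q1)

end

theorem dropStmt : DropStmt := fun s z hz hs h h0 hj hb => by
  obtain ⟨n, hn⟩ : ∃ n : ℕ, chi s.A z < n :=
    ⟨(chi s.A z).toNat + 1, by have := Int.self_le_toNat (chi s.A z); omega⟩
  induction n generalizing z hz with
  | zero => exact absurd h.chi_nonneg (by omega)
  | succ n ih =>
  by_cases k : CP s.A z ∧ CM s.A z
  · exact ⟨z, hz, h, h0, hj, hb, k.1, k.2⟩
  obtain ⟨K, k1, ⟨q, k2, k3⟩, g, k4⟩ : Nul s.A z := (not_and_or.1 k).elim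
    (nul_src hs.conv h.sf.mono hs.sfp.nc) (nul_snk hs.conv h.sf.mono hj hs.sfm.nc)
  obtain ⟨w, hw, a1, a2, a3, a4, a5⟩ := drop1 hs.mf hs.nice hs.bnd h h0 hj hb k1 k2 k3 k4
  exact ih w hw a1 a2 a3 a4 (by omega)

/-- BASE from the three transfer statements -/
theorem base_of' (hR : RegStmt) (hI : IsoStmt) (hT : TrStmt) {s : St} (h : Stt s) (h0 : HB s 0) :
    ∃ (t : St) (f : t.P → s.P) (z : t.P → t.P → ℤ) (s' : St) (π : s'.P → t.P),
      Desc s t f ∧ Adm t z ∧ Cov t s' z π ∧ End s' :=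
  base_of hR hI hT phiStmt countStmt dropStmt h h0

end Crest.Agent.X212.Ind26
end
end

-- ▼ part X212/Iso33/Main
section

/-!
# X212 / Iso33 (helper33): disc systems under isotopies (ISO) and in a class (TRANSFER)
-/

set_option autoImplicit false
set_option linter.unusedSectionVars false

open Finset Classical

noncomputable section

namespace Crest.Agent.X212.Iso33

open Hp13 Cut21 Ind26
open Alg36 (Om Op)
open Sf30 (cs mem_cs)

variable {P Q : Type} [PartialOrder P] [Fintype P] [PartialOrder Q] [Fintype Q] {A : Set P}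
  {B : Set Q} {z u : P → P → ℤ} {w : Q → Q → ℤ} {f : Q → P}

theorem cnt_empty : cnt (∅ : Set (Lv A z)) = 0 := by
  ext x y
  simp [cnt, nlev, lev]

theorem cnt_union {T T' : Set (Lv A z)} (h : Disjoint T T') : cnt (T ∪ T') = cnt T + cnt T' := by
  ext x y
  simp only [cnt, Pi.add_apply]
  split_ifs with l
  · rw [nlev, nlev, nlev, ← Nat.cast_add, ← card_union_of_disjoint (disjoint_left.2 fun k a b => by
      obtain ⟨q, q1, q2, q3⟩ := (mem_filter.1 a).2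
      obtain ⟨r, r1, r2, r3⟩ := (mem_filter.1 b).2
      exact Set.disjoint_left.1 h q1 (Lv.ext (r2.trans q2.symm) (r3.trans q3.symm) ▸ r1)),
      ← filter_or]
    congr 2
    exact filter_congr fun k _ => ⟨fun ⟨q, a, b⟩ => a.imp (⟨q, ·, b⟩) (⟨q, ·, b⟩),
      fun a => a.elim (fun ⟨q, a, b⟩ => ⟨q, Or.inl a, b⟩) fun ⟨q, a, b⟩ => ⟨q, Or.inr a, b⟩⟩
  · rfl

/-- two sets of cells with the same levels on an edge -/
theorem cnt_eq {T : Set (Lv A z)} {T' : Set (Lv B w)} {x y : P} {x' y' : Q} (l : x ≤ y)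
    (l' : x' ≤ y') (e : w x' y' = z x y)
    (h : ∀ k, 0 ≤ k → k < z x y → (lev T' (Ch.pr x' y' l') k ↔ lev T (Ch.pr x y l) k)) :
    cnt T' x' y' = cnt T x y := by
  rw [cnt, cnt, dif_pos l, dif_pos l', e, nlev, nlev,
    filter_congr fun k a => h k (mem_Ico.1 a).1 (mem_Ico.1 a).2]

theorem Sat.diff {T T' : Set (Lv A z)} (h : Sat T) (h' : Sat T') : Sat (T \ T') :=
  fun p q l => and_congr (h p q l) (not_congr (h' p q l))

variable [IsCoc A z] [IsCoc A u] [IsCoc B w]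

theorem dn_sub {T D : Set (Lv A z)} (h : Sat T) (hD : IsCmp (LA A z) D) {p : Lv A z} (a : p ∈ D)
    (b : p ∈ T) : dn D ⊆ T := fun q ⟨r, r1, r2⟩ =>
  (h q r r2).2 ((hD.conn p a r r1).ind b fun x _ y _ l => h x y l)

theorem ex_cmp (hm : Mono A z) (q : Lv A z) : ∃ D, IsCmp (LA A z) D ∧ q ∈ dn D :=
  let ⟨p, a, b⟩ := Lv.exists_la hm q; ⟨_, isCmp_cmp a, p, mem_cmp_self a, b⟩

theorem cmp_uniq (hN : Nice A) (hm : Mono A z) {D E : Set (Lv A z)} (hD : IsCmp (LA A z) D)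
    (hE : IsCmp (LA A z) E) {q : Lv A z} (a : q ∈ dn D) (b : q ∈ dn E) : D = E :=
  let ⟨_, p1, p2⟩ := a
  let ⟨_, r1, r2⟩ := b
  (hD.eq p1).trans ((cmp_eq (hN.rch hm (hD.sub p1) (hE.sub r1) p2 r2)).trans (hE.eq r1).symm)

/-- induction over the components of a saturated set -/
theorem sat_ind (hN : Nice A) (hm : Mono A z) {S : (P → P → ℤ) → Prop} (h0 : S 0)
    (ha : ∀ u v, S u → S v → S (u + v)) {T : Set (Lv A z)} (hT : Sat T)
    (h : ∀ D, IsCmp (LA A z) D → dn D ⊆ T → S (cnt (dn D))) : S (cnt T) := by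
  induction hn : T.ncard using Nat.strong_induction_on generalizing T with
  | _ n ih =>
  rcases T.eq_empty_or_nonempty with rfl | ⟨q, hq⟩
  · exact cnt_empty (A := A) (z := z) ▸ h0
  obtain ⟨D, hD, p, p1, p2⟩ := ex_cmp hm q
  have s := dn_sub hT hD p1 ((hT q p p2).1 hq)
  rw [← Set.union_sdiff_cancel s, cnt_union Set.disjoint_sdiff_right]
  exact ha _ _ (h D hD s) (ih _ (hn ▸ Set.ncard_lt_ncard
    ⟨Set.sdiff_subset, fun k => (k hq).2 ⟨p, p1, p2⟩⟩) (Sat.diff hT (sat_cmp hN hm hD))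
    (fun E a b => h E a (b.trans Set.sdiff_subset)) rfl)

theorem chi_cs (hm : Mono A z) : chi A z = ∑ D ∈ cs (LA A z), chiC D :=
  (chi_eq_chiC hm).trans (Sf30.sum_cs _ fun p : Lv A z => p.1.1.sg).symm

theorem spn_zero : Spn A z 0 := cb_zero (P := P) (G := ℤ) ▸ Spn.cb 0

theorem spn_pb (hN : Nice A) (hm : Mono A z) (hf : Monotone f) (e : B = f ⁻¹' A)
    (h : ∀ D, IsCmp (LA A z) D → Spn B w (pb f (cnt (dn D)))) {v : P → P → ℤ} (k : Spn A z v) :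
    Spn B w (pb f v) := by
  induction k with
  | part a =>
    exact sat_ind hN hm (S := fun v => Spn B w (pb f v)) spn_zero (fun _ _ a b => a.add b) a
      fun D a _ => h D a
  | cb g => exact Spn.cb (g ∘ f)
  | add _ _ a b => exact a.add b
  | neg _ a => exact a.neg
  | congr _ a b => exact b.congr (e ▸ a.pb hf)

/-- a bijection of the components -/
theorem ds_of (hN : Nice A) (hN' : Nice B) (hz : DS A z) (hw : Sf B w) (hf : Monotone f)
    (e : B = f ⁻¹' A) (on : ∀ v : Q → Q → ℤ, Coc B v → ∃ u g, Coc A u ∧ EqD B v (pb f u + cb g))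
    (φ : Set (Lv A z) → Set (Lv B w)) (h1 : ∀ D, IsCmp (LA A z) D → IsCmp (LA B w) (φ D))
    (h2 : ∀ D, IsCmp (LA A z) D → ∀ D', IsCmp (LA A z) D' → φ D = φ D' → D = D')
    (h3 : ∀ E, IsCmp (LA B w) E → ∃ D, IsCmp (LA A z) D ∧ φ D = E)
    (h4 : ∀ D, IsCmp (LA A z) D → chiC (φ D) = 1 ∧ nm B (cnt (dn (φ D))) = nm A (cnt (dn D)) ∧
      ∃ g, EqD B (cnt (dn (φ D))) (pb f (cnt (dn D)) + cb g)) : DS B w ∧ idx B w = idx A z := by
  refine ⟨⟨hw, fun E a => ?_, fun v a => ?_⟩, (sum_bij (fun D _ => φ D)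
    (fun D a => mem_cs.2 (h1 D (mem_cs.1 a))) (fun D a D' b => h2 D (mem_cs.1 a) D' (mem_cs.1 b))
    (fun E a => let ⟨D, b, c⟩ := h3 E (mem_cs.1 a); ⟨D, mem_cs.2 b, c⟩)
    fun D a => by rw [(h4 D (mem_cs.1 a)).2.1]).symm⟩
  · obtain ⟨D, b, rfl⟩ := h3 E a
    exact (h4 D b).1
  · obtain ⟨u, g, b, c⟩ := on v a
    refine ((spn_pb hN hz.sf.mono hf e (fun D d => ?_) (hz.span u b)).add (Spn.cb g)).congr c
    obtain ⟨g, k⟩ := (h4 D d).2.2
    exact ((Spn.part (sat_cmp hN' hw.mono (h1 D d))).add (Spn.cb g).neg).congr fun x y j => by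
      rw [Pi.add_apply, Pi.add_apply, k x y j]; simp

theorem chiC_cmp (hN : Nice A) (hm : Mono A z) {D : Set (Lv A z)} (hD : IsCmp (LA A z) D) :
    chi A (cnt (dn D)) = chiC D := by
  rw [(sat_cmp hN hm hD).chi hm]
  congr 1
  exact Set.ext fun q => ⟨fun k => (mem_dn (fun _ a _ b => hD.clopen a b) k.1).1 k.2,
    fun k => ⟨hD.sub k, q, k, le_refl q⟩⟩

theorem iso0 (hN : Nice A) (hN' : Nice B) (hz : DS A z) (hw : Sf B w) (hf : Monotone f)
    (e : B = f ⁻¹' A) (on : ∀ v : Q → Q → ℤ, Coc B v → ∃ u g, Coc A u ∧ EqD B v (pb f u + cb g))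
    {m : Lv B w → Lv A z} (h : Iso f A z B w m) : DS B w ∧ idx B w = idx A z := by
  have c : ∀ p ∈ LA B w, cmp (LA B w) p = {r | r ∈ LA B w ∧ m r ∈ cmp (LA A z) (m p)} :=
    fun p a => Set.ext fun r => and_congr_right fun b => ⟨fun k => ⟨h.la r b, k.map fun x i y j l =>
      Rch.of_cm (h.la x i) (h.la y j) (Or.inl (h.mono l))⟩, fun k => h.rch p a r b k.2⟩
  have ex : ∀ D, IsCmp (LA A z) D → ∃ p ∈ LA B w, D = cmp (LA A z) (m p) := fun D ⟨q, a, b⟩ =>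
    let ⟨p, p1, p2⟩ := h.surj q a; ⟨p, p1, b.trans (cmp_eq p2).symm⟩
  have h1 : ∀ D, IsCmp (LA A z) D → IsCmp (LA B w) {r | r ∈ LA B w ∧ m r ∈ D} := fun D a =>
    let ⟨p, p1, p2⟩ := ex D a; ⟨p, p1, p2 ▸ (c p p1).symm⟩
  refine ds_of hN hN' hz hw hf e on _ h1 (fun D a D' b k => ?_)
    (fun E ⟨p, a, b⟩ => ⟨_, isCmp_cmp (h.la p a), (c p a).symm.trans b.symm⟩) fun D a => ?_
  · obtain ⟨p, p1, p2⟩ := (h1 D a).ne
    exact (a.eq p2).trans (b.eq (k.subset ⟨p1, p2⟩).2).symm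
  have s := sat_cmp hN hz.sf.mono a
  have d : dn {r | r ∈ LA B w ∧ m r ∈ D} = m ⁻¹' dn D := Set.ext fun r =>
    ⟨fun ⟨p, p1, p2⟩ => ⟨m p, p1.2, h.mono p2⟩, fun k =>
      let ⟨p, p1, p2⟩ := Lv.exists_la hw.mono r
      ⟨p, ⟨p1, (mem_dn (fun _ i _ j => a.clopen i j) (h.la p p1)).1 ((s _ _ (h.mono p2)).1 k)⟩, p2⟩⟩
  refine ⟨?_, d ▸ h.nm _ s, let ⟨g, _, k⟩ := h.coh _ s; ⟨g, d ▸ k⟩⟩
  rw [← chiC_cmp hN' hw.mono (h1 D a), d, h.chi _ s, chiC_cmp hN hz.sf.mono a, hz.disc D a]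

/-- **ISO** -/
theorem isoStmt : IsoStmt := fun _ _ _ _ _ _ _ _ hs hd hz hw h =>
  iso0 hs.nice (Alg36.Good.desc hs hd).nice hz hw hd.mono hd.A_eq
    (fun _ => Alg36.Nice.exists_pb_desc hs.conv hs.nice hd) h

section same

variable {v : P → P → ℤ} [IsCoc A v]

theorem bd_ex (h : Eqv A u v) {q : Lv A u} (hq : q ∉ LA A u) : ∃ r : Lv A v, r.1 = q.1 :=
  ⟨⟨q.1, q.2.1, q.2.2.1, h.off q.2.1.bt (off_bt hq).1 (off_bt hq).2 ▸ q.2.2.2⟩, rfl⟩

theorem bd_le (h : Eqv A u v) {q q' : Lv A u} {r r' : Lv A v} (e : r.1 = q.1) (e' : r'.1 = q'.1)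
    (hq : q' ∉ LA A u) (l : q ≤ q') : r ≤ r' := by
  obtain ⟨a, b⟩ := Lv.le_iff.1 l
  rw [Lv.le_iff, e, e', ← h.off (q'.2.1.dp q'.1.1.bot_mem (a q.1.1.bot_mem) (Ch.bot_anti a))
    (off_bt hq).1 fun k => hq ⟨_, a q.1.1.bot_mem, k⟩]
  exact ⟨a, b⟩

theorem tr0 (hA : A.OrdConnected) (hM : Mf 3 A) (hN : Nice A) (hB : Bnd ℤ A) (hu : DS A u)
    (hv : Sf A v) (he : Eqv A u v) (hc : chi A u ≤ chi A v) : DS A v ∧ idx A v = idx A u := by
  have ex : ∀ D, IsCmp (LA A u) D → ∃ E, IsCmp (LA A v) E ∧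
      ∀ q ∈ Bd D, ∀ r : Lv A v, r.1 = q.1 → r ∈ dn E := fun D a => by
    obtain ⟨p, p1, q, q1, q2⟩ := hu.sf.noCl D a
    obtain ⟨r, r1⟩ := bd_ex he q1
    obtain ⟨E, b, c⟩ := ex_cmp hv.mono r
    refine ⟨E, b, fun q' k => (conn_bd hM hu.sf.mono a (hu.disc D a) q ⟨q1, p, p1, q2⟩ q' k).ind
      (p := fun q => ∀ r : Lv A v, r.1 = q.1 → r ∈ dn E)
      (fun r' j => Subtype.ext (r1.trans j.symm) ▸ c) fun x i y j l => ?_⟩
    obtain ⟨x', x1⟩ := bd_ex he i.1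
    obtain ⟨y', y1⟩ := bd_ex he j.1
    have := sat_cmp hN hv.mono b x' y' (bd_le he x1 y1 j.1 l)
    exact ⟨fun H r' o => Subtype.ext (y1.trans o.symm) ▸ this.1 (H _ x1),
      fun H r' o => Subtype.ext (x1.trans o.symm) ▸ this.2 (H _ y1)⟩
  choose! φ h1 h2 using ex
  have h3 : ∀ E, IsCmp (LA A v) E → ∃ D, IsCmp (LA A u) D ∧ φ D = E := fun E a => by
    obtain ⟨p, p1, r, r1, r2⟩ := hv.noCl E a
    obtain ⟨q, q1⟩ := bd_ex he.symm r1
    obtain ⟨D, b, c⟩ := ex_cmp hu.sf.mono q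
    exact ⟨D, b, cmp_uniq hN hv.mono (h1 D b) a (h2 D b q ⟨fun k => r1 (show Mt A r.1.1 from
      q1 ▸ k), c⟩ r q1.symm) ⟨p, p1, r2⟩⟩
  have im : cs (LA A v) = (cs (LA A u)).image φ := Finset.ext fun E => by
    simp only [mem_image, mem_cs]
    exact ⟨h3 E, fun ⟨D, a, b⟩ => b ▸ h1 D a⟩
  have le : ∀ E ∈ cs (LA A v), 0 ≤ 1 - chiC E := fun E a =>
    sub_nonneg.2 (cmp_le_one hM hv.mono (mem_cs.1 a) (hv.noCl E (mem_cs.1 a)))
  have c1 := sum_nonneg le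
  have c2 := card_image_le (s := cs (LA A u)) (f := φ)
  rw [chi_cs hu.sf.mono, chi_cs hv.mono, sum_congr rfl fun D a => hu.disc D (mem_cs.1 a)] at hc
  have c3 : ∑ E ∈ cs (LA A v), (1 - chiC E) = (cs (LA A v)).card - ∑ E ∈ cs (LA A v), chiC E := by
    simp
  rw [sum_const, nsmul_eq_mul, mul_one] at hc
  rw [← im] at c2
  have inj := card_image_iff.1 (show ((cs (LA A u)).image φ).card = _ by rw [← im]; omega)
  have h4 : ∀ D, IsCmp (LA A u) D → ∀ D', IsCmp (LA A u) D' → φ D = φ D' → D = D' :=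
    fun D a D' b => inj (mem_coe.2 (mem_cs.2 a)) (mem_coe.2 (mem_cs.2 b))
  refine ds_of (f := id) hN hN hu hv monotone_id rfl (fun v a => ⟨v, 0, a, fun _ _ _ => by
    simp [cb, pb]⟩) φ h1 h4 h3 fun D a => ?_
  have k : ∀ x y, Dp A x y → x ∉ A → y ∉ A → cnt (dn D) x y = cnt (dn (φ D)) x y :=
    fun x y hp hx hy => cnt_eq hp.1 hp.1 (he.off hp hx hy) fun k k0 k1 => by
      have n : ¬ Mt A (Ch.pr x y hp.1) := not_mt.2 fun t i => (mem_pr.1 i).elim (· ▸ hx) (· ▸ hy)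
      refine ⟨fun ⟨q, q1, q2, q3⟩ => ?_, fun ⟨r, r1, r2, r3⟩ => ?_⟩
      · have q0 : q ∉ LA A u := fun i => n (q2 ▸ i)
        obtain ⟨r, e⟩ := bd_ex he q0
        exact ⟨r, h2 D a q ⟨q0, q1⟩ r e, e ▸ q2, e ▸ q3⟩
      · have r0 : r ∉ LA A v := fun i => n (r2 ▸ i)
        obtain ⟨q, e⟩ := bd_ex he.symm r0
        obtain ⟨D', b, c⟩ := ex_cmp hu.sf.mono q
        exact ⟨q, h4 D' b D a (cmp_uniq hN hv.mono (h1 D' b) (h1 D a) (h2 D' b q
          ⟨fun i => r0 (show Mt A r.1.1 from e ▸ i), c⟩ r e.symm) r1) ▸ c, e ▸ r2, e ▸ r3⟩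
  obtain ⟨g, -, hg⟩ := hB.eqv ((sat_cmp hN hu.sf.mono a).coc hu.sf.mono)
    ((sat_cmp hN hv.mono (h1 D a)).coc hv.mono) k
  refine ⟨(sub_eq_zero.1 ((sum_eq_zero_iff_of_nonneg le).1 (by omega) _ (mem_cs.2 (h1 D a)))).symm,
    sum_congr rfl fun c i => ?_, g, hg⟩
  have i := (mem_filter.1 i).2
  rw [k _ _ (dp_om i c.bot_le_top) (om_dn hA i c.bot_le_top).1 i.1]

end same

theorem nm_desc {s t : St} {f : t.P → s.P} (h : Desc s t f) (z : s.P → s.P → ℤ) :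
    nm t.A (pb f z) = nm s.A z := by
  have o : ∀ x, x ∈ Om t.A ↔ f x ∈ Om s.A := fun x => by
    rw [h.A_eq]
    exact and_congr_right fun _ => ⟨fun ⟨a, b, l⟩ => ⟨_, b, h.mono l⟩, fun ⟨a, b, l⟩ =>
      let ⟨p, i, j⟩ := Sup43.desc_up h l; ⟨p, show f p ∈ s.A from j ▸ b, i⟩⟩
  have := h.acyc.sum h.mono fun e : Ch s.P => if e.top ∈ Om s.A then z e.bot e.top else 0
  simp only [Ch.top_img, Ch.bot_img, mul_ite, mul_zero] at this
  rw [nm, nm, sum_filter, sum_filter]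
  simp only [o]
  exact this

theorem cnt_map (h : Kh11.Rf f A z B w) (T : Set (Lv A z)) :
    EqD B (cnt (h.map ⁻¹' T)) (pb f (cnt T)) := fun x y hp => by
  have e : h.im (Ch.pr x y hp.1) = Ch.pr (f x) (f y) (h.ce.mono hp.1) :=
    Ch.ext (Finset.ext fun t => by simp [Kh11.Rf.im, Ch.mem_img, eq_comm])
  exact cnt_eq (h.ce.mono hp.1) hp.1 (h.eq x y hp) fun k _ _ =>
    ⟨fun ⟨q, q1, q2, q3⟩ => ⟨_, q1, by rw [h.map_ch, q2, e], q3⟩, fun ⟨q, q1, q2, q3⟩ =>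
      ⟨h.lift q _ ((dom_pr hp.1).2 hp) (e.trans q2.symm),
        show h.map _ ∈ T from (h.map_lift _ _ _ _).symm ▸ q1, rfl, q3⟩⟩

/-- a refinement is an isotopy -/
theorem iso_desc {s t : St} {f : t.P → s.P} (h : Desc s t f) {z : s.P → s.P → ℤ} [IsCoc s.A z]
    [IsCoc t.A (pb f z)] (hm : Mono s.A z) : Iso f s.A z t.A (pb f z) (h.rf z).map where
  mono := (h.rf z).map_mono
  la _ := (h.rf z).map_LA.2
  surj _ := ((h.rf z).ws_LA hm).surj
  rch _ a _ b := (((h.rf z).ws_LA hm).rch_iff a b).2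
  chi T _ := (chi_congr (cnt_map _ T)).trans (h.chi _)
  nm T _ := (Reg33.nm_congr (cnt_map _ T)).trans (nm_desc h _)
  coh T _ := ⟨0, fun _ _ => rfl, by rw [cb_zero, add_zero]; exact cnt_map _ T⟩
  dip x y hp hx hy k := by
    rw [h.A_eq] at hp hx hy
    exact ⟨f x, f y, hp.map h.mono, hx, ⟨hy.1, let ⟨_, a, l⟩ := hy.2; ⟨_, a, h.mono l⟩⟩, k⟩

/-- **TRANSFER** -/
theorem trStmt : TrStmt := fun s t f z _ _ _ hs hd hz hw he hc =>
  have ht := Alg36.Good.desc hs hd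
  have : IsCoc t.A (pb f z) := ⟨hd.coc hz.sf.coc⟩
  have a := isoStmt s t f z _ _ hs hd hz (hd.sf hz.sf) (iso_desc hd hz.sf.mono)
  have b := tr0 ht.conv ht.mf ht.nice ht.bnd a.1 hw he (hd.chi z ▸ hc)
  ⟨b.1, b.2.trans a.2⟩

end Crest.Agent.X212.Iso33
end
end

-- ▼ part X212/Cut21/Reg1
section

/-!
# X212 / Cut21 (helper21): refinement that moves the boundary on `R₋` only, the counts
-/

set_option autoImplicit false
set_option linter.unusedSectionVars false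

open Finset Classical

noncomputable section

namespace Crest.Agent.X212.Cut21

open Crest.Agent.X212.Hp13 Crest.Agent.X212.Alg36
open Crest.Agent.X212.Ind26 (nm)

variable {P : Type} [PartialOrder P] [Fintype P] {A : Set P} {z : P → P → ℤ} {δ : Ch P → ℤ}

/-! ### three sums -/

theorem sum_cone {Y : Set P} {o : P} (ho : o ∉ Y) (h : ∀ y ∈ Y, Cm o y) {p : Ch P → Prop}
    [DecidablePred p] (hp : ∀ e, p e ↔ o ∈ e.1 ∧ Mt Y e ∧ ∀ x ∈ e.1, x ∈ insert o Y) :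
    ∑ e ∈ univ.filter p, e.sg = eu Y := by
  have h1 := eu_split (X := insert o Y) (Y := Y) (Set.subset_insert _ _)
    (p := fun e => o ∈ e.1 ∧ ∀ x ∈ e.1, x ∈ insert o Y) fun e =>
      ⟨fun k => ⟨k.2, fun l => ho (l o k.1)⟩, fun k => ⟨by_contra fun n => k.2 fun x hx =>
        (k.1 x hx).resolve_left fun e => n (e ▸ hx), k.1⟩⟩
  rw [eu_cone (Set.mem_insert _ _) (by rintro x (rfl | k); exacts [Cm.rfl, h x k])] at h1
  have m : Ch.pt o ∈ univ.filter fun e : Ch P => o ∈ e.1 ∧ ∀ x ∈ e.1, x ∈ insert o Y := by simp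
  rw [← add_sum_erase _ _ m, Ch.sg_pt] at h1
  refine (sum_congr ?_ fun _ _ => rfl).trans (by linear_combination h1)
  ext e
  simp only [mem_filter, mem_univ, true_and, mem_erase, hp]
  refine ⟨fun k => ⟨fun l => ho (mt_pt.1 (l ▸ k.2.1)), k.1, k.2.2⟩,
    fun k => ⟨k.2.1, by_contra fun n => k.1 (Ch.ext ?_), k.2.2⟩⟩
  exact eq_singleton_iff_unique_mem.2 ⟨k.2.1, fun x hx =>
    (k.2.2 x hx).resolve_right fun l => n ⟨x, hx, l⟩⟩

theorem rho_om (hA : A.OrdConnected) (hM : Mf 3 A) (hN : Nice A) {o : P} (ho : o ∈ Om A) :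
    eps o * ∑ c ∈ univ.filter (fun c : Ch P => c.bot = o), c.sg * iMt A c = 1 := by
  let F : Ch P → ℤ := fun e => if o ∈ e.1 ∧ Mt A e ∧ ∀ x ∈ e.1, x = o ∨ x ∈ A then 1 else 0
  have h1 := Mf.dual_sum hM F fun e he => if_neg fun k => he k.2.1
  have h2 : ∑ e : Ch P, e.sg * F e = 1 := by
    simp only [F, mul_ite, mul_one, mul_zero, ← sum_filter]
    rw [sum_cone (Y := {a | a ∈ A ∧ o ≤ a}) (o := o) (fun k => ho.1 k.1) (fun _ k => Or.inl k.2),
      (Nice.ctr_ge hA hN ho).eu]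
    have k : ∀ e : Ch P, o ∈ e.1 → ∀ x ∈ e.1, x ∈ A → o ≤ x := fun e h1 x h2 h3 =>
      (e.total h1 h2).resolve_right fun l => let ⟨n, _, ha, l'⟩ := ho; n (hA.out h3 ha ⟨l, l'⟩)
    exact fun e => and_congr_right fun h1 => ⟨fun ⟨⟨a, a1, a2⟩, h3⟩ => ⟨⟨a, a1, a2, k e h1 a a1 a2⟩,
      fun x hx => (h3 x hx).imp_right fun l => ⟨l, k e h1 x hx l⟩⟩,
      fun ⟨⟨a, a1, a2⟩, h3⟩ => ⟨⟨a, a1, a2.1⟩, fun x hx => (h3 x hx).imp_right fun l => l.1⟩⟩
  have h3 : ∀ c : Ch P, c.sg * ∑ e ∈ univ.filter (· ≤ c), e.sg * F e =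
      if o ∈ c.1 then c.sg * iMt A c else 0 := fun c => by
    simp only [F, mul_ite, mul_one, mul_zero, ← sum_filter, filter_filter]
    by_cases k : o ∈ c.1 ∧ Mt A c
    · obtain ⟨k1, a, k2, k3⟩ := k
      rw [if_pos k1, iMt_of ⟨a, k2, k3⟩, sum_cone (Y := {x | x ∈ A ∧ x ∈ c.1}) (o := o)
        (fun k => ho.1 k.1) (fun _ k => c.cm k1 k.2), eu_cone (E := {x | x ∈ A ∧ x ∈ c.1}) (m := a) ⟨k3, k2⟩
        fun _ k => c.cm k2 k.2]
      exact fun e => ⟨fun ⟨l, h1, ⟨a, a1, a2⟩, h3⟩ => ⟨h1, ⟨a, a1, a2, l a1⟩,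
        fun x hx => (h3 x hx).imp_right fun k => ⟨k, l hx⟩⟩,
        fun ⟨h1, ⟨a, a1, a2⟩, h3⟩ => ⟨fun x hx => (h3 x hx).elim (fun e => e ▸ k1) fun k => k.2,
          h1, ⟨a, a1, a2.1⟩, fun x hx => (h3 x hx).imp_right fun l => l.1⟩⟩
    · rw [sum_eq_zero fun e he => absurd ⟨(mem_filter.1 he).2.1 (mem_filter.1 he).2.2.1,
        (mem_filter.1 he).2.2.2.1.mono (mem_filter.1 he).2.1⟩ k, mul_zero]
      split_ifs with l
      · rw [iMt_not fun m => k ⟨l, m⟩, mul_zero]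
      · rfl
  rw [sum_congr rfl fun c _ => h3 c, ← sum_filter, h2,
    sum_through o (fun _ => 1) (iMt A) (iMt A)] at h1
  · simp only [mul_one] at h1
    rw [eps]; linear_combination h1
  · intro c c₁ c₂ e1 e2 e
    rw [one_mul]
    by_cases k : Mt A c₂
    · rw [iMt_of k, iMt_of (k.mono fun x hx => e ▸ mem_union_right _ hx)]
    · rw [iMt_not k, iMt_not]
      rintro ⟨a, a1, a2⟩
      exact (mem_union.1 (e ▸ a1)).elim (fun l => (om_dn hA ho (e1 ▸ Ch.le_top l)).1 a2)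
        fun l => k ⟨a, l, a2⟩

/-- the Möbius function of a simplex -/
theorem sum_bt (O C : Ch P) (h : O ≤ C) :
    ∑ κ ∈ univ.filter (fun κ : Ch (Ch P) => κ.bot = O ∧ κ.top = C), κ.sg = -(O.sg * C.sg) := by
  induction C using WellFoundedLT.induction with
  | ind C ih =>
  rcases h.eq_or_lt with rfl | hl
  · rw [Ch.sg_sq, ← Ch.sg_pt O]
    refine sum_eq_single_of_mem _ (by simp) fun κ hκ n => absurd (Ch.ext ?_) n
    obtain ⟨k1, k2⟩ := (mem_filter.1 hκ).2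
    exact eq_singleton_iff_unique_mem.2 ⟨k1 ▸ κ.bot_mem, fun x hx =>
      le_antisymm (k2 ▸ Ch.le_top hx) (k1 ▸ Ch.bot_le hx)⟩
  have h1 := toggle (univ.filter fun κ : Ch (Ch P) => κ.bot = O ∧ κ.top ≤ C) C
    (fun κ hκ x hx => Or.inr ((Ch.le_top hx).trans (mem_filter.1 hκ).2.2))
    (fun κ hκ _ => mem_filter.2 ⟨mem_univ _, (bot_tp κ C (mem_filter.1 hκ).2.2).trans
      (mem_filter.1 hκ).2.1, (top_tp κ C (mem_filter.1 hκ).2.2).le⟩) fun κ hκ => by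
      obtain ⟨k1, k2⟩ := (mem_filter.1 hκ).2
      have n : κ.bot ≠ C := k1 ▸ hl.ne
      exact ⟨ers κ C ⟨_, κ.bot_mem, n⟩, mem_filter.2 ⟨mem_univ _, (bot_ers n _).trans k1,
        (Ch.top_mono (erase_subset _ _ : ers κ C _ ≤ κ)).trans k2⟩, rfl⟩
  rw [← sum_fiberwise_of_maps_to (s := univ.filter fun κ : Ch (Ch P) => κ.bot = O ∧ κ.top ≤ C)
    (t := univ.filter fun e => O ≤ e ∧ e ≤ C) (g := Ch.top)
    fun κ hκ => mem_filter.2 ⟨mem_univ _, (mem_filter.1 hκ).2.1 ▸ κ.bot_le_top,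
      (mem_filter.1 hκ).2.2⟩] at h1
  have h2 := sum_Icc hl
  have he : C ∈ univ.filter (fun e => O ≤ e ∧ e ≤ C) := mem_filter.2 ⟨mem_univ _, h, le_rfl⟩
  rw [← add_sum_erase _ _ he] at h1 h2
  have k : ∀ e ≤ C, (univ.filter fun κ : Ch (Ch P) => κ.bot = O ∧ κ.top ≤ C).filter
      (fun κ => κ.top = e) = univ.filter fun κ => κ.bot = O ∧ κ.top = e := fun e l => by
    ext κ
    simp only [mem_filter, mem_univ, true_and]
    exact ⟨fun k => ⟨k.1.1, k.2⟩, fun k => ⟨⟨k.1, k.2 ▸ l⟩, k.2⟩⟩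
  have k2 : ∀ e ∈ (univ.filter fun e => O ≤ e ∧ e ≤ C).erase C,
      ∑ κ ∈ (univ.filter fun κ : Ch (Ch P) => κ.bot = O ∧ κ.top ≤ C).filter (fun κ => κ.top = e),
        κ.sg = -(O.sg * e.sg) := fun e he => by
    have m := (mem_filter.1 (mem_erase.1 he).2).2
    rw [k e m.2, ih e (lt_of_le_of_ne m.2 (mem_erase.1 he).1) m.1]
  rw [k C le_rfl, sum_congr rfl k2, sum_neg_distrib, ← mul_sum] at h1
  linear_combination h1 + O.sg * h2

/-- the low chains of faces with a given crossing carrier -/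
theorem sum_car {lo : P → Prop} {Lo : Ch P → Prop} {e : Ch P} (ht : ¬ lo e.top)
    (h1 : ∀ d ≤ e, Lo d → lo d.bot) (h2 : ∀ d ≤ e, lo d.top → Lo d) :
    ∑ O ∈ univ.filter (fun O : Ch (Ch P) => O.top = e ∧ ∀ d ∈ O.1, Lo d), O.sg = 0 := by
  by_cases he : Lo e
  swap
  · exact sum_eq_zero fun O hO => absurd
      ((mem_filter.1 hO).2.1 ▸ (mem_filter.1 hO).2.2 _ O.top_mem) he
  let r : Ch P → Ch P := fun d =>
    if h : (d.1.filter lo).Nonempty then d.sub _ h (filter_subset _ _) else d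
  have rv : ∀ d ≤ e, Lo d → (r d).1 = d.1.filter lo := fun d k l => by
    have : (d.1.filter lo).Nonempty := ⟨_, mem_filter.2 ⟨d.bot_mem, h1 d k l⟩⟩
    exact congrArg Subtype.val (dif_pos this)
  have e1 := eu_int (E := {d | d ∈ {d | d ≤ e ∧ Lo d} ∧ d ≠ e})
    (D := {d | d ≤ r e}) r (fun d hd => ?_) (fun d hd => ?_) fun d hd b hb l x hx => ?_
  · rw [eu_split (X := {d | d ≤ e ∧ Lo d}) (Y := {d | d ∈ {d | d ≤ e ∧ Lo d} ∧ d ≠ e})
      (fun _ h => h.1), ← e1, eu_cone (E := {d | d ≤ e ∧ Lo d}) (m := e) ⟨le_rfl, he⟩ fun _ h => Or.inr h.1,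
      eu_cone (E := {d | d ≤ r e}) (m := r e) (le_refl (r e)) fun _ h => Or.inr h, sub_self]
    refine fun O => ⟨fun h => ⟨fun d hd => ⟨h.1 ▸ Ch.le_top hd, h.2 d hd⟩,
      fun k => (k _ O.top_mem).2 h.1⟩, fun h => ⟨by_contra fun n => h.2 fun d hd =>
        ⟨h.1 d hd, fun l => n (le_antisymm (h.1 _ O.top_mem).1 (l ▸ Ch.le_top hd))⟩,
      fun d hd => (h.1 d hd).2⟩⟩
  · have k : ∀ x ∈ d.1, x ∈ e.1 ∧ lo x := fun x hx => mem_filter.1 (rv e le_rfl he ▸ hd hx)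
    exact ⟨⟨fun x hx => (k x hx).1, h2 d (fun x hx => (k x hx).1) (k _ d.top_mem).2⟩,
      fun l => ht (l ▸ (k _ d.top_mem).2)⟩
  · exact ⟨by
      rw [Set.mem_ofPred_eq, Ch.le_iff, rv d hd.1.1 hd.1.2, rv e le_rfl he]
      exact filter_subset_filter _ hd.1.1, by
      rw [Ch.le_iff, rv d hd.1.1 hd.1.2]; exact filter_subset _ _⟩
  · rw [rv d hd.1.1 hd.1.2]
    exact mem_filter.2 ⟨l hx, (mem_filter.1 (rv e le_rfl he ▸ hb hx)).2⟩

/-! ### the move -/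

/-- `δ` is in the range of the carrier and vanishes off `top ⁻¹' O₋` -/
structure InM (A : Set P) (z : P → P → ℤ) (δ : Ch P → ℤ) : Prop where
  nn : ∀ d, Dom A d → 0 ≤ δ d
  le : ∀ d, Dom A d → δ d ≤ z d.bot d.top
  off : ∀ d : Ch P, d.top ∉ Om A → δ d = 0

theorem dom_om {d : Ch P} (h : d.top ∈ Om A) : Dom A d :=
  let ⟨_, a, ha, k⟩ := h; ⟨a, ha, fun _ hx => Or.inr ((Ch.le_top hx).trans k)⟩

/-- the amount by which a point of `O₋` is lowered -/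
def gm (A : Set P) (δ : Ch P → ℤ) (z : P → P → ℤ) (C : Ch (Ch P)) : ℤ :=
  if C.top.top ∈ Om A then dep δ z C else 0

namespace InM

variable (h : InM A z δ) {e d : Ch P} {u : P → ℤ} {C : Ch (Ch P)}
include h

theorem mu_le (he : Dom A e) (hd : d ≤ e) : mu δ u d ≤ u d.top := by
  have := h.nn d (he.mono hd); unfold mu; omega

theorem le_mu (he : Dom A e) (hu : Chart z e u) (hd : d ≤ e) : u d.bot ≤ mu δ u d := by
  have := h.le d (he.mono hd)
  rw [hu _ (hd d.bot_mem) _ (hd d.top_mem) d.bot_le_top] at this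
  unfold mu; omega

theorem mu_pt (he : Dom A e) (hu : Chart z e u) {x : P} (hx : x ∈ e.1) :
    mu δ u (Ch.pt x) = u x := by
  have h1 := h.mu_le (u := u) he (Ch.pt_le.2 hx)
  have h2 := h.le_mu he hu (Ch.pt_le.2 hx)
  simp only [Ch.top_pt, Ch.bot_pt] at h1 h2; omega

theorem vv_le (hm : Mono A z) (he : Dom A e) (hu : Chart z e u) (hC : C.top ≤ e) :
    vv δ z u C ≤ u C.top.top :=
  (hu.vv_le hC).2 fun d hd => (h.mu_le he (le_top' hd hC)).trans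
    (hu.le hm he (le_top' hd hC d.top_mem) (hC C.top.top_mem) (Ch.top_mono (Ch.le_top hd)))

theorem le_vv (he : Dom A e) (hu : Chart z e u) (hC : C.top ≤ e) :
    u C.bot.bot ≤ vv δ z u C :=
  (h.le_mu he hu (le_top' C.bot_mem hC)).trans (hu.le_vv hC C.bot_mem)

theorem vv_off (hm : Mono A z) (he : Dom A e) (hu : Chart z e u) (hC : C.top ≤ e)
    (k : C.top.top ∉ Om A) : vv δ z u C = u C.top.top :=
  le_antisymm (h.vv_le hm he hu hC) (by
    have := hu.le_vv (δ := δ) hC C.top_mem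
    rwa [mu, h.off _ k, sub_zero] at this)

theorem gm_eq (hz : Coc A z) (hm : Mono A z) (hC : Dom A C.top) : gm A δ z C = dep δ z C := by
  unfold gm
  split_ifs with h1
  · rfl
  obtain ⟨u, hu⟩ := exists_chart hz hC
  have := h.vv_off hm hC hu le_rfl h1
  unfold vv at this; omega

theorem dep_nn (hz : Coc A z) (hm : Mono A z) (hC : Dom A C.top) : 0 ≤ dep δ z C := by
  obtain ⟨u, hu⟩ := exists_chart hz hC
  have := h.vv_le hm hC hu le_rfl
  unfold vv at this; omega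

theorem eqD (hz : Coc A z) (hm : Mono A z) :
    EqD (A2 A) (rf δ z) (pb (Ch.top ∘ Ch.top) z + cb (-gm A δ z)) := fun C D hp => by
  have := dp_dom2 hp
  simp only [rf, cb, Pi.sub_apply, Pi.add_apply, Pi.neg_apply, h.gm_eq hz hm this,
    h.gm_eq hz hm (this.mono (Ch.top_mono hp.1))]
  ring

theorem sumc (hz : Coc A z) (hm : Mono A z) (F : Ch P → ℤ) :
    ∑ O : Ch (Ch P), O.sg * (gm A δ z O * F O.top) = 0 := by
  obtain ⟨N, hN⟩ : ∃ N : ℕ, ∀ C, dep δ z C ≤ N :=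
    let ⟨N, hN⟩ := (Set.finite_range (dep δ z)).bddAbove
    ⟨N.toNat, fun C => (hN ⟨C, rfl⟩).trans (Int.self_le_toNat N)⟩
  rw [← sum_fiberwise (s := univ) (g := Ch.top)]
  refine sum_eq_zero fun e _ => ?_
  by_cases he : e.top ∈ Om A
  swap
  · exact sum_eq_zero fun O hO => by
      rw [gm, (mem_filter.1 hO).2, if_neg he, zero_mul, mul_zero]
  have dm := dom_om he
  have k : ∀ O ∈ univ.filter (fun O : Ch (Ch P) => O.top = e), O.sg * (gm A δ z O * F O.top) =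
      ∑ i ∈ range N, F e * if ∀ d ∈ O.1, (i : ℤ) < δ d + z d.top e.top then O.sg else 0 := by
    intro O hO
    obtain rfl := (mem_filter.1 hO).2
    rw [gm, if_pos he, ← sum_range_lt (h.dep_nn hz hm dm) (hN O), sum_mul, mul_sum]
    refine sum_congr rfl fun i _ => ?_
    by_cases h2 : (i : ℤ) < dep δ z O
    · rw [if_pos h2, if_pos fun d hd => h2.trans_le (dep_le hd)]; ring
    · obtain ⟨d, hd, e⟩ := dep_ex δ z O
      rw [if_neg h2, if_neg fun h3 => h2 (e ▸ h3 d hd)]; ring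
  rw [sum_congr rfl k, sum_comm]
  refine sum_eq_zero fun i _ => ?_
  rw [← mul_sum, ← sum_filter, filter_filter]
  have := sum_car (e := e) (lo := fun x => (i : ℤ) < z x e.top)
    (Lo := fun d => (i : ℤ) < δ d + z d.top e.top) (by rw [Kh11.dom_self hz dm e.top_mem]; omega)
    (fun d hd k => by
      have := h.le d (dm.mono hd)
      rw [hz.add' dm (hd d.bot_mem) (hd d.top_mem) e.top_mem d.bot_le_top (Ch.top_mono hd)]
      omega) fun d hd k => by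
      have := h.nn d (dm.mono hd); omega
  exact mul_eq_zero_of_right _ (by convert this)

theorem chi (hA : A.OrdConnected) (hM : Mf 3 (A2 A)) (hN : Nice (A2 A)) (hz : Coc A z)
    (hm : Mono A z) : chi (A2 A) (rf δ z) = chi A z := by
  have c2 : (A2 A).OrdConnected := convex_pre Ch.top_mono (convex_pre Ch.top_mono hA)
  have om : ∀ O : Ch (Ch P), O ∈ Om (A2 A) ↔ O.top.top ∈ Om A := fun O =>
    Hlf24.om_sd.trans Hlf24.om_sd
  have e : Hp13.chi (A2 A) (cb (-gm A δ z)) =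
      ∑ κ : Ch (Ch (Ch P)), κ.sg * iMt (A2 A) κ * gm A δ z κ.bot := by
    rw [Hp13.chi, sum_filter]
    refine sum_congr rfl fun κ _ => ?_
    split_ifs with k
    · obtain ⟨a, a1, a2⟩ := id k
      rw [iMt_of k, cb, Pi.neg_apply, Pi.neg_apply, show gm A δ z κ.top = 0 from if_neg fun l =>
        (om_dn c2 ((om _).2 l) (Ch.le_top a1)).1 a2]
      ring
    · rw [iMt_not k]; ring
  rw [chi_congr (h.eqD hz hm), chi_add, e, ← sum_fiberwise (s := univ) (g := Ch.bot),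
    sum_congr rfl (g := fun O => -(O.sg * (gm A δ z O * 1))), sum_neg_distrib,
    h.sumc hz hm fun _ => 1, neg_zero, add_zero]
  · exact (chi_top (A := Ch.top ⁻¹' A) (pb Ch.top z)).trans (chi_top z)
  intro O _
  rw [sum_congr rfl (g := fun κ => κ.sg * iMt (A2 A) κ * gm A δ z O) fun κ hκ => by
    rw [(mem_filter.1 hκ).2], ← sum_mul]
  by_cases k : O.top.top ∈ Om A
  · have := rho_om c2 hM hN ((om O).2 k)
    rw [eps_ch] at this
    linear_combination (-O.sg * gm A δ z O) * this - (gm A δ z O *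
      ∑ κ ∈ univ.filter (fun κ : Ch (Ch (Ch P)) => κ.bot = O), κ.sg * iMt (A2 A) κ) * O.sg_sq
  · rw [gm, if_neg k]; ring

end InM

theorem nm_top (z : P → P → ℤ) : nm (Ch.top ⁻¹' A : Set (Ch P)) (pb Ch.top z) = nm A z := by
  have := acyc_top.sum Ch.top_mono fun e : Ch P => if e.top ∈ Om A then z e.bot e.top else 0
  simp only [Ch.top_img, Ch.bot_img, mul_ite, mul_zero, ← sum_filter] at this
  rw [nm, nm, ← this]
  exact sum_congr (filter_congr fun _ _ => Hlf24.om_sd) fun _ _ => rfl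

theorem nm_congr {w : P → P → ℤ} (h : EqD A z w) : nm A z = nm A w :=
  sum_congr rfl fun c hc => by rw [h _ _ (dom_om (mem_filter.1 hc).2).bt]

theorem nm_add (z w : P → P → ℤ) : nm A (z + w) = nm A z + nm A w := by
  simp only [nm, Pi.add_apply, mul_add, sum_add_distrib]

theorem sum_bot_top {p : Ch P → Prop} [DecidablePred p] (g : Ch P → ℤ) :
    ∑ κ ∈ univ.filter (fun κ : Ch (Ch P) => p κ.top), κ.sg * g κ.bot =
      -∑ O, O.sg * (g O * ∑ C ∈ univ.filter (fun C => O ≤ C ∧ p C), C.sg) := by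
  rw [← sum_fiberwise (g := Ch.bot), ← sum_neg_distrib]
  refine sum_congr rfl fun O _ => ?_
  have k : ∀ C ∈ univ.filter (fun C => O ≤ C ∧ p C),
      ∑ κ ∈ ((univ.filter fun κ : Ch (Ch P) => p κ.top).filter
        fun κ => κ.bot = O).filter (fun κ => κ.top = C), κ.sg = -(O.sg * C.sg) := fun C hC => by
    rw [← sum_bt O C (mem_filter.1 hC).2.1]
    refine sum_congr ?_ fun _ _ => rfl
    ext κ
    simp only [mem_filter, mem_univ, true_and]
    exact ⟨fun k => ⟨k.1.2, k.2⟩, fun k => ⟨⟨k.2 ▸ (mem_filter.1 hC).2.2, k.1⟩, k.2⟩⟩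
  rw [sum_congr rfl (g := fun κ => κ.sg * g O) fun κ hκ => by rw [(mem_filter.1 hκ).2], ← sum_mul,
    ← sum_fiberwise_of_maps_to (t := univ.filter fun C => O ≤ C ∧ p C) (g := Ch.top)
      (s := (univ.filter fun κ : Ch (Ch P) => p κ.top).filter fun κ => κ.bot = O)
      fun κ hκ => mem_filter.2 ⟨mem_univ _, (mem_filter.1 hκ).2 ▸ κ.bot_le_top,
        (mem_filter.1 (mem_filter.1 hκ).1).2⟩, sum_congr rfl k, sum_neg_distrib, ← mul_sum]
  ring

theorem InM.nm (h : InM A z δ) (hz : Coc A z) (hm : Mono A z) :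
    nm (A2 A) (rf δ z) = nm A z := by
  have om : ∀ O : Ch (Ch P), O ∈ Om (A2 A) ↔ O.top.top ∈ Om A := fun O =>
    Hlf24.om_sd.trans Hlf24.om_sd
  have e1 : ∑ κ ∈ univ.filter (fun κ : Ch (Ch (Ch P)) => κ.top ∈ Om (A2 A)),
      κ.sg * gm A δ z κ.top = 0 := by
    rw [sum_filter, sum_congr rfl (g := fun κ => κ.sg * gm A δ z κ.top) fun κ _ => by
      split_ifs with k
      · rfl
      · rw [gm, if_neg fun l => k ((om _).2 l), mul_zero], sum_top, neg_eq_zero]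
    simp only [eps_ch, neg_mul, sum_neg_distrib, neg_eq_zero]
    simpa using h.sumc hz hm fun _ => 1
  have e2 : ∑ κ ∈ univ.filter (fun κ : Ch (Ch (Ch P)) => κ.top ∈ Om (A2 A)),
      κ.sg * gm A δ z κ.bot = 0 := by
    rw [sum_bot_top (p := fun C => C ∈ Om (A2 A)), neg_eq_zero, ← h.sumc hz hm
      fun e => ∑ m ∈ univ.filter (fun m => e ≤ m ∧ m.top ∈ Om A), m.sg]
    refine sum_congr rfl fun O _ => ?_
    have k1 := sum_Ft O fun m => m.top ∈ Om A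
    rw [sum_congr rfl fun m hm => Ft_eq O (mem_filter.1 hm).2.1] at k1
    have k2 : ∑ C ∈ univ.filter (fun C => O ≤ C ∧ C ∈ Om (A2 A)), C.sg =
        ∑ m ∈ univ.filter (fun m => O.top ≤ m ∧ m.top ∈ Om A), m.sg := by
      refine Eq.trans (sum_congr ?_ fun _ _ => rfl) (k1.symm.trans (sum_congr ?_ fun _ _ => rfl))
      · ext C; simp only [mem_filter, om]
      · ext C; simp only [mem_filter]
    exact congrArg (fun t => O.sg * (gm A δ z O * t)) k2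
  have e3 : Ind26.nm (A2 A) (cb (-gm A δ z)) = 0 := by
    simp only [Ind26.nm, cb, Pi.neg_apply, neg_sub_neg, mul_sub, sum_sub_distrib, e1, e2, sub_self]
  rw [nm_congr (h.eqD hz hm), nm_add, e3, add_zero]
  exact (nm_top (A := Ch.top ⁻¹' A) (pb Ch.top z)).trans (nm_top z)

end Crest.Agent.X212.Cut21
end
end

-- ▼ part X212/Cut21/Reg2

/-!
# X212 / Cut21 (helper21): moving the boundary on `R₋` is an isotopy; `RegStmt`
-/

set_option autoImplicit false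
set_option linter.unusedSectionVars false

open Finset Classical

noncomputable section

namespace Crest.Agent.X212.Cut21

open Crest.Agent.X212.Hp13 Crest.Agent.X212.Alg36
open Crest.Agent.X212.Ind26 (nm Iso tri tri_val top_tri bot_tri)
open Crest.Agent.X212.Kh11 (Rf)

variable {P : Type} [PartialOrder P] [Fintype P] {A : Set P} {z : P → P → ℤ} {δ : Ch P → ℤ}

instance [hz : IsCoc A z] : IsCoc (A2 A) (rf δ z) := ⟨coc_rf hz.coc δ⟩
instance [hz : IsCoc A z] : IsCoc (A2 A) (pb (Ch.top ∘ Ch.top) z) :=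
  ⟨hz.coc.pb (Ch.top_mono.comp Ch.top_mono)⟩

theorem dom3 {κ : Ch (Ch (Ch P))} (h : Dom (A2 A) κ) : Dom A κ.top.top := dp_dom2 h.bt

theorem bot3 (κ : Ch (Ch (Ch P))) : κ.bot.top ≤ κ.top.top := Ch.top_mono κ.bot_le_top

theorem rf_tt (A : Set P) (z : P → P → ℤ) :
    Rf (Ch.top ∘ Ch.top) A z (A2 A) (pb (Ch.top ∘ Ch.top) z) := (desc2 ⟨P, A⟩).rf z

/-- the same cell before and after the move -/
def JR (δ : Ch P → ℤ) (q : Lv (A2 A) (pb (Ch.top ∘ Ch.top) z)) (p : Lv (A2 A) (rf δ z)) : Prop :=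
  p.1.1 = q.1.1 ∧ p.1.2 = q.1.2 + dep δ z q.1.1.bot

theorem rf_val (X Y : Ch (Ch P)) :
    rf δ z X Y = pb (Ch.top ∘ Ch.top) z X Y - (dep δ z Y - dep δ z X) := rfl

theorem lr_jr [IsCoc A z] : LR (JR (A := A) (z := z) δ) :=
  ⟨fun k => k.1, fun {q q' p p'} k k' => by
    rw [Lv.le_iff, Lv.le_iff, k.1, k'.1, k.2, k'.2, rf_val]
    exact and_congr_right fun _ => by omega⟩

namespace InM

variable (h : InM A z δ) [hz : IsCoc A z] (hm : Mono A z)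
include h hm

theorem car_aux {κ : Ch (Ch (Ch P))} {k : ℤ} (hd : Dom (A2 A) κ) (h0 : 0 ≤ k)
    (h1 : k < rf δ z κ.bot κ.top) :
    0 ≤ k + z κ.top.top.bot κ.bot.top.top - dep δ z κ.bot ∧
      k + z κ.top.top.bot κ.bot.top.top - dep δ z κ.bot < z κ.top.top.bot κ.top.top.top := by
  have he := dom3 hd
  obtain ⟨u, hu⟩ := exists_chart hz.coc he
  have l := bot3 κ
  have e1 := hu _ κ.top.top.bot_mem _ (l κ.bot.top.top_mem) (Ch.bot_le (l κ.bot.top.top_mem))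
  have e2 := hu _ κ.top.top.bot_mem _ κ.top.top.top_mem κ.top.top.bot_le_top
  have e3 := h.le_vv he hu l
  have e4 := h.vv_le hm he hu (le_refl κ.top.top)
  have e5 := hu.le hm he κ.top.top.bot_mem (l (Mcg32.bb_mem κ.bot))
    (Ch.bot_le (l (Mcg32.bb_mem κ.bot)))
  rw [hu.rf le_rfl κ.bot_le_top] at h1
  unfold vv at *
  omega

/-- the carrier of a cell -/
def car (h : InM A z δ) (hm : Mono A z) (p : Lv (A2 A) (rf δ z)) : Lv A z :=
  ⟨(p.1.1.top.top, p.1.2 + z p.1.1.top.top.bot p.1.1.bot.top.top - dep δ z p.1.1.bot),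
    dom3 p.2.1, h.car_aux hm p.2.1 p.2.2.1 p.2.2.2⟩

theorem car_lv {e : Ch P} {u : P → ℤ} (hu : Chart z e u) (p : Lv (A2 A) (rf δ z))
    (l : p.1.1.top.top ≤ e) :
    (h.car hm p).1.2 + u p.1.1.top.top.bot = p.1.2 + vv δ z u p.1.1.bot := by
  have m := bot3 p.1.1 p.1.1.bot.top.top_mem
  have := hu _ (l p.1.1.top.top.bot_mem) _ (l m) (Ch.bot_le m)
  simp only [car, vv]; omega

theorem car_mono : Monotone (h.car hm) := fun p q k => by
  obtain ⟨k1, k2⟩ := Lv.le_iff.1 k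
  obtain ⟨u, hu⟩ := exists_chart hz.coc (dom3 q.2.1)
  have l : p.1.1.top.top ≤ q.1.1.top.top := Ch.top_mono (Ch.top_mono k1)
  refine Lv.le_iff.2 ⟨l, ?_⟩
  have e1 := h.car_lv hm hu p l
  have e2 := h.car_lv hm hu q le_rfl
  have e3 := hu _ q.1.1.top.top.bot_mem _ (l p.1.1.top.top.bot_mem) (Ch.bot_anti l)
  rw [hu.rf ((bot3 _).trans l) (Ch.bot_anti k1)] at k2
  change _ = _ + z q.1.1.top.top.bot p.1.1.top.top.bot
  omega

theorem car_la {p : Lv (A2 A) (rf δ z)} (k : p ∈ LA (A2 A) (rf δ z)) : h.car hm p ∈ LA A z :=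
  let ⟨C, h1, h2⟩ := k; ⟨_, Ch.top_mono (Ch.le_top h1) C.top.top_mem, h2⟩

theorem car_rch {p q : Lv (A2 A) (rf δ z)} (k : Rch (LA (A2 A) (rf δ z)) p q) :
    Rch (LA A z) (h.car hm p) (h.car hm q) := k.map fun _ ha _ hb l =>
  Rch.of_cm (h.car_la hm ha) (h.car_la hm hb) (Or.inl (h.car_mono hm l))

theorem exists_jr (q : Lv (A2 A) (pb (Ch.top ∘ Ch.top) z)) (k : q.1.1.top.top.top ∉ Om A) :
    ∃ p, JR δ q p := by
  have he := dom3 q.2.1
  have e1 := h.dep_nn hz.coc hm (he.mono (bot3 q.1.1))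
  have e2 := h.gm_eq hz.coc hm he
  rw [gm, if_neg k] at e2
  have := q.2.2.1
  have := q.2.2.2
  exact ⟨⟨(q.1.1, q.1.2 + dep δ z q.1.1.bot), q.2.1, by simp only; omega, by
    simp only [rf_val]; omega⟩, rfl, rfl⟩

theorem map_le {q : Lv (A2 A) (pb (Ch.top ∘ Ch.top) z)} {p : Lv (A2 A) (rf δ z)} (k : JR δ q p) :
    (rf_tt A z).map q ≤ h.car hm p := Lv.le_iff.2 ⟨fun x hx => by
  obtain ⟨C, h1, rfl⟩ := (Ch.mem_img (f := Ch.top ∘ Ch.top)
    (hf := Ch.top_mono.comp Ch.top_mono)).1 hx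
  exact (show C.top ≤ p.1.1.top.top from Ch.top_mono (Ch.le_top (k.1 ▸ h1))) C.top.top_mem, by
  rw [Rf.map_ch, Rf.map_lv, Rf.im_bot]
  simp only [car, k.1, k.2, Function.comp]; omega⟩

theorem cell {e : Ch P} {u : P → ℤ} (hu : Chart z e u) {κ : Ch (Ch (Ch P))} (hd : Dom (A2 A) κ)
    (l : κ.top.top ≤ e) {t : ℤ} (h1 : vv δ z u κ.bot ≤ t) (h2 : t < vv δ z u κ.top) :
    ∃ p : Lv (A2 A) (rf δ z), p.1.1 = κ ∧ p.1.2 + vv δ z u κ.bot = t :=
  ⟨⟨(κ, t - vv δ z u κ.bot), hd, by simp only; omega, by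
    simp only [hu.rf l κ.bot_le_top]; omega⟩, rfl, by simp⟩

theorem le_of {e : Ch P} {u : P → ℤ} (hu : Chart z e u) {p q : Lv (A2 A) (rf δ z)}
    (k : p.1.1 ≤ q.1.1) (l : q.1.1.top.top ≤ e)
    (h1 : p.1.2 + vv δ z u p.1.1.bot = q.1.2 + vv δ z u q.1.1.bot) : p ≤ q :=
  Lv.le_iff.2 ⟨k, by
    rw [hu.rf ((bot3 _).trans ((Ch.top_mono (Ch.top_mono k)).trans l)) (Ch.bot_anti k)]; omega⟩

theorem old {p : Lv (A2 A) (rf δ z)} (hp : p ∈ LA (A2 A) (rf δ z)) :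
    ∃ q ∈ LA (A2 A) (pb (Ch.top ∘ Ch.top) z), ∃ p', JR δ q p' ∧ Rch (LA (A2 A) (rf δ z)) p p' := by
  have he := dom3 p.2.1
  obtain ⟨u, hu⟩ := exists_chart hz.coc he
  generalize hE : p.1.1.top.top = e at he hu
  obtain ⟨t, ht⟩ : ∃ t, p.1.2 + vv δ z u p.1.1.bot = t := ⟨_, rfl⟩
  let H : Ch (Ch (Ch P)) → Prop := fun κ => ∀ p' : Lv (A2 A) (rf δ z), p'.1.1 = κ →
    p'.1.2 + vv δ z u κ.bot = t → Rch (LA (A2 A) (rf δ z)) p p'
  have fin : ∀ κ, H κ → Mt (A2 A) κ → κ.top.top ≤ e → u κ.bot.top.top ≤ t → t < vv δ z u κ.top →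
      ∃ q ∈ LA (A2 A) (pb (Ch.top ∘ Ch.top) z), ∃ p', JR δ q p' ∧
        Rch (LA (A2 A) (rf δ z)) p p' := fun κ k1 k2 k3 k4 k5 => by
    have l := (bot3 κ).trans k3
    have e1 := h.vv_le hm he hu l
    have e2 := h.vv_le hm he hu k3
    have e3 := hu _ (l κ.bot.top.top_mem) _ (k3 κ.top.top.top_mem) (Ch.top_mono (bot3 κ))
    obtain ⟨p', a1, a2⟩ := h.cell hm hu k2.dom k3 (e1.trans k4) k5
    refine ⟨⟨(κ, t - u κ.bot.top.top), k2.dom, by simp only; omega, by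
      simp only [pb, Function.comp]; omega⟩, k2, p', ⟨a1, ?_⟩, k1 p' a1 a2⟩
    unfold vv at a2; simp only; omega
  have step : ∀ κ κ', κ ≤ κ' → κ'.top.top ≤ e → Mt (A2 A) κ → vv δ z u κ.bot ≤ t →
      t < vv δ z u κ.top → (H κ ↔ H κ') := fun κ κ' k1 k2 k3 k4 k5 => by
    have l := (Ch.top_mono (Ch.top_mono k1)).trans k2
    obtain ⟨a, a1, a2⟩ := h.cell hm hu k3.dom l k4 k5
    obtain ⟨b, b1, b2⟩ := h.cell hm hu (k3.mono k1).dom k2
      ((hu.vv_mono ((bot3 κ).trans l) (Ch.bot_anti k1)).trans k4)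
      (k5.trans_le (hu.vv_mono k2 (Ch.top_mono k1)))
    have r := Rch.of_cm (E := LA (A2 A) (rf δ z)) (show Mt _ a.1.1 from a1 ▸ k3)
      (show Mt _ b.1.1 from b1 ▸ k3.mono k1)
      (Or.inl (h.le_of hm hu (a1 ▸ b1 ▸ k1) (b1 ▸ k2) (by rw [a1, b1, a2, b2])))
    exact ⟨fun k c c1 c2 => Lv.ext (b1.trans c1.symm) (by omega) ▸ (k a a1 a2).trans r,
      fun k c c1 c2 => Lv.ext (a1.trans c1.symm) (by omega) ▸ (k b b1 b2).trans r.symm⟩
  have H0 : H p.1.1 := fun c c1 c2 => Lv.ext c1.symm (by omega) ▸ Rch.rfl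
  have t1 : vv δ z u p.1.1.bot ≤ t := by have := p.2.2.1; omega
  have t2 : t < vv δ z u p.1.1.top := by
    have := p.2.2.2; rw [hu.rf hE.le p.1.1.bot_le_top] at this; omega
  by_cases k : u p.1.1.bot.top.top ≤ t
  · exact fin _ H0 hp hE.le k t2
  obtain ⟨C, c1, c2⟩ := hp
  have c3 : C.top ≤ e := hE ▸ Ch.top_mono (Ch.le_top c1)
  have c4 : p.1.1.bot ≤ C := Ch.bot_le c1
  have hi : ∀ D : Ch (Ch P), D.top = C.top → t < vv δ z u D := fun D l => by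
    rw [h.vv_off hm he hu (l ▸ c3) (l ▸ fun o => o.1 c2), l]
    have := hu.le hm he (c3 (Ch.top_mono c4 p.1.1.bot.top.top_mem)) (c3 C.top.top_mem)
      (Ch.top_mono (Ch.top_mono c4))
    omega
  have inA : ∀ D : Ch (Ch P), D.top = C.top → D ∈ A2 A := fun D l => by
    show D.top.top ∈ A; rwa [l]
  have eR : ∀ X Y W (l : X ≤ Y) (l' : Y ≤ W), Y.top = C.top → W.top = C.top → vv δ z u X ≤ t →
      (H (Ch.pr X Y l) ↔ H (Ch.pr X W (l.trans l'))) := fun X Y W l l' a b c => by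
    rw [step _ (tri X Y W l l') (pr_le (by simp) (by simp)) (by simpa [b] using c3)
        ⟨Y, by simp, inA Y a⟩ (by simpa using c) (by simpa using hi Y a),
      step (Ch.pr X W _) (tri X Y W l l') (pr_le (by simp) (by simp)) (by simpa [b] using c3)
        ⟨W, by simp, inA W b⟩ (by simpa using c) (by simpa using hi W b)]
  have eL : ∀ X Y W (l : X ≤ Y) (l' : Y ≤ W), W.top = C.top → vv δ z u Y ≤ t →
      (H (Ch.pr Y W l') ↔ H (Ch.pr X W (l.trans l'))) := fun X Y W l l' b c => by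
    rw [step _ (tri X Y W l l') (pr_le (by simp) (by simp)) (by simpa [b] using c3)
        ⟨W, by simp, inA W b⟩ (by simpa using c) (by simpa using hi W b),
      step (Ch.pr X W _) (tri X Y W l l') (pr_le (by simp) (by simp)) (by simpa [b] using c3)
        ⟨W, by simp, inA W b⟩
        (by simpa using (hu.vv_mono ((Ch.top_mono l').trans (b ▸ c3)) l).trans c)
        (by simpa using hi W b)]
  have H1 : H (Ch.pr _ C c4) := (step _ _ (pr_le p.1.1.bot_mem c1) hE.le ⟨C, by simp, c2⟩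
    (by simpa using t1) (by simpa using hi C rfl)).2 H0
  generalize p.1.1.bot = O at *
  have o1 := Ch.top_mono c4
  have x1 : Ch.pt O.bot.bot ≤ O.bot := Ch.pt_le.2 O.bot.bot_mem
  have x2 := (h.le_vv he hu (o1.trans c3)).trans t1
  let O' := bt O _ x1
  have o2 : O'.top ≤ C.top := by simpa [O'] using o1
  have o3 : vv δ z u O' ≤ t := (hu.vv_le (o2.trans c3)).2 fun d hd => (mem_bt.1 hd).elim
    (fun e => by rw [e, h.mu_pt he hu ((o1.trans c3) (Mcg32.bb_mem O))]; exact x2)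
    fun hd => (hu.le_vv (o1.trans c3) hd).trans t1
  have H2 := (eR O (tp O _ o1) C (le_tp _ _ _) (tp_le c4 C.top_mem) (by simp) rfl t1).2 H1
  have H3 := (eR O _ (tp O' _ o2) _ (tp_mono (le_bt _ _ _)) (by simp) (by simp) t1).1 H2
  have H4 := (eL O O' _ (le_bt _ _ _) (le_tp _ _ _) (by simp) o3).2 H3
  have H5 := (eL (Ch.pt (Ch.pt O.bot.bot)) O' _ (Ch.pt_le.2 (by simp [O'])) _ (by simp) o3).1 H4
  exact fin _ H5 ⟨tp O' _ o2, by simp, inA _ (by simp)⟩ (by simpa using c3) (by simpa using x2)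
    (by simpa using hi (tp O' _ o2) (by simp))

theorem la_off (hA : A.OrdConnected) {κ : Ch (Ch (Ch P))} (k : Mt (A2 A) κ) :
    κ.top.top.top ∉ Om A := fun o =>
  let ⟨_, h1, h2⟩ := k; (om_dn hA o (Ch.top_mono (Ch.top_mono (Ch.le_top h1)))).1 h2

theorem rch (hA : A.OrdConnected) {p p' : Lv (A2 A) (rf δ z)} (hp : p ∈ LA (A2 A) (rf δ z))
    (hp' : p' ∈ LA (A2 A) (rf δ z)) (k : Rch (LA A z) (h.car hm p) (h.car hm p')) :
    Rch (LA (A2 A) (rf δ z)) p p' := by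
  obtain ⟨q, q1, a, q2, q3⟩ := h.old hm hp
  obtain ⟨q', r1, b, r2, r3⟩ := h.old hm hp'
  have ws := (rf_tt A z).ws_LA hm
  have c : ∀ {q a}, q ∈ LA (A2 A) (pb (Ch.top ∘ Ch.top) z) → JR δ q a →
      Rch (LA A z) ((rf_tt A z).map q) (h.car hm a) := fun k1 k2 =>
    Rch.of_cm (ws.maps k1) (LA.upper (ws.maps k1) (h.map_le hm k2)) (Or.inl (h.map_le hm k2))
  refine (q3.trans (lr_jr.rch (fun q hq => ?_) q2 r2 ((ws.rch_iff q1 r1).2 ?_))).trans r3.symm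
  · obtain ⟨p, k⟩ := h.exists_jr hm q (h.la_off hm hA hq)
    exact ⟨p, (lr_jr.la k).1 hq, k⟩
  · exact ((((c q1 q2).trans (h.car_rch hm q3).symm).trans k).trans (h.car_rch hm r3)).trans
      (c r1 r2).symm

theorem noCl (hA : A.OrdConnected) (hn : NoCl A z) : NoCl (A2 A) (rf δ z) := by
  rintro _ ⟨p, hp, rfl⟩
  obtain ⟨a, ⟨a1, a2⟩, r, r1, r2⟩ := hn _ (isCmp_cmp (h.car_la hm hp))
  suffices ∃ p' ∈ LA (A2 A) (rf δ z), Cm (h.car hm p') a ∧ ∃ r', r' ∉ LA (A2 A) (rf δ z) ∧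
      r' ≤ p' by
    obtain ⟨p', k1, k2, k3⟩ := this
    exact ⟨p', ⟨k1, h.rch hm hA hp k1 (a2.trans (Rch.of_cm a1 (h.car_la hm k1) k2.symm))⟩, k3⟩
  by_cases y : r.1.1.top ∈ Om A
  swap
  · obtain ⟨q, rfl⟩ := (rf_tt A z).surj a1
    obtain ⟨q', q1, rfl⟩ := (rf_tt A z).face r2
    have q2 := (rf_tt A z).map_LA.1 a1
    obtain ⟨p', k⟩ := h.exists_jr hm q (h.la_off hm hA q2)
    obtain ⟨r', k'⟩ := h.exists_jr hm q' (by simpa [Rf.im_top] using y)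
    exact ⟨p', (lr_jr.la k).1 q2, Or.inr (h.map_le hm k), r',
      fun l => r1 ((rf_tt A z).map_LA.2 ((lr_jr.la k').2 l)), (lr_jr.le_iff k' k).1 q1⟩
  obtain ⟨l0, l1⟩ := Lv.le_iff.1 r2
  obtain ⟨c, c1, c2, c3, -⟩ := exists_c0 a1
  obtain ⟨u, hu⟩ := exists_chart hz.coc a.2.1
  have l2 : r.1.1 ≤ c := fun x hx => c3 x (l0 hx) ((a.1.1.total (l0 hx) (c1 c.top_mem)).resolve_right
    fun k => (om_dn hA y (k.trans (Ch.le_top hx))).1 c2)
  have e1 := hu _ (l0 r.1.1.bot_mem) _ (l0 r.1.1.top_mem) r.1.1.bot_le_top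
  have e2 := r.2.2.1
  have e3 := r.2.2.2
  obtain ⟨O, O', o1, o2, o3, o4⟩ : ∃ O O' : Ch (Ch P), O ≤ O' ∧ O'.top = r.1.1 ∧
      vv δ z u O ≤ r.1.2 + u r.1.1.bot ∧ r.1.2 + u r.1.1.bot < vv δ z u O' := by
    by_cases k : mu δ u r.1.1 ≤ r.1.2 + u r.1.1.bot
    · refine ⟨Ch.pt r.1.1, Ch.pr _ _ (Ch.pt_le.2 r.1.1.top_mem), Ch.pt_le.2 (by simp), by simp,
        by rwa [hu.vv_pt l0], lt_of_lt_of_le ?_
          (hu.le_vv (d := Ch.pt r.1.1.top) (by simpa using l0) (by simp))⟩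
      rw [h.mu_pt a.2.1 hu (l0 r.1.1.top_mem)]; omega
    · refine ⟨Ch.pt (Ch.pt r.1.1.bot), Ch.pr _ _ (Ch.pt_le.2 r.1.1.bot_mem), Ch.pt_le.2 (by simp),
        by simp, ?_, (not_le.1 k).trans_le (hu.le_vv (by simpa using l0) (by simp))⟩
      rw [hu.vv_pt (Ch.pt_le.2 (l0 r.1.1.bot_mem)), h.mu_pt a.2.1 hu (l0 r.1.1.bot_mem)]; omega
  have o5 : O'.top ≤ c := o2 ▸ l2
  have mt : Mt (A2 A) (tri O O' (tp O' c o5) o1 (le_tp _ _ _)) := ⟨tp O' c o5, by simp, by simpa⟩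
  have le : Ch.pr O O' o1 ≤ tri O O' (tp O' c o5) o1 (le_tp _ _ _) := pr_le (by simp) (by simp)
  obtain ⟨p', k1, k2⟩ := h.cell hm hu mt.dom (by simpa using c1) (t := r.1.2 + u r.1.1.bot)
    (by simpa using o3)
    (by simpa using o4.trans_le (hu.vv_mono (by simpa using c1) (le_tp O' c o5)))
  obtain ⟨r', j1, j2⟩ := h.cell hm hu (mt.dom.mono le) (by simpa using o5.trans c1)
    (t := r.1.2 + u r.1.1.bot) (by simpa using o3) (by simpa using o4)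
  have tp' : p'.1.1.top.top = c := by simp [k1]
  refine ⟨p', show Mt _ p'.1.1 from k1 ▸ mt, Or.inl (Lv.le_iff.2 ⟨tp'.le.trans c1, ?_⟩), r', ?_,
    h.le_of hm hu (j1 ▸ k1 ▸ le) (tp' ▸ c1) (by rw [j1, k1, j2, k2])⟩
  · have e4 := h.car_lv hm hu p' (tp' ▸ c1)
    have e5 := hu _ a.1.1.bot_mem _ (l0 r.1.1.bot_mem) (Ch.bot_anti l0)
    have e6 := hu _ a.1.1.bot_mem _ (c1 c.bot_mem) (Ch.bot_anti c1)
    change _ = _ + z _ p'.1.1.top.top.bot
    rw [k1] at e4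
    rw [tp'] at *
    simp only [top_tri, top_tp] at e4
    omega
  · rintro ⟨X, x1, x2⟩
    rw [j1] at x1
    have : X.top ≤ r.1.1 := o2 ▸ Ch.top_mono (by simpa using Ch.le_top x1)
    exact (om_dn hA y (Ch.top_mono this)).1 x2

/-- the move on a union of components -/
def dS (T : Set (Lv A z)) (δ : Ch P → ℤ) (d : Ch P) : ℤ :=
  nlev T d (z d.bot d.top - δ d) (z d.bot d.top)

theorem inM_cnt {T : Set (Lv A z)} (hT : Sat T) : InM A (cnt T) (dS T δ) where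
  nn _ _ := nlev_nonneg _ _ _
  le d hd := by
    have := h.nn d hd
    have := h.le d hd
    have := nlev_nonneg (T := T) d 0 (z d.bot d.top - δ d)
    rw [hT.cnt_bt hm hd, nlev_add d (b := z d.bot d.top - δ d) (by omega) (by omega), dS]
    omega
  off d k := by simp [dS, h.off d k, nlev]

theorem cnt_car {T : Set (Lv A z)} (hT : Sat T) :
    EqD (A2 A) (cnt (h.car hm ⁻¹' T)) (rf (dS T δ) (cnt T)) := by
  intro X Y hp
  have he := dp_dom2 hp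
  generalize hE : Y.top = e at he
  have hu : Chart z e (z e.bot) := fun x hx y hy l => by
    rw [hz.coc.add' he e.bot_mem hx hy (Ch.bot_le hx) l]; ring
  have u0 : ∀ x ∈ e.1, 0 ≤ z e.bot x := fun x hx => hm _ _ (he.dp e.bot_mem hx (Ch.bot_le hx))
  have hv : Chart (cnt T) e fun x => nlev T e 0 (z e.bot x) := fun x hx y hy l => by
    beta_reduce
    rw [hT.cnt_eq hm he hx hy l, nlev_add e (u0 x hx) (hu.le hm he hx hy l)]; ring
  have m0 : ∀ d ≤ e, 0 ≤ mu δ (z e.bot) d := fun d l => (u0 _ (l d.bot_mem)).trans (h.le_mu he hu l)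
  have k1 : ∀ d ≤ e, mu (dS T δ) (fun x => nlev T e 0 (z e.bot x)) d =
      nlev T e 0 (mu δ (z e.bot) d) := fun d l => by
    have e1 := hu _ (l d.bot_mem) _ (l d.top_mem) d.bot_le_top
    have := h.le d (he.mono l)
    rw [mu, dS, hT.shift hm he l (by omega) le_rfl, nlev_add e (m0 d l) (h.mu_le he l),
      show z d.bot d.top - δ d + z e.bot d.bot = mu δ (z e.bot) d by unfold mu; omega,
      show z d.bot d.top + z e.bot d.bot = z e.bot d.top by omega]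
    ring
  have k2 : ∀ C : Ch (Ch P), C.top ≤ e → vv (dS T δ) (cnt T) (fun x => nlev T e 0 (z e.bot x)) C =
      nlev T e 0 (vv δ z (z e.bot) C) := fun C l => by
    obtain ⟨d, d1, d2⟩ := hu.ex_vv δ l
    refine le_antisymm ((hv.vv_le l).2 fun c hc => ?_) ?_
    · have := nlev_nonneg (T := T) e (mu δ (z e.bot) c) (vv δ z (z e.bot) C)
      rw [k1 c (le_top' hc l), nlev_add e (m0 c (le_top' hc l)) (hu.le_vv l hc)]
      omega
    · rw [d2, ← k1 d (le_top' d1 l)]; exact hv.le_vv l d1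
  have l1 : X.top ≤ e := hE ▸ Ch.top_mono hp.1
  have v0 : 0 ≤ vv δ z (z e.bot) X := (m0 _ l1).trans (hu.le_vv l1 X.top_mem)
  have v1 := hu.vv_mono (δ := δ) hE.le hp.1
  rw [hv.rf hE.le hp.1, k2 X l1, k2 Y hE.le, nlev_add e v0 v1, add_sub_cancel_left, cnt,
    dif_pos hp.1, hu.rf hE.le hp.1, nlev, nlev]
  congr 1
  have key : ∀ k, 0 ≤ k → k < vv δ z (z e.bot) Y - vv δ z (z e.bot) X →
      (lev (h.car hm ⁻¹' T) (Ch.pr X Y hp.1) k ↔ lev T e (k + vv δ z (z e.bot) X)) := by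
    intro k h1 h2
    obtain ⟨p, p1, p2⟩ := h.cell hm hu ((dom_pr hp.1).2 hp) (by simpa using hE.le)
      (t := k + vv δ z (z e.bot) X) (by simpa using h1) (by simp only [Ch.top_pr]; omega)
    have e0 : p.1.1.top.top = e := by simpa [p1] using hE
    have e1 := h.car_lv hm hu p e0.le
    rw [e0, Kh11.dom_self hz.coc he e.bot_mem, p1, p2, add_zero] at e1
    rw [Ch.bot_pr, add_left_inj] at p2
    rw [← p1, ← p2, lev_self, p2, ← e1, ← e0]
    exact (lev_self (q := h.car hm p)).symm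
  refine card_bij (fun k _ => k + vv δ z (z e.bot) X) (fun k hk => ?_) (fun k _ k' _ e => by omega)
    fun k hk => ?_
  · obtain ⟨k1, k2⟩ := mem_filter.1 hk
    rw [mem_Ico] at k1
    exact mem_filter.2 ⟨mem_Ico.2 ⟨by omega, by omega⟩, (key k k1.1 k1.2).1 k2⟩
  · obtain ⟨k1, k2⟩ := mem_filter.1 hk
    rw [mem_Ico] at k1
    exact ⟨k - vv δ z (z e.bot) X, mem_filter.2 ⟨mem_Ico.2 ⟨by omega, by omega⟩,
      (key _ (by omega) (by omega)).2 (by rwa [sub_add_cancel])⟩, sub_add_cancel _ _⟩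

theorem iso (hA : A.OrdConnected) (hM : Mf 3 (A2 A)) (hN : Nice (A2 A)) :
    Iso (Ch.top ∘ Ch.top) A z (A2 A) (rf δ z) (h.car hm) where
  mono := h.car_mono hm
  la _ := h.car_la hm
  surj a ha := by
    obtain ⟨q, rfl⟩ := (rf_tt A z).surj ha
    have q2 := (rf_tt A z).map_LA.1 ha
    obtain ⟨p, k⟩ := h.exists_jr hm q (h.la_off hm hA q2)
    exact ⟨p, (lr_jr.la k).1 q2,
      Rch.of_cm (LA.upper ha (h.map_le hm k)) ha (Or.inr (h.map_le hm k))⟩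
  rch _ hp _ hq := h.rch hm hA hp hq
  chi T hT := (chi_congr (h.cnt_car hm hT)).trans
    ((h.inM_cnt hm hT).chi hA hM hN (hT.coc hm) mono_cnt)
  nm T hT := (nm_congr (h.cnt_car hm hT)).trans ((h.inM_cnt hm hT).nm (hT.coc hm) mono_cnt)
  coh T hT := ⟨-gm A (dS T δ) (cnt T), fun o ho => neg_eq_zero.2 (if_neg fun k =>
      let ⟨_, _, a1, a2⟩ := ho; (om_dn hA k (Ch.top_mono (Ch.top_mono a2))).1 a1),
    (h.cnt_car hm hT).trans ((h.inM_cnt hm hT).eqD (hT.coc hm) mono_cnt)⟩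
  dip X Y hp hX hY k := by
    have he := dp_dom2 hp
    obtain ⟨u, hu⟩ := exists_chart hz.coc he
    have l := Ch.top_mono hp.1
    obtain ⟨y1, C, y2, y3⟩ := hY
    have e1 := h.vv_le hm he hu (le_refl Y.top)
    rw [hu.rf le_rfl hp.1] at k
    suffices ∃ x ∈ X.top.1, x ∉ A ∧ u x ≤ vv δ z u X by
      obtain ⟨x, x1, x2, x3⟩ := this
      have x4 := Ch.le_top (l x1)
      exact ⟨x, _, he.dp (l x1) Y.top.top_mem x4, x2, ⟨y1, _, y2, Ch.top_mono (Ch.top_mono y3)⟩,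
        by rw [hu _ (l x1) _ Y.top.top_mem x4]; omega⟩
    by_cases o : X.top.top ∈ Om A
    · exact ⟨_, Mcg32.bb_mem X, (om_dn hA o (Ch.le_top (Mcg32.bb_mem X))).1, h.le_vv he hu l⟩
    · exact ⟨_, X.top.top_mem, hX, (h.vv_off hm he hu l o).ge⟩

end InM

/-! ### iteration -/

theorem iso_refl [IsCoc A z] : Iso id A z A z id :=
  ⟨monotone_id, fun _ h => h, fun q h => ⟨q, h, Rch.rfl⟩, fun _ _ _ _ h => h, fun _ _ => rfl,
    fun _ _ => rfl, fun _ _ => ⟨0, fun _ _ => rfl, by rw [cb_zero, add_zero]; exact EqD.rfl⟩,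
    fun x y h1 h2 h3 h4 => ⟨x, y, h1, h2, h3, h4⟩⟩

theorem iso_comp {Q R : Type} [PartialOrder Q] [Fintype Q] [PartialOrder R] [Fintype R]
    {f : Q → P} {g : R → Q} {B : Set Q} {C : Set R} {w : Q → Q → ℤ} {v : R → R → ℤ} [IsCoc A z]
    [IsCoc B w] [IsCoc C v] {m : Lv B w → Lv A z} {n : Lv C v → Lv B w} (h : Iso f A z B w m)
    (h' : Iso g B w C v n) (hg : Monotone g) (e : C = g ⁻¹' B) : Iso (f ∘ g) A z C v (m ∘ n) := by
  have sat : ∀ T, Sat T → Sat (m ⁻¹' T) := fun T hT p q k => hT _ _ (h.mono k)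
  refine ⟨h.mono.comp h'.mono, fun p k => h.la _ (h'.la p k), fun q hq => ?_,
    fun p hp q hq k => h'.rch p hp q hq (h.rch _ (h'.la p hp) _ (h'.la q hq) k),
    fun T hT => (h'.chi _ (sat T hT)).trans (h.chi T hT),
    fun T hT => (h'.nm _ (sat T hT)).trans (h.nm T hT), fun T hT => ?_,
    fun x y h1 h2 h3 h4 => let ⟨x, y, h1, h2, h3, h4⟩ := h'.dip x y h1 h2 h3 h4
      h.dip x y h1 h2 h3 h4⟩
  · obtain ⟨p, p1, p2⟩ := h.surj q hq
    obtain ⟨r, r1, r2⟩ := h'.surj p p1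
    exact ⟨r, r1, (r2.map fun a ha b hb l =>
      Rch.of_cm (h.la a ha) (h.la b hb) (Or.inl (h.mono l))).trans p2⟩
  · obtain ⟨a, a1, a2⟩ := h.coh T hT
    obtain ⟨b, b1, b2⟩ := h'.coh _ (sat T hT)
    subst e
    exact ⟨a ∘ g + b, fun o ho => by
      rw [Pi.add_apply, b1 o ho, Function.comp, a1 _ ⟨ho.1, let ⟨_, c, k, l⟩ := ho; ⟨_, k, hg l⟩⟩,
        add_zero], b2.trans (by rw [cb_add, ← add_assoc]; exact (a2.pb hg).add EqD.rfl)⟩

theorem InM.om_val (h : InM A z δ) (hz : Coc A z) {N : ℤ}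
    (hN : ∀ d : Ch P, d.top ∈ Om A → δ d ≤ N ∧ z d.bot d.top - δ d ≤ N) (hA : A.OrdConnected)
    (hm : Mono A z) {C D : Ch (Ch P)} (hD : D ∈ Om (A2 A)) (k : C ≤ D) : rf δ z C D ≤ N := by
  have o : D.top.top ∈ Om A := Hlf24.om_sd.1 (Hlf24.om_sd.1 hD)
  have he := dom_om o
  obtain ⟨u, hu⟩ := exists_chart hz he
  obtain ⟨d, hd, e⟩ := hu.ex_vv δ (C := D) le_rfl
  have h1 := hu.le_vv (δ := δ) (Ch.top_mono k) C.top_mem
  have l1 := Ch.le_top hd
  have l2 := Ch.top_mono k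
  have k1 := hN d (om_dn hA o (Ch.top_mono l1))
  have k2 := hN C.top (om_dn hA o (Ch.top_mono l2))
  have e1 := hu _ (l1 d.bot_mem) _ (l1 d.top_mem) d.bot_le_top
  have e2 := h.le _ (he.mono l2)
  have e3 := h.nn _ (he.mono l1)
  have e4 := hu _ (l2 C.top.bot_mem) _ (l2 C.top.top_mem) C.top.bot_le_top
  rw [hu.rf le_rfl k, e]
  simp only [mu] at h1 ⊢
  rcases D.total (k C.top_mem) hd with l | l
  · have := hu.le hm he (l1 d.bot_mem) (l2 C.top.bot_mem) (Ch.bot_anti l)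
    omega
  · have := hu.le hm he (l1 d.top_mem) (l2 C.top.top_mem) (Ch.top_mono l)
    omega

/-- the conclusion of REG -/
def Reg (s : St) (z : s.P → s.P → ℤ) [IsCoc s.A z] : Prop :=
  ∃ (t : St) (f : t.P → s.P) (w : t.P → t.P → ℤ) (_ : IsCoc t.A w) (m : Lv t.A w → Lv s.A z),
    Desc s t f ∧ Sf t.A w ∧ Iso f s.A z t.A w m ∧ JO t.A w ∧ BR t.A w

theorem InM.step {s : St} {z : s.P → s.P → ℤ} {δ : Ch s.P → ℤ} [IsCoc s.A z] (h : InM s.A z δ)
    (hs : Good s) (hz : Sf s.A z) : Sf (A2 s.A) (rf δ z) ∧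
      Iso (Ch.top ∘ Ch.top) s.A z (A2 s.A) (rf δ z) (h.car hz.mono) :=
  have g := Good.desc hs (desc2 s)
  ⟨⟨mono_rf hz.coc δ, _, h.noCl hz.mono hs.conv hz.noCl⟩, h.iso hz.mono hs.conv g.mf g.nice⟩

theorem reg_last {s : St} {z : s.P → s.P → ℤ} [IsCoc s.A z] (hs : Good s) (hz : Sf s.A z)
    (hj : JO s.A z) : Reg s z := by
  let δ : Ch s.P → ℤ := fun d => if d.top ∈ Om s.A then z d.bot d.top else 0
  have h : InM s.A z δ := ⟨fun d hd => by
      have := hz.mono _ _ hd.bt; simp only [δ]; split_ifs <;> omega,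
    fun d hd => by have := hz.mono _ _ hd.bt; simp only [δ]; split_ifs <;> omega,
    fun _ k => if_neg k⟩
  have e : ∀ C D : Ch (Ch s.P), D ∈ Om (A2 s.A) → C ≤ D →
      rf δ z C D = pb (fun C : Ch (Ch s.P) => C.bot.bot) z C D := fun C D hD k => by
    have o : D.top.top ∈ Om s.A := Hlf24.om_sd.1 (Hlf24.om_sd.1 hD)
    have he := dom_om o
    obtain ⟨u, hu⟩ := exists_chart hz.coc he
    have v : ∀ C : Ch (Ch s.P), C.top ≤ D.top → vv δ z u C = u C.bot.bot := fun C l =>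
      le_antisymm ((hu.vv_le l).2 fun d hd => by
        have l1 := le_top' hd l
        have := hu.le hz.mono he (l1 d.bot_mem) (l (Mcg32.bb_mem C)) (Ch.bot_anti (Ch.bot_le hd))
        simp only [mu, δ, if_pos (om_dn hs.conv o (Ch.top_mono l1)),
          hu _ (l1 d.bot_mem) _ (l1 d.top_mem) d.bot_le_top]
        omega) (h.le_vv he hu l)
    rw [hu.rf le_rfl k, v D le_rfl, v C (Ch.top_mono k), pb,
      hu _ (Ch.top_mono k (Mcg32.bb_mem C)) _ (Mcg32.bb_mem D) (Mcg32.bb_mono k)]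
  refine ⟨s.sd.sd, _, rf δ z, _, _, desc2 s, (h.step hs hz).1, (h.step hs hz).2,
    fun C D hD k => (e C D hD k).trans_le (hj _ _ (om_dn hs.conv (Hlf24.om_sd.1 (Hlf24.om_sd.1 hD))
      (Ch.le_top (Mcg32.bb_mem D))) (Mcg32.bb_mono k)), fun o ho y hy l k => ?_⟩
  have k' := Mcg32.br_bb hs.conv hz.coc hz.mono o ho y hy l (e o y hy l ▸ k)
  exact (congrArg Ctr (Set.ext fun p => and_congr_right fun a => and_congr_right fun b => by
    rw [e o p a b])).mpr k'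

theorem reg_ind (n : ℕ) : ∀ (s : St) (z : s.P → s.P → ℤ) [IsCoc s.A z], Good s → Sf s.A z →
    (∀ x y, y ∈ Om s.A → x ≤ y → z x y ≤ n + 1) → Reg s z := by
  induction n with
  | zero => exact fun s z _ hs hz h => reg_last hs hz fun x y a b => by simpa using h x y a b
  | succ n ih =>
    intro s z hc hs hz hn
    let δ : Ch s.P → ℤ := fun d => if d.top ∈ Om s.A then (z d.bot d.top + 1) / 2 else 0
    have h : InM s.A z δ := ⟨fun d hd => by
        have := hz.mono _ _ hd.bt; simp only [δ]; split_ifs <;> omega,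
      fun d hd => by have := hz.mono _ _ hd.bt; simp only [δ]; split_ifs <;> omega,
      fun _ k => if_neg k⟩
    obtain ⟨a, b⟩ := h.step hs hz
    obtain ⟨t, f, w, _, m, d, sf, i, r⟩ := @ih s.sd.sd (rf δ z) ⟨a.coc⟩ (Good.desc hs (desc2 s)) a
      fun C D hD k => h.om_val hz.coc (fun d o => by
        have := hn _ _ o d.bot_le_top
        simp only [δ, if_pos o]; push_cast at this; omega) hs.conv hz.mono hD k
    exact ⟨t, _, w, _, _, (desc2 s).trans d, sf, @iso_comp _ _ _ _ _ _ _ _ _ _ _ _ _ _ _ _ _ hc ⟨a.coc⟩ _ _ _ b i d.mono d.A_eq, r⟩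

theorem regStmt : Ind26.RegStmt := fun s z _ hs hz =>
  reg_ind _ s z hs hz fun x y _ _ => (le_sum z x y).trans (le_add_of_nonneg_right zero_le_one)

end Crest.Agent.X212.Cut21
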